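import Claimed.Agent.R285.F4a.Defs
import Claimed.Agent.R285.Read.B4

/-!
# ROW 285, [F] s4.2: Proposition 4.1 + Lemma 4.3 as an instance of `Read/B4.lean`   (statements helper251; post BP-F4a-P41 #15249: helper241)

VERSION 2 (helper241).  NO `sorry` IN THIS FILE: everything is PROVED from the contracts of `Read/B4.lean` (v10).
* `StepHyp`  = HYPOTHESES on one retained pair (kernels, regulator stability, monotonicity, closure geometry), ANY covariance, ANY radii, both boundary conventions.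
* `StepGain` = CONCLUSIONS (neutral gains, charge gain, admissibility, exact map, quadratic + Lipschitz remainder, large inputs).
* `local_map_core` : `StepHyp → StepGain`, for ARBITRARY `(Ck, ck, ρ, r, R, n0, sepV, cst)` (e.g. the fields of a `B8.Geo`), with the order of all other constants.
* `local_map_hyp`  : `StepHyp` for the observation regulators; `n0, Ck, ck` do NOT depend on `o`; `cst, ℓ0` are uniform for `κ ∈ [κmin, κ0]`.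
* `local_map_input`: the two together = [F] P4.1 + L4.3.
CHANGES with respect to version 1 (no Lean consumer existed):
 (a) `D1` is chosen together with `ℓ0` (after `h₀, β`), as in `B8.raw_system` (the contracts of B4 give their `D1` there);
 (b) evenness is only assumed IN THE STRIP; (c) the exact map holds at all COMPLEX fields of the smallest strip; (d) no restriction on the collar except `2 col < L u` in `exact`;
 (e) `quad` added; `large` needs no holomorphy; (f) NO hypothesis on the free field `Extra.sep` in `local_map_input` (`reSep`);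
 (g) `A0` does not depend on `Cd` (scaling `ε ↦ (Cd + 1) ε`).
The labelled map (`local_exact_labelled` of version 1) is in `F4a/Label.lean`, in the form used by `Obs/PairDefs.lean` (derivative along `K + s J`, `d + s ḋ`).
-/

set_option autoImplicit false

namespace Claimed.Agent.R285.F4a

open scoped BigOperators ENNReal NNReal
open MeasureTheory ProbabilityTheory Polynomial
open Claimed.Agent.R285 Claimed.Agent.R285.RG Claimed.Agent.R285.B4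

noncomputable section

variable {G : Geom}

/-- `V` is the observation regulator (eq:observation-regulator) at the level `g`, cells `c` -/
def IsObs (o : ObsPar) (c g : Grid G) (V : Extra g) : Prop :=
  ∀ X φ, V.V X φ = Vobs o.a o.hstar o.p1 c g (Cless G g.m) X φ

/-! ## 1. Hypotheses and conclusions for one retained pair -/

/-- HYPOTHESES on one retained pair `u → L u`: kernels ([B] L4.1), regulators ([B] L4.4 / L9.2), closure geometry ([B] L4.3).  Range `ρ`, radii `r < R`, threshold `n0`. -/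
structure StepHyp (p : Par) (ρ r R n0 : ℕ) (Ck ck : ℝ) (cst : ℝ≥0) {D0 ℓ : ℕ} (P : Pair G D0 ℓ) (Γ : Matrix G.V G.V ℝ)
    (Vf : Extra P.g) (Vc : Extra P.g') : Prop where
  /-- kernels ([B] L4.1 for (ent:reference-split)) -/
  shell : ShellOK Ck ck ρ P Γ
  /-- "costs `C^{|X|}` under shell averaging" -/
  reg : RegStable R n0 cst p.δ p.κ P Vf Vc Γ
  adm : p.Adm P.g'
  /-- closure geometry: small inputs have closures of diameter `≤ 1`, large ones lose half of their blocks -/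
  geo : ∀ X : Finset P.g.I, P.g.Conn R X → P.g'.Conn r (P.N.cl X) ∧ (X.card ≤ n0 → P.g'.idiam (P.N.cl X) ≤ 1) ∧
    (n0 < X.card → 2 * (P.N.cl X).card ≤ X.card)

/-- CONCLUSIONS of P4.1 for one retained pair, with named constants -/
structure StepGain (p : Par) (r R n0 : ℕ) (Cg Cd Cnl ε0 η : ℝ≥0) (β : ℝ) {D0 ℓ : ℕ} (P : Pair G D0 ℓ) (Γ : Matrix G.V G.V ℝ)
    (Vf : Extra P.g) (Vc : Extra P.g') : Prop where
  /-- neutral gains `L⁻¹`, `L⁻²`, `L⁻³` -/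
  neutral : ∀ (col : ℕ) (X : Finset P.g.I) (F : Fn G) (ν : ℝ≥0∞), LocalInput p col R n0 P.g Vf X F ν →
    ∀ H, H = conv Γ (chargeProj p.ω 0 F) →
      fnSize p P.g' Vc (P.N.cl X) (fun ψ => H ψ - H 0) ≤ Cg * ν * (2 ^ ℓ : ℝ≥0∞)⁻¹ ∧
      ((∀ ψ ∈ strip p.h0 P.g X, F (-ψ) = F ψ) →
        fnSize p P.g' Vc (P.N.cl X) (fun ψ => H ψ - H 0) ≤ Cg * ν * (2 ^ ℓ : ℝ≥0∞)⁻¹ ^ 2 ∧
        (P.g.Bulk X → ∀ v0 ∈ P.g.sites X,
          ((‖H 0‖₊ : ℝ≥0∞) + ∑ i, ∑ j, (‖DX P.g v0 H i j‖₊ : ℝ≥0∞) ≤ Cg * ν) ∧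
          fnSize p P.g' Vc (P.N.cl X) (fun ψ => H ψ - ∑ B ∈ X, Loc P.g X v0 H B ψ) ≤ Cg * ν * (2 ^ ℓ : ℝ≥0∞)⁻¹ ^ 3))
  /-- the Gaussian charge gain, [B] (4.26) -/
  charge : ∀ (col : ℕ) (X : Finset P.g.I) (F : Fn G) (ν : ℝ≥0∞), LocalInput p col R n0 P.g Vf X F ν →
    ∀ v0 ∈ P.g.sites X, ∀ q : ℤ, q ≠ 0 →
      fnSize ⟨p.δ, p.κ / 2, p.h0, p.A, p.ω⟩ P.g' Vc (P.N.cl X) (conv Γ (chargeProj p.ω q F))
        ≤ Cg * ν * ENNReal.ofReal (Real.exp (-(β * |(q : ℝ)| * (2 * Real.pi / p.ω) - β ^ 2 / 2) * Γ v0 v0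
              + p.h0 * |(q : ℝ)| * (2 * Real.pi / p.ω)))
  /-- preservation of period, locality (the collar does not grow), analyticity -/
  ok : ∀ (col : ℕ) (K : Act P.g), Act.Ok p col R K → actNorm p P.g Vf K ≠ ⊤ → ∀ d : Desig P.g' (Fn G), d.Ok p col r →
    Act.Ok p col R (Kprime P r R (conv Γ) K d)
  /-- (eq:exact-local-map), at all complex fields of the smallest strip -/
  exact : ∀ (col : ℕ), 2 * col < P.g'.m → ∀ K : Act P.g, Act.Ok p col R K → actNorm p P.g Vf K ≠ ⊤ →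
    ∀ d : Desig P.g' (Fn G), d.Ok p col r → ∀ z ∈ strip p.h0 P.g' Finset.univ,
      conv Γ (ZA P.g R K) z = (∏ b : P.g'.I, (1 + d.a b)) * ZA P.g' R (Kprime P r R (conv Γ) K d) z
  /-- the nonlinear remainder `≤ C_{L,A_w} ν²` -/
  quad : ∀ (col : ℕ) (ε : ℝ≥0), ε ≤ ε0 → ∀ (K : Act P.g) (d : Desig P.g' (Fn G)), Act.Ok p col R K → d.Ok p col r →
    actNorm p P.g Vf K ≤ ε → d.size p Vc ≤ Cd * ε →
    actNorm p P.g' Vc (Kprime P r R (conv Γ) K d - Klin P R (conv Γ) K d) ≤ Cnl * ε ^ 2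
  /-- its Lipschitz form -/
  lip : ∀ (col : ℕ) (ε : ℝ≥0), ε ≤ ε0 → ∀ (K K₂ : Act P.g) (d d₂ : Desig P.g' (Fn G)),
    Act.Ok p col R K → Act.Ok p col R K₂ → d.Ok p col r → d₂.Ok p col r →
    actNorm p P.g Vf K ≤ ε → actNorm p P.g Vf K₂ ≤ ε → d.size p Vc ≤ Cd * ε → d₂.size p Vc ≤ Cd * ε →
    actNorm p P.g' Vc
        ((Kprime P r R (conv Γ) K d - Klin P R (conv Γ) K d) - (Kprime P r R (conv Γ) K₂ d₂ - Klin P R (conv Γ) K₂ d₂))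
      ≤ Cnl * ε * (actNorm p P.g Vf (K - K₂) + Desig.size p Vc ⟨d.F - d₂.F, d.a - d₂.a⟩)
  /-- large inputs -/
  large : ∀ K : Act P.g,
    actNorm p P.g' Vc (fun Y => open Classical in ∑ X ∈ Finset.univ.filter
      (fun X : Finset P.g.I => P.g.Conn R X ∧ n0 < X.card ∧ P.N.cl X = Y), conv Γ (K X))
      ≤ η * actNorm p P.g Vf K

/-- all of P4.1 for ONE retained pair `u → L u`, with named constants.  Radii `r0 < RR` of [B] s4; `Γ = Γ_u`. -/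
structure StepOK (p : Par) (n0 : ℕ) (Ck ck : ℝ) (cst Cg Cd Cnl ε0 η : ℝ≥0) (β : ℝ) {D0 ℓ : ℕ} (P : Pair G D0 ℓ)
    (Vf : Extra P.g) (Vc : Extra P.g') : Prop where
  hyp : StepHyp p (pp + 1) r0 RR n0 Ck ck cst P (RG.shell G Fam.entry P.g.m P.g'.m) Vf Vc
  gain : StepGain p r0 RR n0 Cg Cd Cnl ε0 η β P (RG.shell G Fam.entry P.g.m P.g'.m) Vf Vc

/-! ## 2. The field `Extra.sep` is irrelevant -/

/-- the same regulator with another separation -/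
def reSep {g : Grid G} (V : Extra g) (s : ℕ) (h : ∀ X X' φ, g.Sep s X X' → V.V X φ + V.V X' φ ≤ V.V (X ∪ X') φ) : Extra g :=
  ⟨V.V, s, V.nonneg, V.homog, V.const, V.mono, h⟩

theorem StepHyp.reSep {p : Par} {ρ r R n0 : ℕ} {Ck ck : ℝ} {cst : ℝ≥0} {D0 ℓ : ℕ} {P : Pair G D0 ℓ} {Γ : Matrix G.V G.V ℝ}
    {Vf : Extra P.g} {Vc : Extra P.g'} (h : StepHyp p ρ r R n0 Ck ck cst P Γ Vf Vc) (s s' : ℕ) (hf) (hc) :
    StepHyp p ρ r R n0 Ck ck cst P Γ (F4a.reSep Vf s hf) (F4a.reSep Vc s' hc) :=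
  ⟨h.shell, ⟨h.reg.main, h.reg.small⟩, h.adm, h.geo⟩

theorem StepGain.of_reSep {p : Par} {r R n0 : ℕ} {Cg Cd Cnl ε0 η : ℝ≥0} {β : ℝ} {D0 ℓ : ℕ} {P : Pair G D0 ℓ} {Γ : Matrix G.V G.V ℝ}
    {Vf : Extra P.g} {Vc : Extra P.g'} {s s' : ℕ} {hf} {hc}
    (h : StepGain p r R n0 Cg Cd Cnl ε0 η β P Γ (F4a.reSep Vf s hf) (F4a.reSep Vc s' hc)) :
    StepGain p r R n0 Cg Cd Cnl ε0 η β P Γ Vf Vc where
  neutral := fun col X F ν hi => h.neutral col X F ν ⟨hi.conn, hi.small, hi.fn, hi.bd⟩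
  charge := fun col X F ν hi => h.charge col X F ν ⟨hi.conn, hi.small, hi.fn, hi.bd⟩
  ok := h.ok
  exact := h.exact
  quad := h.quad
  lip := h.lip
  large := h.large

/-! ## 3. `StepHyp → StepGain` -/

/-- the quadratic bound at `Cd = 1` gives the quadratic bound at every `Cd` (replace `ε` by `Cd ε`) -/
theorem quadAt_scale {D0 ℓ : ℕ} {P : Pair G D0 ℓ} {Γ : Matrix G.V G.V ℝ} {Vf : Extra P.g} {Vc : Extra P.g'} {p : Par} {r R : ℕ}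
    {C ε1 : ℝ≥0} (h : Scal.QuadAt P Γ Vf Vc p r R 1 C ε1) (Cd : ℝ≥0) (hCd : 1 ≤ Cd) :
    Scal.QuadAt P Γ Vf Vc p r R Cd (C * Cd ^ 2) (ε1 / Cd) := by
  intro K d hd ε hε hK hdε
  have hCd0 : 0 < Cd := lt_of_lt_of_le one_pos hCd
  have h1 : Cd * ε ≤ ε1 := by
    calc Cd * ε ≤ Cd * (ε1 / Cd) := by gcongr
      _ = ε1 := mul_div_cancel₀ _ hCd0.ne'
  have h2 : (ε : ℝ≥0∞) ≤ ((Cd * ε : ℝ≥0) : ℝ≥0∞) := by
    have : ε ≤ Cd * ε := by nth_rewrite 1 [← one_mul ε]; gcongr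
    exact_mod_cast this
  have := h K d hd (Cd * ε) h1 (hK.trans h2) (by rw [ENNReal.coe_one, one_mul]; exact hdε.trans (le_of_eq (by push_cast; rfl)))
  refine this.trans (le_of_eq ?_)
  push_cast
  ring

/-- **[F] P4.1, from the hypotheses to the conclusions**, for arbitrary kernel constants, radii, threshold and per-block cost.
Order: `(Ck, ck, ρ, r, R, n0, sepV, cst)`; `C_sh`; `(δ, κ, h₀, β_sh)` with `h₀ ≥ C_sh β_sh`; gain constant `Cg`, `L ≥ L₀`, clearance `D₁`; `η`, `A_w ≥ A₀ (L, η)`; `Cd`; `C_{L,A_w}`, `ε₀`.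
Uniform in: period `ω`, volume, scale `u`, covariance, regulators, collar, boundary convention. -/
theorem local_map_core (Ck ck : ℝ) (ρ r R n0 sepV : ℕ) (hρ : ρ + 1 < r) (hs : max 5 sepV < r) (hrR : r + 2 < R) (cst : ℝ≥0) :
    ∃ Csh : ℝ, ∀ (δ κ : ℝ) (h0 : ℝ≥0) (β : ℝ), 0 < δ → 0 < κ → 0 < h0 → 0 < β → Csh * β ≤ h0 →
    ∃ (Cg : ℝ≥0) (ℓ0 D1 : ℕ), ∀ ℓ ≥ ℓ0, ∀ η > (0 : ℝ≥0), ∃ A0 : ℝ, ∀ A ≥ A0, ∀ Cd : ℝ≥0, ∃ (Cnl ε0 : ℝ≥0), 0 < ε0 ∧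
      ∀ ω : ℝ, 0 < ω → ∀ D0 ≥ D1, ∀ (G : Geom) (P : Pair G D0 ℓ) (Γ : Matrix G.V G.V ℝ) (Vf : Extra P.g) (Vc : Extra P.g'),
        StepHyp ⟨δ, κ, h0, A, ω⟩ ρ r R n0 Ck ck cst P Γ Vf Vc → Vf.sep ≤ sepV → Vc.sep ≤ sepV →
        StepGain ⟨δ, κ, h0, A, ω⟩ r R n0 Cg Cd Cnl ε0 η β P Γ Vf Vc := by
  obtain ⟨C1, hch⟩ := B4.charged_gain Ck ck ρ R n0 cst
  refine ⟨C1, fun δ κ h0 β hδ hκ hh hβ hC => ?_⟩
  obtain ⟨Cn, ℓn, Dn, hn⟩ := B4.neutral_localization R n0 cst δ κ h0 hδ hκ hh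
  obtain ⟨Cc, ℓc, Dc, hc⟩ := hch δ κ h0 hδ hκ β hβ hC
  obtain ⟨D4, h4⟩ := B4.geometry_four
  refine ⟨max Cn Cc, max (max ℓn ℓc) R, max (max Dn Dc) D4, fun ℓ hℓ η hη => ?_⟩
  have hℓn : ℓn ≤ ℓ := ((le_max_left _ _).trans (le_max_left _ _)).trans hℓ
  have hℓc : ℓc ≤ ℓ := ((le_max_right _ _).trans (le_max_left _ _)).trans hℓ
  have hL : R ≤ 2 ^ ℓ := ((le_max_right _ _).trans hℓ).trans Nat.lt_two_pow_self.le
  obtain ⟨Al, hl⟩ := B4.large_linear_abs R n0 cst η hη ℓ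
  obtain ⟨An, hnl⟩ := Est.nonlinear_core r R (max 5 sepV) n0 ((2 ^ (ℓ + 1)) ^ 2) hs hrR cst 1
  refine ⟨max (max (Al : ℝ) An) 1, fun A hA Cd => ?_⟩
  have hA1 : (1 : ℝ) ≤ A := le_trans (le_max_right _ _) hA
  have hA0 : 0 < A := by linarith
  have hAl : Al ≤ A.toNNReal := by
    rw [← NNReal.coe_le_coe, Real.coe_toNNReal A hA0.le]
    exact ((le_max_left _ _).trans (le_max_left _ _)).trans hA
  have hAn : An ≤ A.toNNReal := by
    rw [← NNReal.coe_le_coe, Real.coe_toNNReal A hA0.le]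
    exact ((le_max_right _ _).trans (le_max_left _ _)).trans hA
  obtain ⟨C, ε1, hε1, hq1⟩ := hnl A.toNNReal hAn
  refine ⟨8 * (C * (Cd + 1) ^ 2), min (ε1 / (Cd + 1) / 2) (1 / (2 * (Cd + 1))), by positivity, ?_⟩
  intro ω hω D0 hD0 G P Γ Vf Vc hyp hVf hVc
  have hDn : Dn ≤ D0 := ((le_max_left _ _).trans (le_max_left _ _)).trans hD0
  have hDc : Dc ≤ D0 := ((le_max_right _ _).trans (le_max_left _ _)).trans hD0
  have hD4 : D4 ≤ D0 := (le_max_right _ _).trans hD0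
  set p : Par := ⟨δ, κ, h0, A, ω⟩ with hpdef
  have hR : max 5 Vf.sep ≤ R := by
    have : max 5 Vf.sep ≤ max 5 sepV := max_le_max le_rfl hVf
    omega
  have hgeo : Est.GeoHyp P r R n0 ((2 ^ (ℓ + 1)) ^ 2) :=
    ⟨fun X hX => (hyp.geo X hX).2.2, B4.geometry_fibre P, fun X hX => (hyp.geo X hX).1, h4 D0 hD4 G ℓ P⟩
  have hq0 : Scal.QuadAt P Γ Vf Vc p r R 1 C ε1 := by
    intro K' d' hd' ε' hε' hKε' hdε'
    have := hq1 D0 ℓ G P hgeo (Fn G) (conv Γ) (Scal.scalarSizes P Γ Vf Vc p R n0 cst hyp.reg hyp.adm hR) K' d'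
      (max_le_max le_rfl hVc) le_rfl hd' ε' hε'
      (by rw [Scal.nf_scalarSizes P Γ Vf Vc p hA0.le]; exact hKε') (by rw [Scal.nd_scalarSizes]; exact hdε')
    rwa [Scal.nc_scalarSizes P Γ Vf Vc p hA0.le] at this
  have hq : Scal.QuadAt P Γ Vf Vc p r R (Cd + 1) (C * (Cd + 1) ^ 2) (ε1 / (Cd + 1)) := quadAt_scale hq0 (Cd + 1) le_add_self
  have hε2 : ∀ ε : ℝ≥0, ε ≤ min (ε1 / (Cd + 1) / 2) (1 / (2 * (Cd + 1))) → 2 * ε ≤ ε1 / (Cd + 1) := by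
    intro ε hε
    have h1 : ε ≤ ε1 / (Cd + 1) / 2 := le_trans hε (min_le_left _ _)
    calc 2 * ε ≤ 2 * (ε1 / (Cd + 1) / 2) := by gcongr
      _ = ε1 / (Cd + 1) := by rw [mul_div_assoc']; exact mul_div_cancel_left₀ _ two_ne_zero
  have hε3 : ∀ ε : ℝ≥0, ε ≤ min (ε1 / (Cd + 1) / 2) (1 / (2 * (Cd + 1))) → (Cd + 1) * ε < 1 := by
    intro ε hε
    have h1 : ε ≤ 1 / (2 * (Cd + 1)) := le_trans hε (min_le_right _ _)
    calc (Cd + 1) * ε ≤ (Cd + 1) * (1 / (2 * (Cd + 1))) := by gcongr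
      _ = 1 / 2 := by field_simp
      _ < 1 := by norm_num
  refine
    { neutral := fun col X F ν hi H hH => ?_
      charge := fun col X F ν hi v0 hv0 q hq' => ?_
      ok := fun col K hK hfin d hd => B4.Kprime_ok P Γ Vf Vc p hA0 col r R n0 cst hR K hK hfin hyp.reg d hd
      exact := fun col hcol K hK hfin d hd z hz =>
        B4.exact_map P Γ Vf Vc p hA0 ρ col r R n0 cst hρ hrR hcol hL hR hyp.shell.psd hyp.shell.range K hK hfin hyp.reg d hd z hz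
      quad := fun col ε hε K d hK hd hKε hdε => ?_
      lip := fun col ε hε K K₂ d d₂ hK hK₂ hd hd₂ hKε hK₂ε hdε hd₂ε =>
        Scal.lipschitz_of_quad hA0 hR hyp.reg hq (hε2 ε hε) (hε3 ε hε) hK hK₂ hd hd₂ hKε hK₂ε hdε hd₂ε
      large := fun K => ?_ }
  · -- neutral
    have hCn : ((Cn : ℝ≥0) : ℝ≥0∞) ≤ ((max Cn Cc : ℝ≥0) : ℝ≥0∞) := by exact_mod_cast le_max_left Cn Cc
    obtain ⟨a1, a2⟩ := hn p col rfl rfl rfl hω D0 hDn G ℓ hℓn P Γ Vf Vc hyp.shell.psd hyp.reg X F ν hi H hH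
    refine ⟨a1.trans (by gcongr), fun hev => ?_⟩
    obtain ⟨b1, b2⟩ := a2 hev
    refine ⟨b1.trans (by gcongr), fun hb v0 hv0 => ?_⟩
    obtain ⟨c1, c2⟩ := b2 hb v0 hv0
    exact ⟨c1.trans (by gcongr), c2.trans (by gcongr)⟩
  · -- charge
    have hCc : ((Cc : ℝ≥0) : ℝ≥0∞) ≤ ((max Cn Cc : ℝ≥0) : ℝ≥0∞) := by exact_mod_cast le_max_right Cn Cc
    exact (hc p col rfl rfl rfl hω D0 hDc G ℓ hℓc P Γ Vf Vc hyp.shell hyp.reg X F ν hi v0 hv0 q hq').trans (by gcongr)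
  · -- quadratic bound
    have hεε0 : ε ≤ ε1 / (Cd + 1) := le_trans (by nth_rewrite 1 [← one_mul ε]; gcongr; norm_num) (hε2 ε hε)
    have h1 := hq K d hd.small ε hεε0 hKε (hdε.trans (by gcongr; exact_mod_cast le_self_add))
    refine h1.trans (mul_le_mul' ?_ le_rfl)
    have : C * (Cd + 1) ^ 2 ≤ 8 * (C * (Cd + 1) ^ 2) := by
      nth_rewrite 1 [← one_mul (C * (Cd + 1) ^ 2)]; gcongr; norm_num
    exact_mod_cast this
  · -- large inputs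
    have := hl A.toNNReal hAl D0 G P (fun X hX => (hyp.geo X hX).2.2) (Fn G) (conv Γ)
      (Scal.scalarSizes P Γ Vf Vc p R n0 cst hyp.reg hyp.adm hR) K le_rfl
    rw [Scal.nf_scalarSizes P Γ Vf Vc p hA0.le, Scal.nc_scalarSizes P Γ Vf Vc p hA0.le] at this
    exact this

/-! ## 4. The hypotheses hold for the observation regulators -/

theorem whole_ok {c : Grid G} (hc : Whole c) : c.Ok where
  pos := hc.pos
  mono := hc.mono
  surj := fun b => by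
    have h : 0 < (Finset.univ.filter fun i => c.blk1 i = b).card := by rw [hc.size b]; exact hc.pos
    obtain ⟨i, hi⟩ := Finset.card_pos.1 h
    exact ⟨i, (Finset.mem_filter.1 hi).2⟩
  size := fun b => by
    rw [hc.size b]
    have := hc.pos
    omega
  full := fun b _ => hc.size b

/-- the observation regulator adds at the separation `2 p + 8`, whatever its field `sep` says -/
theorem IsObs.add {o : ObsPar} {c g : Grid G} {V : Extra g} (hV : IsObs o c g V) (hc : c.Ok) (hg : g.Ok) (N : Nest c g)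
    (X X' : Finset g.I) (φ : G.V → ℝ) (h : g.Sep (2 * pp + 8) X X') : V.V X φ + V.V X' φ ≤ V.V (X ∪ X') φ := by
  obtain ⟨V', h1, h2, _⟩ := B4.obs_extra o c g hc hg N
  have e : ∀ X φ, V.V X φ = V'.V X φ := fun X φ => (hV X φ).trans (h2 X φ).symm
  rw [e, e, e]
  exact V'.add X X' φ fun a ha b hb => lt_of_le_of_lt h1 (h a ha b hb)

/-- **the hypotheses of P4.1 for the observation regulators**, tori AND free squares.
`n0, Ck, ck` do not depend on `o`; `cst`, `ℓ0` are uniform in `κ ∈ [κmin, κ0]`. -/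
theorem local_map_hyp : ∃ (n0 : ℕ) (Ck ck : ℝ), 0 < ck ∧ ∀ o : ObsPar, ∃ D1 : ℕ, ∃ δ0 > (0 : ℝ), ∀ δ ∈ Set.Ioc 0 δ0, ∃ κ0 > (0 : ℝ),
    ∀ κmin > (0 : ℝ), ∃ (cst : ℝ≥0) (ℓ0 : ℕ), ∀ κ ∈ Set.Icc κmin κ0, ∀ (h0 : ℝ≥0) (A ω : ℝ), ∀ ℓ ≥ ℓ0, ∀ D0 ≥ D1,
      ∀ (G : Geom) (P : Pair G D0 ℓ) (c : Grid G), Whole c → Nonempty (Nest c P.g) →
      ∀ (Vf : Extra P.g) (Vc : Extra P.g'), IsObs o c P.g Vf → IsObs o c P.g' Vc →
        StepHyp ⟨δ, κ, h0, A, ω⟩ (pp + 1) r0 RR n0 Ck ck cst P (RG.shell G Fam.entry P.g.m P.g'.m) Vf Vc := by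
  obtain ⟨Ds, Ck, ck, hck, hshell⟩ := B4.shellOK_of_fam 1 1 64 0
  obtain ⟨C0, n0, ℓg, Dg, hgeo⟩ := B4.geometry_closure r0 RR (by norm_num [r0, pp])
  obtain ⟨δm, hδm, hmono⟩ := B4.regulator_mono
  refine ⟨n0, Ck, ck, hck, fun o => ?_⟩
  obtain ⟨Dr, δr, hδr, hreg⟩ := B4.obs_regulator o Ck ck RR n0
  refine ⟨max (max Ds Dg) Dr, min δr δm, lt_min hδr hδm, fun δ hδ => ?_⟩
  obtain ⟨κr, hκr, hreg⟩ := hreg δ ⟨hδ.1, hδ.2.trans (min_le_left _ _)⟩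
  refine ⟨κr, hκr, fun κmin hκmin => ?_⟩
  obtain ⟨cst, ℓr, hreg⟩ := hreg κmin hκmin
  refine ⟨cst, max (max ℓg ℓr) 1, fun κ hκ h0 A ω ℓ hℓ D0 hD0 G P c hc hN Vf Vc hVf hVc => ?_⟩
  obtain ⟨N⟩ := hN
  have hℓ1 : ℓg ≤ ℓ := ((le_max_left _ _).trans (le_max_left _ _)).trans hℓ
  have hℓ2 : ℓr ≤ ℓ := ((le_max_right _ _).trans (le_max_left _ _)).trans hℓ
  have hℓ3 : 1 ≤ ℓ := (le_max_right _ _).trans hℓ
  have hDs : Ds ≤ D0 := ((le_max_left _ _).trans (le_max_left _ _)).trans hD0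
  have hDg : Dg ≤ D0 := ((le_max_right _ _).trans (le_max_left _ _)).trans hD0
  have hDr : Dr ≤ D0 := (le_max_right _ _).trans hD0
  have hsh := hshell D0 hDs G Fam.entry B4.entry_adm (by norm_num [Fam.entry]) ℓ hℓ3 P (Nat.zero_le _)
  exact
    { shell := hsh
      reg := hreg D0 hDr G ℓ hℓ2 P c (whole_ok hc) N hsh Vf Vc hVf hVc κ hκ
      adm := ⟨hδ.1, lt_of_lt_of_le hκmin hκ.1, fun X X' hX φ => hmono δ ⟨hδ.1, hδ.2.trans (min_le_right _ _)⟩ _ _ P.ok' X X' hX φ⟩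
      geo := fun X hX => ⟨(hgeo D0 hDg G ℓ hℓ1 P X hX).2.2.1, (hgeo D0 hDg G ℓ hℓ1 P X hX).2.2.2.2,
        (hgeo D0 hDg G ℓ hℓ1 P X hX).2.2.2.1⟩ }

/-! ## 5. Proposition 4.1 + Lemma 4.3 -/

/-- **Proposition 4.1 + Lemma 4.3, as ONE statement with the order of the constants.**
`(a, h_*, p₁, p₂)`; then `n_sm = n0`, kernel constants; `δ`; `κ`; per-block cost `cst`, `C_sh`; `(h₀, β_sh)` with `h₀ ≥ C_sh β_sh`; gain constant `Cg`, `L ≥ L₀`, buffer `D₁`;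
`η`, `A_w ≥ A₀ (L, η)`; `Cd`; `C_{L,A_w}`, `ε₀`.  Uniform in: period `ω`, volume, scale `u`, cell side `s`, boundary convention (torus AND free square = L4.3). -/
theorem local_map_input (o : ObsPar) : ∃ (n0 : ℕ) (Ck ck : ℝ), 0 < ck ∧ ∃ δ0 > (0 : ℝ), ∀ δ ∈ Set.Ioc 0 δ0, ∃ κ0 > (0 : ℝ),
    ∀ κ ∈ Set.Ioc 0 κ0, ∃ (cst : ℝ≥0) (Csh : ℝ), ∀ (h0 : ℝ≥0) (β : ℝ), 0 < h0 → 0 < β → Csh * β ≤ h0 → ∃ (Cg : ℝ≥0) (ℓ0 D1 : ℕ), ∀ ℓ ≥ ℓ0,
    ∀ η > (0 : ℝ≥0), ∃ A0 : ℝ, ∀ A ≥ A0, ∀ Cd : ℝ≥0, ∃ (Cnl ε0 : ℝ≥0), 0 < ε0 ∧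
      ∀ (ω : ℝ), 0 < ω → ∀ D0 ≥ D1, ∀ (G : Geom) (P : Pair G D0 ℓ) (c : Grid G), Whole c → Nonempty (Nest c P.g) →
      ∀ (Vf : Extra P.g) (Vc : Extra P.g'), IsObs o c P.g Vf → IsObs o c P.g' Vc →
        StepOK ⟨δ, κ, h0, A, ω⟩ n0 Ck ck cst Cg Cd Cnl ε0 η β P Vf Vc := by
  obtain ⟨n0, Ck, ck, hck, H⟩ := local_map_hyp
  obtain ⟨Dh, δ0, hδ0, H⟩ := H o
  refine ⟨n0, Ck, ck, hck, δ0, hδ0, fun δ hδ => ?_⟩
  obtain ⟨κ0, hκ0, H⟩ := H δ hδ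
  refine ⟨κ0, hκ0, fun κ hκ => ?_⟩
  obtain ⟨cst, ℓh, H⟩ := H κ hκ.1
  obtain ⟨Csh, Hc⟩ := local_map_core Ck ck (pp + 1) r0 RR n0 (2 * pp + 8) (by norm_num [r0, pp]) (by norm_num [r0, pp])
    (by norm_num [r0, RR, pp]) cst
  refine ⟨cst, Csh, fun h0 β hh hβ hC => ?_⟩
  obtain ⟨Cg, ℓc, Dc, Hc⟩ := Hc δ κ h0 β hδ.1 hκ.1 hh hβ hC
  refine ⟨Cg, max ℓh ℓc, max Dh Dc, fun ℓ hℓ η hη => ?_⟩
  obtain ⟨A0, Hc⟩ := Hc ℓ ((le_max_right _ _).trans hℓ) η hη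
  refine ⟨A0, fun A hA Cd => ?_⟩
  obtain ⟨Cnl, ε0, hε0, Hc⟩ := Hc A hA Cd
  refine ⟨Cnl, ε0, hε0, fun ω hω D0 hD0 G P c hc hN Vf Vc hVf hVc => ?_⟩
  have hyp := H κ ⟨le_rfl, hκ.2⟩ h0 A ω ℓ ((le_max_left _ _).trans hℓ) D0 ((le_max_left _ _).trans hD0) G P c hc hN Vf Vc hVf hVc
  obtain ⟨N⟩ := hN
  have N' : Nest c P.g' := ⟨fun a => P.N.up1 (N.up1 a), fun i => by rw [P.N.comm, N.comm]⟩
  refine ⟨hyp, StepGain.of_reSep (s := 2 * pp + 8) (s' := 2 * pp + 8)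
    (hf := fun X X' φ h => hVf.add (whole_ok hc) P.ok N X X' φ h) (hc := fun X X' φ h => hVc.add (whole_ok hc) P.ok' N' X X' φ h)
    (Hc ω hω D0 ((le_max_right _ _).trans hD0) G P _ _ _ (hyp.reSep _ _ _ _) le_rfl le_rfl)⟩

/-- the second retained singleton (the first is `B4.eB_size`) -/
theorem cB_size (p : Par) (α : ℝ) (g : Grid G) (hg : g.Ok) (V : Extra g) (B : g.I) (hκ : 0 ≤ p.κ) (hδ : 0 ≤ p.δ) :
    fnSize p g V {B} (cBC g α B) ≤ ENNReal.ofReal (4 * Real.exp (p.h0 * |α|)) := by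
  refine (B4.cB_size p hδ hκ α g hg V B).trans (le_of_eq ?_)
  rw [ENNReal.ofReal_mul (by norm_num), mul_comm (p.h0 : ℝ) |α|]
  norm_num

end

end Claimed.Agent.R285.F4a
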