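import Claimed.Agent.R285.F4a.UnitB

/-!
# ROW 285, F4a: the cell flows (ent:cell-flow)   (architect helper251)   LEAF L-F4a-FLOW   (PROVED, helper289)

STATEMENT CHANGE (agreed with helper251, helper31): the sup bound has the extra hypothesis `0 ≤ B` (without it the clause is false for `T.faces = ∅`, `B < 0`).
Uses `whole_blk1`, `whole_card`, `whole_sites_card`, `stp_free`, `stp_per` of `F4a/UnitB.lean`.

EXPLICIT flow.  Let `s = c.m`, `f = (i, d)`, `j = fnb c f`.  `Φ_f (e) = 0` unless the bond `e = (x, d)` has the direction `d` of the face and its source `x` lies in `i` or `j`; let `k ∈ [0, s)` be the local coordinate of `x` in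
direction `d` (`Whole c` gives `c.blk1 t = t / s`, local coordinate `t % s`).  Then `Φ_f (e) = (k + 1)/s²` if `x ∈ i`, `Φ_f (e) = (s - 1 - k)/s²` if `x ∈ j`  (= number of the `s` straight paths `y ↦ y + s e_d` of that row through `e`, times `s⁻²`).
Identity: Abel summation in every row, `∑_{m<s} (u_{m+s} - u_m) = ∑_{t<2s-1} #{m : m ≤ t < m+s} (u_{t+1} - u_t)`; the crossing bonds (`k = s - 1`, `x ∈ i`) have total weight `s · s/s² = 1`, which gives the term `w f`.
Bounds: `0 ≤ Φ ≤ 1/s`; a bond lies in the support of at most 2 flows; `∑_e Φ_f(e)² ≤ 2`.  So `C = 4` works.  `Whole.two` (`2 ≤ c.n`) excludes a face from a cell to itself.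
-/

set_option autoImplicit false

namespace Claimed.Agent.R285.F4a

open scoped BigOperators ENNReal NNReal
open MeasureTheory ProbabilityTheory Polynomial
open Claimed.Agent.R285 Claimed.Agent.R285.RG

noncomputable section

variable {G : Geom}

/-! ### Abel summation -/

theorem cfl_abel1 (U : ℕ → ℝ) (N : ℕ) :
    ∑ k ∈ Finset.range N, ((k : ℝ) + 1) * (U (k + 1) - U k) = N * U N - ∑ k ∈ Finset.range N, U k := by
  induction N with
  | zero => simp
  | succ N ih =>
    rw [Finset.sum_range_succ, ih, Finset.sum_range_succ]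
    push_cast
    ring

theorem cfl_abel2 (V : ℕ → ℝ) (cc : ℝ) (N : ℕ) :
    ∑ k ∈ Finset.range N, (cc - k) * (V (k + 1) - V k) =
      (cc - N) * V N + ∑ k ∈ Finset.range N, V (k + 1) - cc * V 0 := by
  induction N with
  | zero => simp
  | succ N ih =>
    rw [Finset.sum_range_succ, ih, Finset.sum_range_succ]
    push_cast
    ring

theorem cfl_abel (U : ℕ → ℝ) (s : ℕ) :
    ∑ k ∈ Finset.range s, ((k : ℝ) + 1) * (U (k + 1) - U k) +
      ∑ k ∈ Finset.range s, ((s : ℝ) - 1 - k) * (U (s + k + 1) - U (s + k)) =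
      ∑ k ∈ Finset.range s, U (s + k) - ∑ k ∈ Finset.range s, U k := by
  have h2 := cfl_abel2 (fun k => U (s + k)) ((s : ℝ) - 1) s
  simp only [add_zero] at h2
  have h3 : ∑ k ∈ Finset.range s, U (s + (k + 1)) = ∑ k ∈ Finset.range s, U (s + k) + U (s + s) - U s := by
    have e1 := Finset.sum_range_succ (fun k => U (s + k)) s
    have e2 := Finset.sum_range_succ' (fun k => U (s + k)) s
    simp only [add_zero] at e2
    linarith
  have h4 : ∑ k ∈ Finset.range s, ((s : ℝ) - 1 - k) * (U (s + k + 1) - U (s + k)) =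
      ∑ k ∈ Finset.range s, ((s : ℝ) - 1 - k) * (U (s + (k + 1)) - U (s + k)) := rfl
  rw [cfl_abel1, h4, h2, h3]
  ring

/-! ### coordinates -/

/-- the point number `t` counted from the left end of the interval `a` (cyclically) -/
def cflPt (c : Grid G) (a t : ℕ) : Fin G.M := ⟨(a * c.m + t) % G.M, Nat.mod_lt _ G.hM⟩

/-- (moving coordinate, transverse coordinate) -/
def cflMk (d : Bool) (p q : Fin G.M) : G.V := if d then (p, q) else (q, p)

def cflMkI (c : Grid G) (d : Bool) (a b : Fin c.n) : c.I := if d then (a, b) else (b, a)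

/-- local coordinate in the direction `d` -/
def cflK (c : Grid G) (d : Bool) (x : G.V) : ℕ := ((if d then x.1 else x.2 : Fin G.M) : ℕ) % c.m

variable {c : Grid G}

theorem cfl_lt (hc : Whole c) (a : Fin c.n) {t : ℕ} (ht : t < c.m) : (a : ℕ) * c.m + t < G.M := by
  rw [whole_card hc]
  have h1 : ((a : ℕ) + 1) * c.m ≤ c.n * c.m := Nat.mul_le_mul_right _ a.2
  rw [Nat.add_mul, one_mul] at h1
  omega

theorem cfl_pt_val (hc : Whole c) (a : Fin c.n) {t : ℕ} (ht : t < c.m) : ((cflPt c a t : Fin G.M) : ℕ) = a * c.m + t :=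
  Nat.mod_eq_of_lt (cfl_lt hc a ht)

theorem cfl_blk1_pt (hc : Whole c) (a : Fin c.n) {t : ℕ} (ht : t < c.m) : c.blk1 (cflPt c a t) = a := by
  apply Fin.ext
  rw [whole_blk1 hc, cfl_pt_val hc a ht, Nat.add_comm, Nat.add_mul_div_right _ _ hc.pos, Nat.div_eq_of_lt ht, Nat.zero_add]

theorem cfl_pt_nx (hc : Whole c) (a : Fin c.n) (t : ℕ) : cflPt c a (c.m + t) = cflPt c (nx a : Fin c.n) t := by
  apply Fin.ext
  show ((a : ℕ) * c.m + (c.m + t)) % G.M = (((a : ℕ) + 1) % c.n * c.m + t) % G.M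
  by_cases h : (a : ℕ) + 1 < c.n
  · rw [Nat.mod_eq_of_lt h]
    congr 1
    ring
  · have h1 : (a : ℕ) + 1 = c.n := by have := a.2; omega
    rw [h1, Nat.mod_self, Nat.zero_mul, Nat.zero_add]
    have h2 : (a : ℕ) * c.m + (c.m + t) = G.M + t := by
      rw [whole_card hc]
      have h3 : c.n * c.m = ((a : ℕ) + 1) * c.m := by rw [h1]
      rw [h3]
      ring
    rw [h2, Nat.add_mod_left]

theorem cfl_blk_mk (d : Bool) (p q : Fin G.M) : c.blk (cflMk d p q) = cflMkI c d (c.blk1 p) (c.blk1 q) := by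
  cases d <;> rfl

theorem cfl_K_mk (d : Bool) (p q : Fin G.M) : cflK c d (cflMk d p q) = (p : ℕ) % c.m := by
  cases d <;> rfl

theorem cfl_stp (d : Bool) (a t : ℕ) (q : Fin G.M) (h : G.bc = BC.per ∨ a * c.m + t + 1 < G.M) :
    stp (cflMk d (cflPt c a t) q) d = cflMk d (cflPt c a (t + 1)) q := by
  by_cases hbc : G.bc = BC.per
  · obtain ⟨h1, h2, h3, h4⟩ := stp_per hbc (cflMk d (cflPt c a t) q)
    have e : ((a * c.m + t) % G.M + 1) % G.M = (a * c.m + (t + 1)) % G.M := by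
      rw [Nat.mod_add_mod, Nat.add_assoc]
    cases d
    · exact Prod.ext h4 (Fin.ext (h3.trans e))
    · exact Prod.ext (Fin.ext (h1.trans e)) h2
  · have hlt : a * c.m + t + 1 < G.M := h.resolve_left hbc
    have hfree : G.bc = BC.free := by
      cases hb : G.bc
      · exact absurd hb hbc
      · rfl
    obtain ⟨h1, -, h3, -⟩ := stp_free hfree (cflMk d (cflPt c a t) q)
    have e0 : (a * c.m + t) % G.M = a * c.m + t := Nat.mod_eq_of_lt (by omega)
    have e1 : (a * c.m + (t + 1)) % G.M = a * c.m + t + 1 := Nat.mod_eq_of_lt (by omega)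
    cases d
    · have := h3 (by show (a * c.m + t) % G.M + 1 < G.M; omega)
      refine Prod.ext this.2 (Fin.ext (this.1.trans ?_))
      show (a * c.m + t) % G.M + 1 = (a * c.m + (t + 1)) % G.M
      omega
    · have := h1 (by show (a * c.m + t) % G.M + 1 < G.M; omega)
      refine Prod.ext (Fin.ext (this.1.trans ?_)) this.2
      show (a * c.m + t) % G.M + 1 = (a * c.m + (t + 1)) % G.M
      omega

/-! ### sums over a cell -/

theorem cfl_sum1 (hc : Whole c) (a : Fin c.n) (g : Fin G.M → ℝ) :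
    ∑ p : Fin G.M, (if c.blk1 p = a then g p else 0) = ∑ t ∈ Finset.range c.m, g (cflPt c a t) := by
  rw [← Finset.sum_filter]
  symm
  refine Finset.sum_bij (fun t _ => cflPt c a t) ?_ ?_ ?_ ?_
  · intro t ht
    exact Finset.mem_filter.2 ⟨Finset.mem_univ _, cfl_blk1_pt hc a (Finset.mem_range.1 ht)⟩
  · intro t ht t' ht' h
    have h1 := congrArg Fin.val h
    rw [cfl_pt_val hc a (Finset.mem_range.1 ht), cfl_pt_val hc a (Finset.mem_range.1 ht')] at h1
    omega
  · intro p hp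
    have hp' : c.blk1 p = a := (Finset.mem_filter.1 hp).2
    have h1 : (a : ℕ) = (p : ℕ) / c.m := by rw [← hp', whole_blk1 hc]
    have h2 : (p : ℕ) % c.m < c.m := Nat.mod_lt _ hc.pos
    refine ⟨(p : ℕ) % c.m, Finset.mem_range.2 h2, Fin.ext ?_⟩
    rw [cfl_pt_val hc a h2, h1]
    exact Nat.div_add_mod' _ _
  · intro t _
    rfl

theorem cfl_sum2 (hc : Whole c) (d : Bool) (a a' : Fin c.n) (g : G.V → ℝ) :
    ∑ x : G.V, (if c.blk x = cflMkI c d a a' then g x else 0) =
      ∑ t ∈ Finset.range c.m, ∑ l ∈ Finset.range c.m, g (cflMk d (cflPt c a t) (cflPt c a' l)) := by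
  have key : ∀ p q : Fin G.M, (if c.blk (cflMk d p q) = cflMkI c d a a' then g (cflMk d p q) else 0) =
      if c.blk1 p = a then (if c.blk1 q = a' then g (cflMk d p q) else 0) else 0 := by
    intro p q
    rw [cfl_blk_mk]
    by_cases h1 : c.blk1 p = a
    · by_cases h2 : c.blk1 q = a'
      · rw [if_pos h1, if_pos h2, if_pos (by rw [h1, h2])]
      · rw [if_pos h1, if_neg h2, if_neg]
        intro h
        apply h2
        cases d
        · exact congrArg Prod.fst h
        · exact congrArg Prod.snd h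
    · rw [if_neg h1, if_neg]
      intro h
      apply h1
      cases d
      · exact congrArg Prod.snd h
      · exact congrArg Prod.fst h
  have h1 : ∑ x : G.V, (if c.blk x = cflMkI c d a a' then g x else 0) =
      ∑ p : Fin G.M, ∑ q : Fin G.M, (if c.blk (cflMk d p q) = cflMkI c d a a' then g (cflMk d p q) else 0) := by
    cases d
    · exact Fintype.sum_prod_type_right _
    · exact Fintype.sum_prod_type _
  rw [h1]
  simp only [key]
  have h2 : ∀ p : Fin G.M, ∑ q : Fin G.M, (if c.blk1 p = a then (if c.blk1 q = a' then g (cflMk d p q) else 0) else 0) =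
      if c.blk1 p = a then ∑ l ∈ Finset.range c.m, g (cflMk d p (cflPt c a' l)) else 0 := by
    intro p
    by_cases hp : c.blk1 p = a
    · simp only [if_pos hp]
      exact cfl_sum1 hc a' _
    · simp only [if_neg hp]
      exact Finset.sum_const_zero
  simp only [h2]
  exact cfl_sum1 hc a _

theorem cfl_avg (hc : Whole c) (d : Bool) (a a' : Fin c.n) (u : G.V → ℝ) :
    avg c u (cflMkI c d a a') =
      (∑ t ∈ Finset.range c.m, ∑ l ∈ Finset.range c.m, u (cflMk d (cflPt c a t) (cflPt c a' l))) / (c.m : ℝ) ^ 2 := by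
  show cellAvg c u _ = _
  unfold cellAvg
  rw [whole_sites_card hc, ← cfl_sum2 hc]
  unfold Grid.sites
  rw [Finset.sum_filter]
  push_cast
  congr 1
  refine Finset.sum_congr rfl fun x _ => ?_
  simp only [Finset.mem_singleton]

/-! ### the flow -/

/-- the explicit flow, on all pairs (site, direction) -/
def cflW (c : Grid G) (f : Face c) (e : G.V × Bool) : ℝ :=
  if e.2 = f.2 then
    (if c.blk e.1 = f.1 then ((cflK c f.2 e.1 : ℝ) + 1) / (c.m : ℝ) ^ 2
     else if c.blk e.1 = fnb c f then ((c.m : ℝ) - 1 - cflK c f.2 e.1) / (c.m : ℝ) ^ 2 else 0)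
  else 0

theorem cfl_fnb (d : Bool) (a a' : Fin c.n) : fnb c (cflMkI c d a a', d) = cflMkI c d (nx a) a' := by
  cases d <;> rfl

theorem cfl_nx_ne (hc : Whole c) (a : Fin c.n) : nx a ≠ a := by
  intro h
  have h1 : ((a : ℕ) + 1) % c.n = a := congrArg Fin.val h
  have h2 := hc.two
  have h3 := a.2
  by_cases h4 : (a : ℕ) + 1 < c.n
  · rw [Nat.mod_eq_of_lt h4] at h1
    omega
  · have h5 : (a : ℕ) + 1 = c.n := by omega
    rw [h5, Nat.mod_self] at h1
    omega

theorem cfl_mkI_inj {d : Bool} {a b a' b' : Fin c.n} (h : cflMkI c d a a' = cflMkI c d b b') : a = b ∧ a' = b' := by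
  cases d
  · exact ⟨congrArg Prod.snd h, congrArg Prod.fst h⟩
  · exact ⟨congrArg Prod.fst h, congrArg Prod.snd h⟩

theorem cfl_K_pt (hc : Whole c) (d : Bool) (a : Fin c.n) {t : ℕ} (ht : t < c.m) (q : Fin G.M) :
    cflK c d (cflMk d (cflPt c a t) q) = t := by
  rw [cfl_K_mk, cfl_pt_val hc a ht, Nat.add_comm, Nat.add_mul_mod_self_right, Nat.mod_eq_of_lt ht]

theorem cfl_core (hc : Whole c) (d : Bool) (a a' : Fin c.n) (hface : G.bc = BC.per ∨ (a : ℕ) + 1 < c.n) (u : G.V → ℝ)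
    (w : Face c → ℝ) :
    ∑ x : G.V, cflW c (cflMkI c d a a', d) (x, d) *
        (u (stp x d) - u x + (if c.blk (stp x d) = c.blk x then 0 else w (c.blk x, d))) =
      avg c u (cflMkI c d (nx a) a') - avg c u (cflMkI c d a a') + w (cflMkI c d a a', d) := by
  have hs : 0 < c.m := hc.pos
  have hsR : (0 : ℝ) < (c.m : ℝ) := by exact_mod_cast hs
  have hne : cflMkI c d (nx a) a' ≠ cflMkI c d a a' := fun h => cfl_nx_ne hc a (cfl_mkI_inj h).1
  obtain ⟨Gx, hGx⟩ : ∃ Gx : G.V → ℝ, Gx = fun x =>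
      u (stp x d) - u x + (if c.blk (stp x d) = c.blk x then 0 else w (c.blk x, d)) := ⟨_, rfl⟩
  obtain ⟨U, hU⟩ : ∃ U : ℕ → ℕ → ℝ, U = fun l t => u (cflMk d (cflPt c a t) (cflPt c a' l)) := ⟨_, rfl⟩
  have hsplit : ∀ x : G.V, cflW c (cflMkI c d a a', d) (x, d) * Gx x =
      (if c.blk x = cflMkI c d a a' then ((cflK c d x : ℝ) + 1) / (c.m : ℝ) ^ 2 * Gx x else 0) +
      (if c.blk x = cflMkI c d (nx a) a' then ((c.m : ℝ) - 1 - cflK c d x) / (c.m : ℝ) ^ 2 * Gx x else 0) := by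
    intro x
    unfold cflW
    simp only [if_true, cfl_fnb]
    by_cases h1 : c.blk x = cflMkI c d a a'
    · rw [if_pos h1, if_pos h1, if_neg (by rw [h1]; exact hne.symm), add_zero]
    · rw [if_neg h1, if_neg h1, zero_add]
      by_cases h2 : c.blk x = cflMkI c d (nx a) a'
      · rw [if_pos h2, if_pos h2]
      · rw [if_neg h2, if_neg h2, zero_mul]
  have hT1 : ∀ t ∈ Finset.range c.m, ∀ l ∈ Finset.range c.m,
      ((cflK c d (cflMk d (cflPt c a t) (cflPt c a' l)) : ℝ) + 1) / (c.m : ℝ) ^ 2 * Gx (cflMk d (cflPt c a t) (cflPt c a' l)) =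
      (((t : ℝ) + 1) * (U l (t + 1) - U l t) + (if t = c.m - 1 then (c.m : ℝ) * w (cflMkI c d a a', d) else 0)) / (c.m : ℝ) ^ 2 := by
    intro t ht l hl
    have ht' := Finset.mem_range.1 ht
    have hl' := Finset.mem_range.1 hl
    have hstp : stp (cflMk d (cflPt c a t) (cflPt c a' l)) d = cflMk d (cflPt c a (t + 1)) (cflPt c a' l) := by
      refine cfl_stp d a t _ (hface.imp id fun h => ?_)
      rw [whole_card hc]
      have h1 : ((a : ℕ) + 2) * c.m ≤ c.n * c.m := Nat.mul_le_mul_right _ h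
      rw [Nat.add_mul] at h1
      omega
    have hb : c.blk (cflMk d (cflPt c a t) (cflPt c a' l)) = cflMkI c d a a' := by
      rw [cfl_blk_mk, cfl_blk1_pt hc a ht', cfl_blk1_pt hc a' hl']
    rw [cfl_K_pt hc d a ht', hGx]
    simp only
    rw [hstp, hb, hU]
    simp only
    by_cases h1 : t = c.m - 1
    · have h2 : t + 1 = c.m + 0 := by omega
      have hb2 : c.blk (cflMk d (cflPt c a (t + 1)) (cflPt c a' l)) = cflMkI c d (nx a) a' := by
        rw [h2, cfl_pt_nx hc, cfl_blk_mk, cfl_blk1_pt hc _ hs, cfl_blk1_pt hc a' hl']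
      rw [hb2, if_neg hne, if_pos h1]
      have h3 : (t : ℝ) + 1 = c.m := by
        have : ((t + 1 : ℕ) : ℝ) = ((c.m + 0 : ℕ) : ℝ) := by rw [h2]
        push_cast at this
        linarith
      rw [h3]
      ring
    · have hb2 : c.blk (cflMk d (cflPt c a (t + 1)) (cflPt c a' l)) = cflMkI c d a a' := by
        rw [cfl_blk_mk, cfl_blk1_pt hc a (by omega), cfl_blk1_pt hc a' hl']
      rw [hb2, if_pos rfl, if_neg h1]
      ring
  have hT2 : ∀ t ∈ Finset.range c.m, ∀ l ∈ Finset.range c.m,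
      ((c.m : ℝ) - 1 - cflK c d (cflMk d (cflPt c (nx a : Fin c.n) t) (cflPt c a' l))) / (c.m : ℝ) ^ 2 *
        Gx (cflMk d (cflPt c (nx a : Fin c.n) t) (cflPt c a' l)) =
      (((c.m : ℝ) - 1 - t) * (U l (c.m + t + 1) - U l (c.m + t))) / (c.m : ℝ) ^ 2 := by
    intro t ht l hl
    have ht' := Finset.mem_range.1 ht
    have hl' := Finset.mem_range.1 hl
    rw [cfl_K_pt hc d _ ht']
    by_cases h1 : t = c.m - 1
    · have h3 : (c.m : ℝ) - 1 - t = 0 := by
        have : ((t + 1 : ℕ) : ℝ) = ((c.m : ℕ) : ℝ) := by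
          congr 1
          omega
        push_cast at this
        linarith
      rw [h3]
      simp
    · have ht1 : t + 1 < c.m := by omega
      have hstp : stp (cflMk d (cflPt c (nx a : Fin c.n) t) (cflPt c a' l)) d =
          cflMk d (cflPt c (nx a : Fin c.n) (t + 1)) (cflPt c a' l) :=
        cfl_stp d _ t _ (Or.inr (cfl_lt hc (nx a) ht1))
      have hb : c.blk (cflMk d (cflPt c (nx a : Fin c.n) t) (cflPt c a' l)) = cflMkI c d (nx a) a' := by
        rw [cfl_blk_mk, cfl_blk1_pt hc _ ht', cfl_blk1_pt hc a' hl']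
      have hb2 : c.blk (cflMk d (cflPt c (nx a : Fin c.n) (t + 1)) (cflPt c a' l)) = cflMkI c d (nx a) a' := by
        rw [cfl_blk_mk, cfl_blk1_pt hc _ ht1, cfl_blk1_pt hc a' hl']
      rw [hGx]
      simp only
      rw [hstp, hb, hb2, if_pos rfl, hU]
      simp only
      rw [← cfl_pt_nx hc, ← cfl_pt_nx hc, Nat.add_assoc]
      ring
  have hrow : ∀ l, ∑ t ∈ Finset.range c.m, (((t : ℝ) + 1) * (U l (t + 1) - U l t) +
        (if t = c.m - 1 then (c.m : ℝ) * w (cflMkI c d a a', d) else 0)) +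
      ∑ t ∈ Finset.range c.m, (((c.m : ℝ) - 1 - t) * (U l (c.m + t + 1) - U l (c.m + t))) =
      ∑ t ∈ Finset.range c.m, U l (c.m + t) - ∑ t ∈ Finset.range c.m, U l t + (c.m : ℝ) * w (cflMkI c d a a', d) := by
    intro l
    rw [Finset.sum_add_distrib, Finset.sum_ite_eq' (Finset.range c.m) (c.m - 1), if_pos (Finset.mem_range.2 (by omega)),
      ← cfl_abel (U l) c.m]
    ring
  have hmain : ∑ x : G.V, cflW c (cflMkI c d a a', d) (x, d) * Gx x =
      avg c u (cflMkI c d (nx a) a') - avg c u (cflMkI c d a a') + w (cflMkI c d a a', d) := by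
    simp only [hsplit]
    rw [Finset.sum_add_distrib, cfl_sum2 hc, cfl_sum2 hc, Finset.sum_congr rfl fun t ht => Finset.sum_congr rfl (hT1 t ht),
      Finset.sum_congr rfl fun t ht => Finset.sum_congr rfl (hT2 t ht), cfl_avg hc, cfl_avg hc]
    simp only [← Finset.sum_div]
    rw [Finset.sum_comm, Finset.sum_comm (s := Finset.range c.m) (t := Finset.range c.m)
      (f := fun t l => ((c.m : ℝ) - 1 - t) * (U l (c.m + t + 1) - U l (c.m + t))), ← add_div, ← Finset.sum_add_distrib,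
      Finset.sum_congr rfl fun l _ => hrow l, Finset.sum_add_distrib, Finset.sum_sub_distrib, Finset.sum_const,
      Finset.card_range, nsmul_eq_mul]
    have e1 : ∑ t ∈ Finset.range c.m, ∑ l ∈ Finset.range c.m, u (cflMk d (cflPt c (nx a : Fin c.n) t) (cflPt c a' l)) =
        ∑ l ∈ Finset.range c.m, ∑ t ∈ Finset.range c.m, U l (c.m + t) := by
      rw [Finset.sum_comm, hU]
      simp only [cfl_pt_nx hc]
    have e2 : ∑ t ∈ Finset.range c.m, ∑ l ∈ Finset.range c.m, u (cflMk d (cflPt c a t) (cflPt c a' l)) =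
        ∑ l ∈ Finset.range c.m, ∑ t ∈ Finset.range c.m, U l t := by
      rw [Finset.sum_comm, hU]
    rw [e1, e2]
    field_simp
  rw [hGx] at hmain
  exact hmain

/-! ### representation of sites and faces -/

theorem cfl_repr1 (hc : Whole c) (p : Fin G.M) : p = cflPt c (c.blk1 p) ((p : ℕ) % c.m) := by
  apply Fin.ext
  rw [cfl_pt_val hc _ (Nat.mod_lt _ hc.pos), whole_blk1 hc]
  exact (Nat.div_add_mod' _ _).symm

theorem cfl_repr (hc : Whole c) (d : Bool) (x : G.V) : ∃ (a a' : Fin c.n) (t l : ℕ), t < c.m ∧ l < c.m ∧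
    x = cflMk d (cflPt c a t) (cflPt c a' l) := by
  have hm : ∀ p : Fin G.M, (p : ℕ) % c.m < c.m := fun p => Nat.mod_lt _ hc.pos
  cases d
  · exact ⟨c.blk1 x.2, c.blk1 x.1, _, _, hm _, hm _, Prod.ext (cfl_repr1 hc x.1) (cfl_repr1 hc x.2)⟩
  · exact ⟨c.blk1 x.1, c.blk1 x.2, _, _, hm _, hm _, Prod.ext (cfl_repr1 hc x.1) (cfl_repr1 hc x.2)⟩

theorem cfl_face_repr (f : Face c) : ∃ b b' : Fin c.n, f = (cflMkI c f.2 b b', f.2) ∧
    (IsFace c f → G.bc = BC.per ∨ (b : ℕ) + 1 < c.n) := by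
  obtain ⟨⟨i1, i2⟩, d⟩ := f
  cases d
  · exact ⟨i2, i1, rfl, fun h => h⟩
  · exact ⟨i1, i2, rfl, fun h => h⟩

theorem cfl_pt_succ_ne (hc : Whole c) (a t : ℕ) : cflPt c a (t + 1) ≠ cflPt c a t := by
  intro h
  have h1 : (a * c.m + (t + 1)) % G.M = (a * c.m + t) % G.M := congrArg Fin.val h
  have h2 := Nat.sub_mod_eq_zero_of_mod_eq h1
  have h3 : a * c.m + (t + 1) - (a * c.m + t) = 1 := by omega
  have h4 : 1 < G.M := by
    rw [whole_card hc]
    have := hc.two
    have := hc.pos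
    nlinarith
  rw [h3, Nat.mod_eq_of_lt h4] at h2
  omega

theorem cfl_mk_inj {d : Bool} {p q p' q' : Fin G.M} (h : cflMk d p q = cflMk d p' q') : p = p' ∧ q = q' := by
  cases d
  · exact ⟨congrArg Prod.snd h, congrArg Prod.fst h⟩
  · exact ⟨congrArg Prod.fst h, congrArg Prod.snd h⟩

theorem cfl_supp {f : Face c} {e : G.V × Bool} (h : cflW c f e ≠ 0) :
    e.2 = f.2 ∧ (c.blk e.1 = f.1 ∨ c.blk e.1 = fnb c f) := by
  unfold cflW at h
  by_cases h1 : e.2 = f.2
  · refine ⟨h1, ?_⟩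
    rw [if_pos h1] at h
    by_cases h2 : c.blk e.1 = f.1
    · exact Or.inl h2
    · rw [if_neg h2] at h
      by_cases h3 : c.blk e.1 = fnb c f
      · exact Or.inr h3
      · rw [if_neg h3] at h
        exact absurd rfl h
  · rw [if_neg h1] at h
    exact absurd rfl h

theorem cfl_edge (hc : Whole c) (T : Top c) (hT : T.Ok) {f : Face c} (hf : f ∈ T.faces) (e : G.V × Bool)
    (h : cflW c f e ≠ 0) : T.IsEdge e := by
  obtain ⟨hIs, hi, hj⟩ := hT f hf
  obtain ⟨b, b', hfe, hface⟩ := cfl_face_repr f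
  have hface' := hface hIs
  obtain ⟨x, d'⟩ := e
  obtain ⟨hd, -⟩ := cfl_supp h
  simp only at hd
  subst hd
  obtain ⟨a, a', t, l, ht, hl, rfl⟩ := cfl_repr hc f.2 x
  have hb : c.blk (cflMk f.2 (cflPt c a t) (cflPt c a' l)) = cflMkI c f.2 a a' := by
    rw [cfl_blk_mk, cfl_blk1_pt hc a ht, cfl_blk1_pt hc a' hl]
  have hf1 : f.1 = cflMkI c f.2 b b' := by
    conv_lhs => rw [hfe]
  have hfn : fnb c f = cflMkI c f.2 (nx b) b' := by
    conv_lhs => rw [hfe]
    exact cfl_fnb _ _ _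
  unfold cflW at h
  simp only [if_true] at h
  rw [hb, cfl_K_pt hc _ a ht] at h
  unfold Top.IsEdge
  simp only
  by_cases h1 : cflMkI c f.2 a a' = f.1
  · obtain ⟨rfl, rfl⟩ := cfl_mkI_inj (h1.trans hf1)
    have hstp : stp (cflMk f.2 (cflPt c a t) (cflPt c a' l)) f.2 = cflMk f.2 (cflPt c a (t + 1)) (cflPt c a' l) := by
      refine cfl_stp f.2 a t _ (hface'.imp id fun h => ?_)
      rw [whole_card hc]
      have h1 : ((a : ℕ) + 2) * c.m ≤ c.n * c.m := Nat.mul_le_mul_right _ h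
      rw [Nat.add_mul] at h1
      omega
    rw [hstp, hb]
    refine ⟨fun h2 => cfl_pt_succ_ne hc a t (cfl_mk_inj h2).1, by rw [← hf1]; exact hi, ?_, Or.inr ?_⟩
    · by_cases h2 : t + 1 < c.m
      · rw [cfl_blk_mk, cfl_blk1_pt hc a h2, cfl_blk1_pt hc a' hl, ← hf1]
        exact hi
      · have h3 : t + 1 = c.m + 0 := by omega
        rw [h3, cfl_pt_nx hc, cfl_blk_mk, cfl_blk1_pt hc _ hc.pos, cfl_blk1_pt hc a' hl, ← hfn]
        exact hj
    · rw [← hf1]
      exact hf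
  · rw [if_neg h1] at h
    by_cases h2 : cflMkI c f.2 a a' = fnb c f
    · rw [if_pos h2] at h
      have ht1 : t + 1 < c.m := by
        by_contra h3
        apply h
        have h4 : ((t + 1 : ℕ) : ℝ) = ((c.m : ℕ) : ℝ) := by
          congr 1
          omega
        push_cast at h4
        have h5 : (c.m : ℝ) - 1 - t = 0 := by linarith
        rw [h5, zero_div]
      have hstp : stp (cflMk f.2 (cflPt c a t) (cflPt c a' l)) f.2 = cflMk f.2 (cflPt c a (t + 1)) (cflPt c a' l) :=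
        cfl_stp f.2 a t _ (Or.inr (cfl_lt hc a ht1))
      have hb2 : c.blk (cflMk f.2 (cflPt c a (t + 1)) (cflPt c a' l)) = cflMkI c f.2 a a' := by
        rw [cfl_blk_mk, cfl_blk1_pt hc a ht1, cfl_blk1_pt hc a' hl]
      rw [hstp, hb, hb2]
      exact ⟨fun h2 => cfl_pt_succ_ne hc a t (cfl_mk_inj h2).1, by rw [h2]; exact hj, by rw [h2]; exact hj, Or.inl rfl⟩
    · rw [if_neg h2] at h
      exact absurd rfl h

/-! ### sums over the retained bonds -/

open Classical in
theorem cfl_sumE (T : Top c) (F : G.V × Bool → ℝ) :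
    ∑ e : T.graph.E, F e.1 = ∑ e ∈ Finset.univ.filter T.IsEdge, F e :=
  (Finset.sum_subtype (Finset.univ.filter T.IsEdge) (fun x => by simp) F).symm

theorem cfl_sumE_eq (T : Top c) (F : G.V × Bool → ℝ) (h : ∀ e, F e ≠ 0 → T.IsEdge e) :
    ∑ e : T.graph.E, F e.1 = ∑ e : G.V × Bool, F e := by
  classical
  rw [cfl_sumE]
  exact Finset.sum_filter_of_ne fun e _ he => h e he

theorem cfl_sumE_le (T : Top c) (F : G.V × Bool → ℝ) (h : ∀ e, 0 ≤ F e) :
    ∑ e : T.graph.E, F e.1 ≤ ∑ e : G.V × Bool, F e := by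
  classical
  rw [cfl_sumE]
  exact Finset.sum_le_sum_of_subset_of_nonneg (Finset.filter_subset _ _) fun e _ _ => h e

theorem cfl_sum_dir (f : Face c) (F : G.V × Bool → ℝ) (h : ∀ e, e.2 ≠ f.2 → F e = 0) :
    ∑ e : G.V × Bool, F e = ∑ x : G.V, F (x, f.2) := by
  rw [Fintype.sum_prod_type]
  refine Finset.sum_congr rfl fun x _ => ?_
  exact Fintype.sum_eq_single f.2 fun d hd => h (x, d) hd

theorem cfl_identity (hc : Whole c) (T : Top c) (hT : T.Ok) {f : Face c} (hf : f ∈ T.faces) (u : G.V → ℝ)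
    (w : Face c → ℝ) :
    avg c u (fnb c f) - avg c u f.1 + w f =
      ∑ e : T.graph.E, cflW c f e.1 * (u (stp e.1.1 e.1.2) - u e.1.1 + T.econn w e) := by
  obtain ⟨b, b', hfe, hface⟩ := cfl_face_repr f
  have hface' := hface (hT f hf).1
  have h1 := cfl_sumE_eq T (fun e => cflW c f e *
    (u (stp e.1 e.2) - u e.1 + (if c.blk (stp e.1 e.2) = c.blk e.1 then 0 else w (c.blk e.1, e.2))))
    (fun e he => cfl_edge hc T hT hf e (left_ne_zero_of_mul he))
  have h2 : ∑ e : T.graph.E, cflW c f e.1 * (u (stp e.1.1 e.1.2) - u e.1.1 + T.econn w e) =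
      ∑ e : T.graph.E, (fun e : G.V × Bool => cflW c f e *
        (u (stp e.1 e.2) - u e.1 + (if c.blk (stp e.1 e.2) = c.blk e.1 then 0 else w (c.blk e.1, e.2)))) e.1 := rfl
  rw [h2, h1, cfl_sum_dir f]
  · have h3 := cfl_core hc f.2 b b' hface' u w
    rw [← cfl_fnb, ← hfe] at h3
    simp only
    rw [h3]
    have hf1 : f.1 = cflMkI c f.2 b b' := by
      conv_lhs => rw [hfe]
    rw [hf1]
  · intro e he
    have : cflW c f e = 0 := by
      unfold cflW
      rw [if_neg he]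
    simp only [this, zero_mul]

/-! ### bounds -/

theorem cfl_nonneg (hc : Whole c) (f : Face c) (e : G.V × Bool) : 0 ≤ cflW c f e := by
  have hK : cflK c f.2 e.1 < c.m := Nat.mod_lt _ hc.pos
  have hK' : (cflK c f.2 e.1 : ℝ) + 1 ≤ c.m := by exact_mod_cast hK
  unfold cflW
  split_ifs
  · positivity
  · exact div_nonneg (by linarith) (by positivity)
  · exact le_rfl
  · exact le_rfl

theorem cfl_le (hc : Whole c) (f : Face c) (e : G.V × Bool) : cflW c f e ≤ 1 / (c.m : ℝ) := by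
  have hs : (0 : ℝ) < c.m := by exact_mod_cast hc.pos
  have hK : cflK c f.2 e.1 < c.m := Nat.mod_lt _ hc.pos
  have hK' : (cflK c f.2 e.1 : ℝ) + 1 ≤ c.m := by exact_mod_cast hK
  have hK0 : (0 : ℝ) ≤ (cflK c f.2 e.1 : ℝ) := Nat.cast_nonneg _
  have e1 : 1 / (c.m : ℝ) = (c.m : ℝ) / (c.m : ℝ) ^ 2 := by field_simp
  unfold cflW
  split_ifs
  · rw [e1]
    exact div_le_div_of_nonneg_right hK' (by positivity)
  · rw [e1]
    exact div_le_div_of_nonneg_right (by linarith) (by positivity)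
  · positivity
  · positivity

theorem cfl_nx_inj {n : ℕ} {a b : Fin n} (h : nx a = nx b) : a = b := by
  have h1 : ((a : ℕ) + 1) % n = ((b : ℕ) + 1) % n := congrArg Fin.val h
  have ha := a.2
  have hb := b.2
  apply Fin.ext
  by_cases h2 : (a : ℕ) + 1 < n
  · rw [Nat.mod_eq_of_lt h2] at h1
    by_cases h3 : (b : ℕ) + 1 < n
    · rw [Nat.mod_eq_of_lt h3] at h1
      omega
    · have h4 : (b : ℕ) + 1 = n := by omega
      rw [h4, Nat.mod_self] at h1
      omega
  · have h4 : (a : ℕ) + 1 = n := by omega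
    rw [h4, Nat.mod_self] at h1
    by_cases h3 : (b : ℕ) + 1 < n
    · rw [Nat.mod_eq_of_lt h3] at h1
      omega
    · omega

theorem cfl_fnb_inj {f f' : Face c} (h2 : f.2 = f'.2) (h : fnb c f = fnb c f') : f = f' := by
  obtain ⟨⟨i1, i2⟩, d⟩ := f
  obtain ⟨⟨j1, j2⟩, d'⟩ := f'
  simp only at h2
  subst h2
  cases d
  · have h3 : (i1, nx i2) = (j1, nx j2) := h
    rw [Prod.mk.injEq] at h3
    rw [h3.1, cfl_nx_inj h3.2]
  · have h3 : (nx i1, i2) = (nx j1, j2) := h
    rw [Prod.mk.injEq] at h3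
    rw [h3.2, cfl_nx_inj h3.1]

open Classical in
theorem cfl_card (S : Finset (Face c)) (e : G.V × Bool) : (S.filter fun f => cflW c f e ≠ 0).card ≤ 2 := by
  have h := Finset.card_le_card_of_injOn (s := S.filter fun f => cflW c f e ≠ 0) (t := (Finset.univ : Finset Bool))
    (fun f => decide (c.blk e.1 = f.1)) (fun _ _ => Finset.mem_univ _) (by
      intro f hf f' hf' hff
      have hf1 := cfl_supp (Finset.mem_filter.1 (Finset.mem_coe.1 hf)).2
      have hf2 := cfl_supp (Finset.mem_filter.1 (Finset.mem_coe.1 hf')).2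
      simp only [decide_eq_decide] at hff
      by_cases h1 : c.blk e.1 = f.1
      · exact Prod.ext (h1.symm.trans (hff.1 h1)) (hf1.1.symm.trans hf2.1)
      · have h2 : ¬ c.blk e.1 = f'.1 := fun h => h1 (hff.2 h)
        exact cfl_fnb_inj (hf1.1.symm.trans hf2.1) ((hf1.2.resolve_left h1).symm.trans (hf2.2.resolve_left h2)))
  simpa using h

theorem cfl_sup (hc : Whole c) (S : Finset (Face c)) (t : Face c → ℝ) (e : G.V × Bool) (B : ℝ) (hB : 0 ≤ B)
    (ht : ∀ f ∈ S, |t f| ≤ B) : |∑ f ∈ S, t f * cflW c f e| ≤ 4 * B / c.m := by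
  classical
  have hs : (0 : ℝ) < c.m := by exact_mod_cast hc.pos
  have h1 : ∑ f ∈ S, t f * cflW c f e = ∑ f ∈ S.filter (fun f => cflW c f e ≠ 0), t f * cflW c f e := by
    refine (Finset.sum_filter_of_ne fun f _ hf => ?_).symm
    exact right_ne_zero_of_mul hf
  rw [h1]
  refine (Finset.abs_sum_le_sum_abs _ _).trans ?_
  have h2 : ∀ f ∈ S.filter (fun f => cflW c f e ≠ 0), |t f * cflW c f e| ≤ B * (1 / (c.m : ℝ)) := by
    intro f hf
    rw [abs_mul, abs_of_nonneg (cfl_nonneg hc f e)]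
    exact mul_le_mul (ht f (Finset.mem_filter.1 hf).1) (cfl_le hc f e) (cfl_nonneg hc f e) hB
  refine (Finset.sum_le_card_nsmul _ _ _ h2).trans ?_
  rw [nsmul_eq_mul]
  have h3 : ((S.filter (fun f => cflW c f e ≠ 0)).card : ℝ) ≤ 2 := by exact_mod_cast cfl_card S e
  have h4 : 0 ≤ B * (1 / (c.m : ℝ)) := by positivity
  calc ((S.filter (fun f => cflW c f e ≠ 0)).card : ℝ) * (B * (1 / (c.m : ℝ))) ≤ 2 * (B * (1 / (c.m : ℝ))) :=
        mul_le_mul_of_nonneg_right h3 h4
    _ ≤ 4 * (B * (1 / (c.m : ℝ))) := by linarith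
    _ = 4 * B / c.m := by ring

theorem cfl_sq (S : Finset (Face c)) (t : Face c → ℝ) (e : G.V × Bool) :
    (∑ f ∈ S, t f * cflW c f e) ^ 2 ≤ 2 * ∑ f ∈ S, (t f * cflW c f e) ^ 2 := by
  classical
  have h1 : ∑ f ∈ S, t f * cflW c f e = ∑ f ∈ S.filter (fun f => cflW c f e ≠ 0), t f * cflW c f e := by
    refine (Finset.sum_filter_of_ne fun f _ hf => ?_).symm
    exact right_ne_zero_of_mul hf
  rw [h1]
  refine sq_sum_le_card_mul_sum_sq.trans ?_
  have h3 : ((S.filter (fun f => cflW c f e ≠ 0)).card : ℝ) ≤ 2 := by exact_mod_cast cfl_card S e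
  have h4 : ∑ f ∈ S.filter (fun f => cflW c f e ≠ 0), (t f * cflW c f e) ^ 2 ≤ ∑ f ∈ S, (t f * cflW c f e) ^ 2 :=
    Finset.sum_le_sum_of_subset_of_nonneg (Finset.filter_subset _ _) fun _ _ _ => sq_nonneg _
  have h5 : 0 ≤ ∑ f ∈ S.filter (fun f => cflW c f e ≠ 0), (t f * cflW c f e) ^ 2 :=
    Finset.sum_nonneg fun _ _ => sq_nonneg _
  calc _ ≤ 2 * ∑ f ∈ S.filter (fun f => cflW c f e ≠ 0), (t f * cflW c f e) ^ 2 := mul_le_mul_of_nonneg_right h3 h5
    _ ≤ _ := by linarith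

theorem cfl_cell_const (hc : Whole c) (i : c.I) (ρ : ℝ) :
    ∑ x : G.V, (if c.blk x = i then ρ else 0) = (c.m : ℝ) ^ 2 * ρ := by
  have h := cfl_sum2 hc true i.1 i.2 (fun _ => ρ)
  have h1 : cflMkI c true i.1 i.2 = i := rfl
  rw [h1] at h
  rw [h]
  simp only [Finset.sum_const, Finset.card_range, nsmul_eq_mul]
  ring

theorem cfl_l2_one (hc : Whole c) (T : Top c) (f : Face c) : ∑ e : T.graph.E, cflW c f e.1 ^ 2 ≤ 2 := by
  have hs : (0 : ℝ) < c.m := by exact_mod_cast hc.pos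
  refine (cfl_sumE_le T (fun e => cflW c f e ^ 2) fun e => sq_nonneg _).trans ?_
  rw [cfl_sum_dir f]
  · have h1 : ∀ x : G.V, cflW c f (x, f.2) ^ 2 ≤
        (if c.blk x = f.1 then (1 / (c.m : ℝ)) ^ 2 else 0) + (if c.blk x = fnb c f then (1 / (c.m : ℝ)) ^ 2 else 0) := by
      intro x
      have h2 : cflW c f (x, f.2) ^ 2 ≤ (1 / (c.m : ℝ)) ^ 2 :=
        pow_le_pow_left₀ (cfl_nonneg hc f _) (cfl_le hc f _) 2
      have h3 : (0 : ℝ) ≤ (1 / (c.m : ℝ)) ^ 2 := sq_nonneg _
      by_cases h0 : cflW c f (x, f.2) = 0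
      · rw [h0]
        split_ifs <;> norm_num
      · rcases (cfl_supp h0).2 with h4 | h4
        · simp only at h4
          rw [if_pos h4]
          split_ifs <;> linarith
        · simp only at h4
          rw [if_pos h4]
          split_ifs <;> linarith
    refine (Finset.sum_le_sum fun x _ => h1 x).trans ?_
    rw [Finset.sum_add_distrib, cfl_cell_const hc, cfl_cell_const hc]
    have : (c.m : ℝ) ^ 2 * (1 / (c.m : ℝ)) ^ 2 = 1 := by field_simp
    rw [this]
    norm_num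
  · intro e he
    have : cflW c f e = 0 := by
      unfold cflW
      rw [if_neg he]
    simp only [this]
    norm_num

theorem cfl_l2 (hc : Whole c) (T : Top c) (t : Face c → ℝ) :
    ∑ e : T.graph.E, (∑ f ∈ T.faces, t f * cflW c f e.1) ^ 2 ≤ 4 * ∑ f ∈ T.faces, t f ^ 2 := by
  calc ∑ e : T.graph.E, (∑ f ∈ T.faces, t f * cflW c f e.1) ^ 2
      ≤ ∑ e : T.graph.E, 2 * ∑ f ∈ T.faces, (t f * cflW c f e.1) ^ 2 :=
        Finset.sum_le_sum fun e _ => cfl_sq T.faces t e.1
    _ = 2 * ∑ f ∈ T.faces, t f ^ 2 * ∑ e : T.graph.E, cflW c f e.1 ^ 2 := by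
        rw [← Finset.mul_sum, Finset.sum_comm]
        congr 1
        refine Finset.sum_congr rfl fun f _ => ?_
        rw [Finset.mul_sum]
        refine Finset.sum_congr rfl fun e _ => ?_
        rw [mul_pow]
    _ ≤ 2 * ∑ f ∈ T.faces, t f ^ 2 * 2 := by
        refine mul_le_mul_of_nonneg_left ?_ (by norm_num)
        exact Finset.sum_le_sum fun f _ => mul_le_mul_of_nonneg_left (cfl_l2_one hc T f) (sq_nonneg _)
    _ = 4 * ∑ f ∈ T.faces, t f ^ 2 := by
        rw [← Finset.sum_mul]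
        ring

/-- **(ent:cell-flow)**: the cell flows `Φ_f`. -/
theorem cell_flow : ∃ C : ℝ, ∀ (G : Geom) (c : Grid G), Whole c → ∀ T : Top c, T.Ok → ∃ Φ : Face c → T.graph.E → ℝ,
    (∀ f ∈ T.faces, ∀ (u : G.V → ℝ) (w : Face c → ℝ),
      avg c u (fnb c f) - avg c u f.1 + w f = ∑ e, Φ f e * (u (stp e.1.1 e.1.2) - u e.1.1 + T.econn w e)) ∧
    (∀ f ∈ T.faces, ∀ e, Φ f e ≠ 0 → c.blk e.1.1 = f.1 ∨ c.blk e.1.1 = fnb c f) ∧
    ∀ t : Face c → ℝ,
      (∀ (e : T.graph.E) (B : ℝ), 0 ≤ B → (∀ f ∈ T.faces, |t f| ≤ B) → |∑ f ∈ T.faces, t f * Φ f e| ≤ C * B / c.m) ∧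
      ∑ e, (∑ f ∈ T.faces, t f * Φ f e) ^ 2 ≤ C * ∑ f ∈ T.faces, t f ^ 2 := by
  refine ⟨4, fun G c hc T hT => ⟨fun f e => cflW c f e.1, ?_, ?_, fun t => ⟨?_, ?_⟩⟩⟩
  · intro f hf u w
    exact cfl_identity hc T hT hf u w
  · intro f _ e he
    exact (cfl_supp he).2
  · intro e B hB ht
    exact cfl_sup hc T.faces t e.1 B hB ht
  · exact cfl_l2 hc T t

end

end Claimed.Agent.R285.F4a
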