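import Claimed.Agent.R285.F4a.UnitA
import Claimed.Agent.R285.Green.Top

/-!
# ROW 285, [F] Lemma 4.2: the centred unit background, package file 2/2   (contract helper251, proof helper226)

`center_background` (statement fixed by helper251; verdicts and consumers in `R285/Read/F4a.lean`) is PROVED here from the package PK-GREEN (`R285/Green/Top.lean`: `der_main`, `compare_main`, `lapZ_gL`)
and the abstract layer `R285/F4a/UnitA.lean`.  Nothing is left open in this file.

ROUTE.  `gC n` = odd lift of the killed Green function of the spin square of side `2 n` with pole at the centre, centred coordinates.  `η_n = rot d (gC n)` (`2π ×` rotated gradient): co-closed identically, circulation `2π Δ gC`;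
walls: `gC = 0`, so `η_n` is orthogonal to all gradients of the free dual square (`f42_coclosed`); reflected stencils = rotated gradient of the odd lift (`f42_elift_rot`).
First bound: `Green.der_main`; base points on the right / upper wall by one more difference (`f42_ext_step`).  Second bound: `Green.compare_main`; `η_∞ := lim η_n` (`aInf`, Cauchy by the second bound), no plane potential theory.
Branches: `v_n = pot η_n`, `v_∞ = pot η_∞` (row `0`, then columns; the cut is summed explicitly).  Bounded: on the row `0` the increments are SECOND differences by the reflection symmetry `gC_refl`; columns in the left / right sectors, rows in the upper / lower sectors.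
-/

set_option autoImplicit false

namespace Claimed.Agent.R285.F4a

open scoped BigOperators
open Filter Topology
open Claimed.Agent.R285 Claimed.Agent.R285.RG Claimed.Agent.R285.Hol

noncomputable section

variable {G : Geom}

/-! ## 1. the killed Green function with pole at the centre -/

/-- the centre of the spin square of side `2 n` -/
def ctrD (n : ℕ) (hn : 0 < n) : VD (2 * n) := (⟨n - 1, by omega⟩, ⟨n - 1, by omega⟩)

theorem gpos_ctrD (n : ℕ) (hn : 0 < n) : Green.gpos (ctrD n hn) = ((n : ℤ), (n : ℤ)) := by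
  unfold Green.gpos ctrD
  ext <;> simp <;> omega

/-- odd lift of `G_n (·, centre)`, UNCENTRED primal coordinates (walls at `0` and `2 n`) -/
def gD (n : ℕ) : ℤ × ℤ → ℝ := if hn : 0 < n then Green.gL (2 * n) (ctrD n hn) else fun _ => 0

/-- the same in CENTRED coordinates -/
def gC (n : ℕ) (y : ℤ × ℤ) : ℝ := gD n (y + ((n : ℤ), (n : ℤ)))

theorem gD_pos (n : ℕ) (hn : 0 < n) : gD n = Green.gL (2 * n) (ctrD n hn) := by
  unfold gD; rw [dif_pos hn]

theorem gD_wall (n : ℕ) (p : ℤ × ℤ) (h : p.1 = 0 ∨ p.1 = ((2 * n : ℕ) : ℤ) ∨ p.2 = 0 ∨ p.2 = ((2 * n : ℕ) : ℤ)) : gD n p = 0 := by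
  rcases Nat.eq_zero_or_pos n with rfl | hn
  · simp [gD]
  · rw [gD_pos n hn]
    exact Green.liftD_bdry _ p h

/-- iterated form of the odd lift -/
theorem liftD_iter (M : ℕ) (f : VD M → ℝ) (x : ℤ × ℤ) :
    liftD M f x = Green.lift1 M (fun i => Green.lift1 M (fun j => f (i, j)) x.2) x.1 := by
  unfold liftD Green.lift1
  rcases foldD M x.1 with _ | ⟨σ, i⟩ <;> rcases foldD M x.2 with _ | ⟨τ, j⟩
  · simp
  · simp
  · simp
  · cases σ <;> cases τ <;> simp

theorem liftD_iter' (M : ℕ) (f : VD M → ℝ) (x : ℤ × ℤ) :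
    liftD M f x = Green.lift1 M (fun j => Green.lift1 M (fun i => f (i, j)) x.1) x.2 := by
  unfold liftD Green.lift1
  rcases foldD M x.1 with _ | ⟨σ, i⟩ <;> rcases foldD M x.2 with _ | ⟨τ, j⟩
  · simp
  · simp
  · simp
  · cases σ <;> cases τ <;> simp

theorem liftD_oddLift (M : ℕ) (f : VD M → ℝ) : OddLift M (liftD M f) := by
  constructor
  · intro y
    exact ⟨fun x => by simp only [liftD_iter, Green.lift1_neg], fun x => by simp only [liftD_iter, Green.lift1_period]⟩
  · intro x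
    exact ⟨fun y => by simp only [liftD_iter', Green.lift1_neg], fun y => by simp only [liftD_iter', Green.lift1_period]⟩

theorem gD_oddLift (n : ℕ) : OddLift (2 * n) (gD n) := by
  rcases Nat.eq_zero_or_pos n with rfl | hn
  · have : gD 0 = fun _ => 0 := by simp [gD]
    rw [this]
    exact ⟨fun _ => ⟨fun _ => by simp, fun _ => rfl⟩, fun _ => ⟨fun _ => by simp, fun _ => rfl⟩⟩
  · rw [gD_pos n hn]
    exact liftD_oddLift _ _

/-- the Poisson equation in the open square -/
theorem gC_lap (n : ℕ) (y : ℤ × ℤ) (h1 : |y.1| < n) (h2 : |y.2| < n) : lapZ (gC n) y = if y = 0 then 1 else 0 := by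
  have hn : 0 < n := by
    have := abs_nonneg y.1
    omega
  rw [abs_lt] at h1 h2
  obtain ⟨v, hv⟩ := Green.exists_gpos (M := 2 * n) (y + ((n : ℤ), (n : ℤ))) (by simp; omega) (by simp; omega) (by simp; omega)
    (by simp; omega)
  have h := Green.lapZ_gL v (ctrD n hn)
  rw [hv, Green.lapZ_eq] at h
  have i1 : v = ctrD n hn ↔ y = 0 := by
    constructor
    · intro h
      rw [h, gpos_ctrD] at hv
      exact (right_eq_add.mp hv)
    · intro h
      apply Green.gpos_inj
      rw [hv, gpos_ctrD, h, zero_add]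
  simp only [i1] at h
  obtain ⟨y1, y2⟩ := y
  simp only [lapZ, gC, gD_pos n hn, Prod.mk_add_mk, Prod.mk_sub_mk, add_zero, sub_zero]
  simp only [Prod.mk_add_mk] at h
  have e1 : y1 + 1 + (n : ℤ) = y1 + n + 1 := by ring
  have e2 : y1 - 1 + (n : ℤ) = y1 + n - 1 := by ring
  have e3 : y2 + 1 + (n : ℤ) = y2 + n + 1 := by ring
  have e4 : y2 - 1 + (n : ℤ) = y2 + n - 1 := by ring
  rw [e1, e2, e3, e4]
  linarith

/-- reflection of the second coordinate of the interior vertices -/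
def rho2 (M : ℕ) : VD M ≃ VD M := Equiv.prodCongr (Equiv.refl _) Fin.revPerm

theorem greenD_rho2 (M : ℕ) (v w : VD M) : greenD M (rho2 M v) (rho2 M w) = greenD M v w := by
  have h : (lapD M).submatrix (rho2 M) (rho2 M) = lapD M := by
    ext a b
    simp only [Matrix.submatrix_apply]
    unfold lapD
    have e1 : (rho2 M a = rho2 M b) ↔ a = b := (rho2 M).injective.eq_iff
    have e2 : (((rho2 M a).1 : ℕ) : ℤ) = a.1 := rfl
    have e3 : (((rho2 M b).1 : ℕ) : ℤ) = b.1 := rfl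
    have e4 : ((((rho2 M a).2 : ℕ) : ℤ) - (((rho2 M b).2 : ℕ) : ℤ)).natAbs = (((a.2 : ℕ) : ℤ) - ((b.2 : ℕ) : ℤ)).natAbs := by
      have h1 : ((rho2 M a).2 : ℕ) = M - 1 - (a.2 + 1) := by simp [rho2, Fin.rev]
      have h2 : ((rho2 M b).2 : ℕ) = M - 1 - (b.2 + 1) := by simp [rho2, Fin.rev]
      have := a.2.2
      have := b.2.2
      omega
    simp only [e1, e2, e3, e4]
  have h2 := Matrix.inv_submatrix_equiv (lapD M) (rho2 M) (rho2 M)
  rw [h] at h2
  unfold greenD
  conv_rhs => rw [h2]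
  rfl

/-- the odd lift commutes with the reflection about the middle -/
theorem lift1_rev (M : ℕ) (f : Fin (M - 1) → ℝ) (x : ℤ) : Green.lift1 M f ((M : ℤ) - x) = Green.lift1 M (fun i => f (Fin.rev i)) x := by
  rcases Nat.eq_zero_or_pos M with rfl | hM
  · rw [Green.lift1_zero_M, Green.lift1_zero_M]
  have h := Green.lift1_of_odd hM (fun x => Green.lift1 M f ((M : ℤ) - x)) (fun x => by
      rw [← Green.lift1_neg, ← Green.lift1_period f (-((M : ℤ) - x))]
      congr 1; ring) (fun x => by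
      rw [← Green.lift1_period f ((M : ℤ) - (x + 2 * M))]
      congr 1; ring) x
  rw [← h]
  congr 1
  funext i
  have hi := i.2
  have e : (M : ℤ) - (((i : ℕ) : ℤ) + 1) = (((Fin.rev i : Fin (M - 1)) : ℕ) : ℤ) + 1 := by
    have : ((Fin.rev i : Fin (M - 1)) : ℕ) = M - 1 - (i + 1) := by simp [Fin.rev]
    omega
  rw [e, Green.lift1_pos]

/-- **reflection symmetry** about the horizontal line through the pole -/
theorem gC_refl (n : ℕ) (y : ℤ × ℤ) : gC n (y.1, -y.2) = gC n y := by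
  rcases Nat.eq_zero_or_pos n with rfl | hn
  · simp [gC, gD]
  · simp only [gC, gD_pos n hn, Green.gL, Prod.mk_add_mk]
    obtain ⟨y1, y2⟩ := y
    simp only [Prod.mk_add_mk]
    rw [liftD_iter', liftD_iter']
    simp only
    have e : -y2 + (n : ℤ) = ((2 * n : ℕ) : ℤ) - (y2 + n) := by push_cast; ring
    rw [e, lift1_rev]
    congr 1
    funext j
    congr 1
    funext i
    have h := greenD_rho2 (2 * n) (i, j) (ctrD n hn)
    have hc : rho2 (2 * n) (ctrD n hn) = ctrD n hn := by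
      unfold rho2 ctrD
      ext
      · rfl
      · simp [Fin.rev]; omega
    rw [hc] at h
    exact h

theorem sn_eq_natAbs (y : ℤ × ℤ) : ((max y.1.natAbs y.2.natAbs : ℕ) : ℝ) = sn y := by
  simp [sn, Nat.cast_max, Nat.cast_natAbs]

/-- derivative bounds at interior base points (all orders): `Green.der_main` in centred coordinates -/
theorem gC_der (n : ℕ) (l : List (Fin 4)) (hl : l ≠ []) (y : ℤ × ℤ) (h1 : |y.1| < n) (h2 : |y.2| < n) :
    |dl l (gC n) y| ≤ (16 * ((l.length : ℝ) + 1)) ^ l.length / (1 + sn y) ^ l.length := by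
  have hn : 0 < n := by
    have := abs_nonneg y.1
    omega
  rw [abs_lt] at h1 h2
  obtain ⟨v, hv⟩ := Green.exists_gpos (M := 2 * n) (y + ((n : ℤ), (n : ℤ))) (by simp; omega) (by simp; omega) (by simp; omega)
    (by simp; omega)
  have hd : (distD v (ctrD n hn) : ℝ) = sn y := by
    rw [← sn_eq_natAbs]
    congr 1
    unfold distD
    have hc := gpos_ctrD n hn
    unfold Green.gpos at hv hc
    have a1 := congrArg Prod.fst hv
    have a2 := congrArg Prod.snd hv
    have b1 := congrArg Prod.fst hc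
    have b2 := congrArg Prod.snd hc
    simp only [Prod.fst_add, Prod.snd_add] at a1 a2 b1 b2
    have e1 : ((v.1 : ℕ) : ℤ) - (((ctrD n hn).1 : ℕ) : ℤ) = y.1 := by omega
    have e2 : ((v.2 : ℕ) : ℤ) - (((ctrD n hn).2 : ℕ) : ℤ) = y.2 := by omega
    rw [e1, e2]
  have h := Green.der_main v (ctrD n hn) l hl
  rw [hv, hd] at h
  have e : gC n = fun y => gD n (y + ((n : ℤ), (n : ℤ))) := rfl
  rw [e, f42_dl_shift, gD_pos n hn]
  exact h

/-- comparison of two squares: `Green.compare_main` -/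
theorem gC_cmp (n n2 : ℕ) (hn : 1 ≤ n) (hnn : n ≤ n2) (l : List (Fin 4)) (hl : l ≠ []) (x : ℤ × ℤ) (hx1 : 2 * |x.1| ≤ n)
    (hx2 : 2 * |x.2| ≤ n) :
    |dl l (fun y => gC n y - gC n2 y) x| ≤ 2 * (32 * ((l.length : ℝ) + 1)) ^ l.length / (n : ℝ) ^ l.length := by
  have h := Green.compare_main n n2 hn hnn (ctrD n hn) (ctrD n2 (by omega)) (gpos_ctrD n hn) (gpos_ctrD n2 (by omega)) l hl x hx1 hx2
  have e : (fun y => gC n y - gC n2 y) = fun y => Green.gL (2 * n) (ctrD n hn) (y + ((n : ℤ), (n : ℤ)))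
      - Green.gL (2 * n2) (ctrD n2 (by omega)) (y + ((n2 : ℤ), (n2 : ℤ))) := by
    funext y
    simp only [gC, gD_pos n hn, gD_pos n2 (by omega : 0 < n2)]
  rw [e]
  exact h

/-! ## 2. bounds of the rotated gradient -/

theorem sn_add_le (x p : ℤ × ℤ) : sn (x + p) ≤ sn x + sn p := by
  unfold sn
  simp only [Prod.fst_add, Prod.snd_add, Int.cast_add]
  refine max_le ?_ ?_
  · exact (abs_add_le _ _).trans (add_le_add (le_max_left _ _) (le_max_left _ _))
  · exact (abs_add_le _ _).trans (add_le_add (le_max_right _ _) (le_max_right _ _))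

theorem sn_neg (x : ℤ × ℤ) : sn (-x) = sn x := by simp [sn]

theorem sn_le_add (x p : ℤ × ℤ) : sn x ≤ sn (x + p) + sn p := by
  have := sn_add_le (x + p) (-p)
  rwa [add_neg_cancel_right, sn_neg] at this

theorem sn_dir (i : Fin 4) : sn (dir i) = 1 := by
  fin_cases i <;> simp [sn, dir]

theorem f42_inv_pow_shift (a b : ℝ) (ha : 0 ≤ a) (hb : 0 ≤ b) (h : a ≤ b + 1) (r : ℕ) :
    ((1 + b) ^ r)⁻¹ ≤ 2 ^ r * ((1 + a) ^ r)⁻¹ := by
  rw [← div_eq_mul_inv, le_div_iff₀ (by positivity), inv_mul_le_iff₀ (by positivity), ← mul_pow]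
  exact pow_le_pow_left₀ (by positivity) (by linarith) r

/-- moving the base point by one step -/
theorem f42_ext_step (g : ℤ × ℤ → ℝ) (i : Fin 4) (l : List (Fin 4)) (y : ℤ × ℤ) (Kc : ℝ) (hK : 0 ≤ Kc)
    (h1 : |dl l g y| ≤ Kc * ((1 + sn y) ^ l.length)⁻¹) (h2 : |dl (i :: l) g y| ≤ Kc * ((1 + sn y) ^ (l.length + 1))⁻¹) :
    |dl l g (y + dir i)| ≤ 2 ^ (l.length + 1) * Kc * ((1 + sn (y + dir i)) ^ l.length)⁻¹ := by
  have s0 := sn_nonneg y
  have s1 := sn_nonneg (y + dir i)
  have h3 : ((1 + sn y) ^ (l.length + 1))⁻¹ ≤ ((1 + sn y) ^ l.length)⁻¹ := by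
    apply inv_anti₀ (by positivity)
    exact pow_le_pow_right₀ (by linarith) (Nat.le_succ _)
  have h4 := f42_inv_pow_shift (sn (y + dir i)) (sn y) s1 s0 (by
    have := sn_add_le y (dir i); rwa [sn_dir] at this) l.length
  rw [f42_dl_step]
  calc |dl l g y + dl (i :: l) g y| ≤ |dl l g y| + |dl (i :: l) g y| := abs_add_le _ _
    _ ≤ Kc * ((1 + sn y) ^ l.length)⁻¹ + Kc * ((1 + sn y) ^ l.length)⁻¹ :=
        add_le_add h1 (h2.trans (mul_le_mul_of_nonneg_left h3 hK))
    _ = 2 * Kc * ((1 + sn y) ^ l.length)⁻¹ := by ring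
    _ ≤ 2 * Kc * (2 ^ l.length * ((1 + sn (y + dir i)) ^ l.length)⁻¹) := mul_le_mul_of_nonneg_left h4 (by positivity)
    _ = _ := by ring

/-- the constant of the interior bounds up to order `7` -/
def f42K7 : ℝ := (16 * 8) ^ 7

theorem f42K7_pos : 0 < f42K7 := by unfold f42K7; positivity

theorem gC_der7 (n : ℕ) (l : List (Fin 4)) (hl : l ≠ []) (hl7 : l.length ≤ 7) (y : ℤ × ℤ) (h1 : |y.1| < n) (h2 : |y.2| < n) :
    |dl l (gC n) y| ≤ f42K7 * ((1 + sn y) ^ l.length)⁻¹ := by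
  refine (gC_der n l hl y h1 h2).trans ?_
  have s0 := sn_nonneg y
  rw [div_eq_mul_inv]
  refine mul_le_mul_of_nonneg_right ?_ (by positivity)
  have h7 : (l.length : ℝ) ≤ 7 := by exact_mod_cast hl7
  unfold f42K7
  calc (16 * ((l.length : ℝ) + 1)) ^ l.length ≤ (16 * 8 : ℝ) ^ l.length := pow_le_pow_left₀ (by positivity) (by linarith) _
    _ ≤ (16 * 8 : ℝ) ^ 7 := pow_le_pow_right₀ (by norm_num) hl7

/-- base points on the right wall -/
theorem gC_der6 (n : ℕ) (l : List (Fin 4)) (hl : l ≠ []) (hl6 : l.length ≤ 6) (y : ℤ × ℤ) (h1 : -(n : ℤ) < y.1) (h1' : y.1 ≤ n)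
    (h2 : |y.2| < n) : |dl l (gC n) y| ≤ 2 ^ 7 * f42K7 * ((1 + sn y) ^ l.length)⁻¹ := by
  have s0 := sn_nonneg y
  have hK := f42K7_pos
  rcases lt_or_eq_of_le h1' with h | h
  · refine (gC_der7 n l hl (by omega) y (by rw [abs_lt]; omega) h2).trans ?_
    refine mul_le_mul_of_nonneg_right ?_ (by positivity)
    nlinarith
  · have hn : 0 < n := by have := abs_nonneg y.2; omega
    have e : y = (y + (-1, 0)) + dir 0 := by ext <;> simp [dir]
    have hy1 : |(y + ((-1 : ℤ), (0 : ℤ))).1| < n := by simp only [Prod.fst_add]; rw [abs_lt]; omega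
    have hy2 : |(y + ((-1 : ℤ), (0 : ℤ))).2| < n := by simpa using h2
    have := f42_ext_step (gC n) 0 l (y + (-1, 0)) f42K7 hK.le (gC_der7 n l hl (by omega) _ hy1 hy2)
      (gC_der7 n (0 :: l) (by simp) (by simp; omega) _ hy1 hy2)
    rw [← e] at this
    refine this.trans ?_
    refine mul_le_mul_of_nonneg_right ?_ (by positivity)
    refine mul_le_mul_of_nonneg_right ?_ hK.le
    exact pow_le_pow_right₀ (by norm_num) (by omega)

/-- base points on the right and upper walls -/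
theorem gC_der5 (n : ℕ) (l : List (Fin 4)) (hl : l ≠ []) (hl5 : l.length ≤ 5) (y : ℤ × ℤ) (h1 : -(n : ℤ) < y.1) (h1' : y.1 ≤ n)
    (h2 : -(n : ℤ) < y.2) (h2' : y.2 ≤ n) : |dl l (gC n) y| ≤ 2 ^ 13 * f42K7 * ((1 + sn y) ^ l.length)⁻¹ := by
  have s0 := sn_nonneg y
  have hK := f42K7_pos
  rcases lt_or_eq_of_le h2' with h | h
  · refine (gC_der6 n l hl (by omega) y h1 h1' (by rw [abs_lt]; omega)).trans ?_
    refine mul_le_mul_of_nonneg_right ?_ (by positivity)
    nlinarith
  · have hn : 0 < n := by omega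
    have e : y = (y + (0, -1)) + dir 2 := by ext <;> simp [dir]
    have hy1 : -(n : ℤ) < (y + ((0 : ℤ), (-1 : ℤ))).1 := by simpa using h1
    have hy1' : (y + ((0 : ℤ), (-1 : ℤ))).1 ≤ n := by simpa using h1'
    have hy2 : |(y + ((0 : ℤ), (-1 : ℤ))).2| < n := by simp only [Prod.snd_add]; rw [abs_lt]; omega
    have := f42_ext_step (gC n) 2 l (y + (0, -1)) (2 ^ 7 * f42K7) (by positivity) (gC_der6 n l hl (by omega) _ hy1 hy1' hy2)
      (gC_der6 n (2 :: l) (by simp) (by simp; omega) _ hy1 hy1' hy2)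
    rw [← e] at this
    refine this.trans ?_
    refine mul_le_mul_of_nonneg_right ?_ (by positivity)
    have : (2 : ℝ) ^ (l.length + 1) ≤ 2 ^ 6 := pow_le_pow_right₀ (by norm_num) (by omega)
    calc (2 : ℝ) ^ (l.length + 1) * (2 ^ 7 * f42K7) ≤ 2 ^ 6 * (2 ^ 7 * f42K7) := mul_le_mul_of_nonneg_right this (by positivity)
      _ = 2 ^ 13 * f42K7 := by ring

/-- the constant of (ent:unit-decay), first line -/
def f42C3 : ℝ := 2 * Real.pi * (2 ^ 18 * f42K7)

theorem f42C3_pos : 0 < f42C3 := by have := f42K7_pos; unfold f42C3; positivity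

/-- **(ent:unit-decay), first line**, in the centred dual box -/
theorem rot_gC_bound (n : ℕ) (d : Bool) (l : List (Fin 4)) (hl : l.length ≤ 4) (x : ℤ × ℤ) (hx : InBox n x) :
    |dl l (rot d (gC n)) x| ≤ f42C3 * ((1 + sn x) ^ (1 + l.length))⁻¹ := by
  obtain ⟨hx1, hx2, hx3, hx4⟩ := hx
  have hK := f42K7_pos
  have s0 := sn_nonneg x
  have s1 := sn_nonneg (x + (1, 1))
  have h := gC_der5 n (l ++ [if d then 3 else 1]) (by simp) (by simp; omega) (x + (1, 1)) (by simp; omega) (by simp; omega)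
    (by simp; omega) (by simp; omega)
  have hlen : (l ++ [if d then (3 : Fin 4) else 1]).length = 1 + l.length := by simp; ring
  rw [hlen] at h
  have h4 := f42_inv_pow_shift (sn x) (sn (x + (1, 1))) s0 s1 (by
    have := sn_le_add x (1, 1)
    have e : sn ((1 : ℤ), (1 : ℤ)) = 1 := by simp [sn]
    rwa [e] at this) (1 + l.length)
  have h5 : (2 : ℝ) ^ (1 + l.length) ≤ 2 ^ 5 := pow_le_pow_right₀ (by norm_num) (by omega)
  have habs : |(if d then -(2 * Real.pi) else 2 * Real.pi : ℝ)| = 2 * Real.pi := by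
    cases d <;> simp [abs_of_pos Real.pi_pos]
  rw [dl_rot_ur, abs_mul, habs]
  have hp : 0 ≤ ((1 + sn x) ^ (1 + l.length))⁻¹ := by positivity
  calc 2 * Real.pi * |dl (l ++ [if d then 3 else 1]) (gC n) (x + (1, 1))|
      ≤ 2 * Real.pi * (2 ^ 13 * f42K7 * ((1 + sn (x + (1, 1))) ^ (1 + l.length))⁻¹) := mul_le_mul_of_nonneg_left h (by positivity)
    _ ≤ 2 * Real.pi * (2 ^ 13 * f42K7 * (2 ^ (1 + l.length) * ((1 + sn x) ^ (1 + l.length))⁻¹)) := by
        refine mul_le_mul_of_nonneg_left ?_ (by positivity)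
        exact mul_le_mul_of_nonneg_left h4 (by positivity)
    _ ≤ 2 * Real.pi * (2 ^ 13 * f42K7 * (2 ^ 5 * ((1 + sn x) ^ (1 + l.length))⁻¹)) := by
        refine mul_le_mul_of_nonneg_left ?_ (by positivity)
        refine mul_le_mul_of_nonneg_left ?_ (by positivity)
        exact mul_le_mul_of_nonneg_right h5 hp
    _ = f42C3 * ((1 + sn x) ^ (1 + l.length))⁻¹ := by unfold f42C3; ring

/-- the row next to the reflection ray: the increments are SECOND differences -/
theorem rot_gC_row (n : ℕ) (i : ℤ) (hx : InBox n (i, 0)) : |rot true (gC n) (i, 0)| ≤ f42C3 * ((1 + |(i : ℝ)|) ^ 2)⁻¹ := by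
  obtain ⟨hx1, hx2, hx3, hx4⟩ := hx
  simp only at hx1 hx2 hx3 hx4
  have hK := f42K7_pos
  have e : rot true (gC n) (i, 0) = -(Real.pi * dl [2, 3] (gC n) (i + 1, 0)) := by
    have r := gC_refl n (i + 1, 1)
    simp only [rot, if_true, dl_cons, dl_nil, dif, dir, Prod.mk_add_mk]
    simp only [Matrix.cons_val, zero_add, add_zero] at r ⊢
    norm_num
    rw [r]
    ring
  have h := gC_der6 n [2, 3] (by simp) (by simp) (i + 1, 0) (by simp only; omega) (by simp only; omega) (by simp; omega)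
  simp only [List.length_cons, List.length_nil, zero_add, Nat.reduceAdd] at h
  have a0 : 0 ≤ |(i : ℝ)| := abs_nonneg _
  have s1 := sn_nonneg (i + 1, 0)
  have h4 := f42_inv_pow_shift (|(i : ℝ)|) (sn (i + 1, 0)) a0 s1 (by
    have : sn (i + 1, 0) = |(i : ℝ) + 1| := by simp [sn]
    rw [this]
    have := abs_add_le ((i : ℝ) + 1) (-1)
    simp only [add_neg_cancel_right, abs_neg, abs_one] at this
    exact this) 2
  rw [e, abs_neg, abs_mul, abs_of_pos Real.pi_pos]
  have hp : 0 ≤ ((1 + |(i : ℝ)|) ^ 2)⁻¹ := by positivity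
  calc Real.pi * |dl [2, 3] (gC n) (i + 1, 0)| ≤ Real.pi * (2 ^ 7 * f42K7 * ((1 + sn (i + 1, 0)) ^ 2)⁻¹) :=
        mul_le_mul_of_nonneg_left h Real.pi_pos.le
    _ ≤ Real.pi * (2 ^ 7 * f42K7 * (2 ^ 2 * ((1 + |(i : ℝ)|) ^ 2)⁻¹)) := by
        refine mul_le_mul_of_nonneg_left ?_ Real.pi_pos.le
        exact mul_le_mul_of_nonneg_left h4 (by positivity)
    _ ≤ f42C3 * ((1 + |(i : ℝ)|) ^ 2)⁻¹ := by
        unfold f42C3
        have : Real.pi * (2 ^ 7 * f42K7 * (2 ^ 2 * ((1 + |(i : ℝ)|) ^ 2)⁻¹)) = (Real.pi * f42K7 * ((1 + |(i : ℝ)|) ^ 2)⁻¹) * 2 ^ 9 := by ring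
        rw [this]
        have : 2 * Real.pi * (2 ^ 18 * f42K7) * ((1 + |(i : ℝ)|) ^ 2)⁻¹ = (Real.pi * f42K7 * ((1 + |(i : ℝ)|) ^ 2)⁻¹) * 2 ^ 19 := by ring
        rw [this]
        refine mul_le_mul_of_nonneg_left (by norm_num) ?_
        have := Real.pi_pos
        positivity

/-- the circulation -/
theorem rot_gC_curl (n : ℕ) : UnitCurl n (rot true (gC n)) (rot false (gC n)) := by
  intro y hy hy'
  obtain ⟨a1, a2, a3, a4⟩ := hy
  obtain ⟨b1, b2, b3, b4⟩ := hy'
  simp only [Prod.fst_add, Prod.snd_add] at b1 b2 b3 b4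
  rw [rot_curl, gC_lap n _ (by simp only [Prod.fst_add]; rw [abs_lt]; omega) (by simp only [Prod.snd_add]; rw [abs_lt]; omega)]
  have : y + ((1 : ℤ), (1 : ℤ)) = 0 ↔ y = (-1, -1) := by
    constructor
    · intro h; exact eq_neg_of_add_eq_zero_left h
    · intro h; rw [h]; rfl
  simp only [this]
  split_ifs <;> simp

theorem rot_sub (d : Bool) (F F' : ℤ × ℤ → ℝ) (y : ℤ × ℤ) : rot d F y - rot d F' y = rot d (fun z => F z - F' z) y := by
  cases d <;> simp only [rot, if_true, Bool.false_eq_true, if_false] <;> ring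

/-- the constant of the comparison of two squares -/
def f42C5 : ℝ := 2 * Real.pi * (2 * (32 * 6) ^ 5)

theorem f42C5_pos : 0 < f42C5 := by unfold f42C5; positivity

/-- two squares, central region -/
theorem rot_gC_cmp (n n2 : ℕ) (hn : 1 ≤ n) (hnn : n ≤ n2) (d : Bool) (l : List (Fin 4)) (hl : l.length ≤ 4) (x : ℤ × ℤ)
    (hx1 : 2 * (|x.1| + 1) ≤ n) (hx2 : 2 * (|x.2| + 1) ≤ n) :
    |dl l (fun y => rot d (gC n) y - rot d (gC n2) y) x| ≤ f42C5 * ((n : ℝ) ^ (1 + l.length))⁻¹ := by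
  have hn0 : (0 : ℝ) < n := by exact_mod_cast hn
  simp only [rot_sub]
  have h := gC_cmp n n2 hn hnn (l ++ [if d then 3 else 1]) (by simp) (x + (1, 1))
    (by simp only [Prod.fst_add]; have := abs_add_le x.1 1; simp only [abs_one] at this; omega)
    (by simp only [Prod.snd_add]; have := abs_add_le x.2 1; simp only [abs_one] at this; omega)
  have hlen : (l ++ [if d then (3 : Fin 4) else 1]).length = 1 + l.length := by simp; ring
  rw [hlen] at h
  have habs : |(if d then -(2 * Real.pi) else 2 * Real.pi : ℝ)| = 2 * Real.pi := by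
    cases d <;> simp [abs_of_pos Real.pi_pos]
  rw [dl_rot_ur, abs_mul, habs]
  have h5 : (((1 + l.length : ℕ) : ℝ)) ≤ 5 := by exact_mod_cast (by omega : 1 + l.length ≤ 5)
  have h6 : (32 * ((((1 + l.length : ℕ) : ℝ)) + 1)) ^ (1 + l.length) ≤ (32 * 6 : ℝ) ^ 5 :=
    calc (32 * ((((1 + l.length : ℕ) : ℝ)) + 1)) ^ (1 + l.length) ≤ (32 * 6 : ℝ) ^ (1 + l.length) :=
          pow_le_pow_left₀ (by positivity) (by linarith) _
      _ ≤ (32 * 6 : ℝ) ^ 5 := pow_le_pow_right₀ (by norm_num) (by omega)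
  calc 2 * Real.pi * |dl (l ++ [if d then 3 else 1]) (fun z => gC n z - gC n2 z) (x + (1, 1))|
      ≤ 2 * Real.pi * (2 * (32 * ((((1 + l.length : ℕ) : ℝ)) + 1)) ^ (1 + l.length) / (n : ℝ) ^ (1 + l.length)) :=
        mul_le_mul_of_nonneg_left h (by positivity)
    _ ≤ 2 * Real.pi * (2 * (32 * 6) ^ 5 / (n : ℝ) ^ (1 + l.length)) := by
        refine mul_le_mul_of_nonneg_left ?_ (by positivity)
        refine div_le_div_of_nonneg_right ?_ (by positivity)
        linarith
    _ = f42C5 * ((n : ℝ) ^ (1 + l.length))⁻¹ := by unfold f42C5; rw [div_eq_mul_inv]; ring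

/-! ## 3. the plane connection -/

/-- `η_∞` := the limit of the centred connections -/
def aInf (d : Bool) (x : ℤ × ℤ) : ℝ := limUnder atTop fun n => rot d (gC n) x

theorem aInf_tendsto (d : Bool) (x : ℤ × ℤ) : Tendsto (fun n => rot d (gC n) x) atTop (𝓝 (aInf d x)) := by
  have hc : CauchySeq fun n => rot d (gC n) x := by
    rw [Metric.cauchySeq_iff']
    intro ε hε
    obtain ⟨N1, hN1⟩ := exists_nat_gt (f42C5 / ε)
    refine ⟨max (max N1 1) (2 * (|x.1| + 1) + 2 * (|x.2| + 1)).toNat, fun n hn => ?_⟩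
    set N := max (max N1 1) (2 * (|x.1| + 1) + 2 * (|x.2| + 1)).toNat with hN
    have a1 : 1 ≤ N := le_trans (le_max_right _ _) (le_max_left _ _)
    have a2 : N1 ≤ N := le_trans (le_max_left _ _) (le_max_left _ _)
    have a3 : (2 * (|x.1| + 1) + 2 * (|x.2| + 1)).toNat ≤ N := le_max_right _ _
    have b1 := abs_nonneg x.1
    have b2 := abs_nonneg x.2
    have h := rot_gC_cmp N n a1 hn d [] (by simp) x (by omega) (by omega)
    simp only [dl_nil, List.length_nil, add_zero, pow_one] at h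
    rw [Real.dist_eq, abs_sub_comm]
    refine h.trans_lt ?_
    have hN0 : (0 : ℝ) < N := by exact_mod_cast a1
    rw [← div_eq_mul_inv, div_lt_iff₀ hN0]
    have : f42C5 / ε < N := hN1.trans_le (by exact_mod_cast a2)
    rw [div_lt_iff₀ hε] at this
    linarith
  obtain ⟨a, ha⟩ := cauchySeq_tendsto_of_complete hc
  unfold aInf
  rw [ha.limUnder_eq]
  exact ha

theorem eventually_inBox (x : ℤ × ℤ) : ∀ᶠ n : ℕ in atTop, InBox n x := by
  filter_upwards [eventually_ge_atTop (|x.1| + |x.2| + 1).toNat] with n hn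
  have b1 := abs_nonneg x.1
  have b2 := abs_nonneg x.2
  have c1 := abs_le.1 (le_refl |x.1|)
  have c2 := abs_le.1 (le_refl |x.2|)
  refine ⟨?_, ?_, ?_, ?_⟩ <;> omega

/-- the first bound also holds for `η_∞` -/
theorem aInf_bound (d : Bool) (l : List (Fin 4)) (hl : l.length ≤ 4) (x : ℤ × ℤ) :
    |dl l (aInf d) x| ≤ f42C3 * ((1 + sn x) ^ (1 + l.length))⁻¹ := by
  have h := (f42_dl_tendsto l (fun n => rot d (gC n)) (aInf d) (aInf_tendsto d) x).abs
  refine le_of_tendsto h ?_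
  filter_upwards [eventually_inBox x] with n hn
  exact rot_gC_bound n d l hl x hn

theorem aInf_row (i : ℤ) : |aInf true (i, 0)| ≤ f42C3 * ((1 + |(i : ℝ)|) ^ 2)⁻¹ := by
  refine le_of_tendsto (aInf_tendsto true (i, 0)).abs ?_
  filter_upwards [eventually_inBox (i, 0)] with n hn
  exact rot_gC_row n i hn

theorem aInf_curl (n : ℕ) : UnitCurl n (aInf true) (aInf false) := by
  intro y _ _
  have h := (((aInf_tendsto true y).add (aInf_tendsto false (y + (1, 0)))).sub (aInf_tendsto true (y + (0, 1)))).sub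
    (aInf_tendsto false y)
  refine tendsto_nhds_unique h ?_
  refine tendsto_const_nhds.congr' ?_
  filter_upwards [eventually_inBox y, eventually_inBox (y + (1, 1))] with m h1 h2
  exact (rot_gC_curl m y h1 h2).symm

theorem aInf_div (x : ℤ × ℤ) : aInf true x + aInf false x - aInf true (x - bdir true) - aInf false (x - bdir false) = 0 := by
  have h := (((aInf_tendsto true x).add (aInf_tendsto false x)).sub (aInf_tendsto true (x - bdir true))).sub
    (aInf_tendsto false (x - bdir false))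
  refine tendsto_nhds_unique h ?_
  refine tendsto_const_nhds.congr fun m => ?_
  exact (rot_div (gC m) x).symm

/-- (ent:unit-decay), second line, large `n` -/
theorem aInf_cmp (n : ℕ) (hn : 1 ≤ n) (d : Bool) (l : List (Fin 4)) (hl : l.length ≤ 4) (x : ℤ × ℤ)
    (hx1 : 2 * (|x.1| + 1) ≤ n) (hx2 : 2 * (|x.2| + 1) ≤ n) :
    |dl l (fun y => rot d (gC n) y - aInf d y) x| ≤ f42C5 * ((n : ℝ) ^ (1 + l.length))⁻¹ := by
  have h := (f42_dl_tendsto l (fun n2 => fun y => rot d (gC n) y - rot d (gC n2) y) (fun y => rot d (gC n) y - aInf d y)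
    (fun y => tendsto_const_nhds.sub (aInf_tendsto d y)) x).abs
  refine le_of_tendsto h ?_
  filter_upwards [eventually_ge_atTop n] with n2 hn2
  exact rot_gC_cmp n n2 hn hn2 d l hl x hx1 hx2

/-- the constant of (ent:unit-decay), second line -/
def f42C6 : ℝ := f42C5 + 2 * f42C3 * 4 ^ 5

theorem f42C6_pos : 0 < f42C6 := by have := f42C5_pos; have := f42C3_pos; unfold f42C6; positivity

/-- **(ent:unit-decay), second line**, `c₀ = 1/4`, all `n ≥ 1` -/
theorem aInf_cmp' (n : ℕ) (hn : 1 ≤ n) (d : Bool) (l : List (Fin 4)) (hl : l.length ≤ 4) (x : ℤ × ℤ) (hx : sn x ≤ 1 / 4 * n) :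
    |dl l (fun y => rot d (gC n) y - aInf d y) x| ≤ f42C6 * ((n : ℝ) ^ (1 + l.length))⁻¹ := by
  have hn0 : (0 : ℝ) < n := by exact_mod_cast hn
  have h3 := f42C3_pos
  have h5 := f42C5_pos
  have hp : 0 < ((n : ℝ) ^ (1 + l.length))⁻¹ := by positivity
  have k1 : 4 * |x.1| ≤ n := by
    have : |(x.1 : ℝ)| ≤ 1 / 4 * n := (le_max_left _ _).trans hx
    have h' : ((4 * |x.1| : ℤ) : ℝ) ≤ ((n : ℤ) : ℝ) := by push_cast; linarith
    exact_mod_cast h'
  have k2 : 4 * |x.2| ≤ n := by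
    have : |(x.2 : ℝ)| ≤ 1 / 4 * n := (le_max_right _ _).trans hx
    have h' : ((4 * |x.2| : ℤ) : ℝ) ≤ ((n : ℤ) : ℝ) := by push_cast; linarith
    exact_mod_cast h'
  by_cases h4 : 4 ≤ n
  · refine (aInf_cmp n hn d l hl x (by omega) (by omega)).trans ?_
    refine mul_le_mul_of_nonneg_right ?_ hp.le
    unfold f42C6
    have : 0 < 2 * f42C3 * 4 ^ 5 := by positivity
    linarith
  · have hb : InBox n x := by
      have c1 := abs_le.1 (le_refl |x.1|)
      have c2 := abs_le.1 (le_refl |x.2|)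
      refine ⟨?_, ?_, ?_, ?_⟩ <;> omega
    have s0 := sn_nonneg x
    have e1 := rot_gC_bound n d l hl x hb
    have e2 := aInf_bound d l hl x
    have e3 : ((1 + sn x) ^ (1 + l.length))⁻¹ ≤ 1 := by
      apply inv_le_one_of_one_le₀
      exact one_le_pow₀ (by linarith)
    have e4 : 1 ≤ 4 ^ 5 * ((n : ℝ) ^ (1 + l.length))⁻¹ := by
      rw [← div_eq_mul_inv, le_div_iff₀ (by positivity), one_mul]
      have hn4 : (n : ℝ) ≤ 4 := by exact_mod_cast (by omega : n ≤ 4)
      calc (n : ℝ) ^ (1 + l.length) ≤ 4 ^ (1 + l.length) := pow_le_pow_left₀ hn0.le hn4 _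
        _ ≤ 4 ^ 5 := pow_le_pow_right₀ (by norm_num) (by omega)
    rw [f42_dl_sub]
    have e5 := abs_sub (dl l (rot d (gC n)) x) (dl l (aInf d) x)
    have e6 : f42C3 * ((1 + sn x) ^ (1 + l.length))⁻¹ ≤ f42C3 * (4 ^ 5 * ((n : ℝ) ^ (1 + l.length))⁻¹) :=
      mul_le_mul_of_nonneg_left (e3.trans e4) h3.le
    have e7 : f42C6 * ((n : ℝ) ^ (1 + l.length))⁻¹ = f42C5 * ((n : ℝ) ^ (1 + l.length))⁻¹ + 2 * (f42C3 * (4 ^ 5 * ((n : ℝ) ^ (1 + l.length))⁻¹)) := by
      unfold f42C6; ring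
    have e8 : 0 < f42C5 * ((n : ℝ) ^ (1 + l.length))⁻¹ := by positivity
    rw [e7]
    linarith

/-! ## 4. the branches and Lemma 4.2 -/

/-- the plane branch `v_∞` -/
def vInf : ℤ × ℤ → ℝ := pot (aInf true) (aInf false)

/-- the branch `v_n` in centred coordinates -/
def vC (n : ℕ) : ℤ × ℤ → ℝ := pot (rot true (gC n)) (rot false (gC n))

theorem exists_inBox2 (x y : ℤ × ℤ) : ∃ n : ℕ, InBox n x ∧ InBox n y :=
  ((eventually_inBox x).and (eventually_inBox y)).exists

theorem f42_bound0 (a : ℤ × ℤ → ℝ) (y : ℤ × ℤ) (h : |dl [] a y| ≤ f42C3 * ((1 + sn y) ^ (1 + ([] : List (Fin 4)).length))⁻¹) :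
    |a y| ≤ f42C3 * (1 + sn y)⁻¹ := by
  simpa [dl_nil] using h

theorem vInf_bound (x : ℤ × ℤ) : |vInf x| ≤ 5 * f42C3 + 2 * Real.pi := by
  obtain ⟨n, hn, -⟩ := exists_inBox2 x x
  exact pot_bound n _ _ (aInf_curl n) f42C3 f42C3_pos.le (fun y _ => f42_bound0 _ y (aInf_bound true [] (by simp) y))
    (fun y _ => f42_bound0 _ y (aInf_bound false [] (by simp) y)) (fun i _ => aInf_row i) x hn

theorem vC_bound (n : ℕ) (x : ℤ × ℤ) (hx : InBox n x) : |vC n x| ≤ 5 * f42C3 + 2 * Real.pi :=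
  pot_bound n _ _ (rot_gC_curl n) f42C3 f42C3_pos.le (fun y hy => f42_bound0 _ y (rot_gC_bound n true [] (by simp) y hy))
    (fun y hy => f42_bound0 _ y (rot_gC_bound n false [] (by simp) y hy)) (fun i hi => rot_gC_row n i hi) x hx

theorem etaP_vInf (x : ℤ × ℤ) (d : Bool) : etaP vInf x d = aInf d x := by
  cases d
  · have := pot_vert (aInf true) (aInf false) x
    simp only [etaP, bdir, Bool.false_eq_true, if_false, true_and, vInf]
    simpa [tauP] using this
  · obtain ⟨n, hn, hn'⟩ := exists_inBox2 x (x + (1, 0))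
    have := pot_horiz n _ _ (aInf_curl n) x hn hn'
    simp only [etaP, bdir, if_true, vInf]
    simpa using this

theorem cdist_eq_sn (n : ℕ) (x : ℤ × ℤ) : cdist n x = sn (x + (-(n : ℤ), -(n : ℤ))) := by
  simp [cdist, sn, sub_eq_add_neg]

theorem inBox_iota (n : ℕ) (hM : G.M = 2 * n) (w : G.V) : InBox n (G.ι w + (-(n : ℤ), -(n : ℤ))) := by
  have h1 := w.1.2
  have h2 := w.2.2
  refine ⟨?_, ?_, ?_, ?_⟩ <;> simp only [Geom.ι, Prod.mk_add_mk] <;> omega

theorem rot_gC_eq (n : ℕ) (d : Bool) (x : ℤ × ℤ) : rot d (gC n) (x + (-(n : ℤ), -(n : ℤ))) = rot d (gD n) x := by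
  have e : gC n = fun y => gD n (y + ((n : ℤ), (n : ℤ))) := rfl
  rw [e, rot_shift]
  congr 1
  ext <;> simp

/-- the bonds of the free square carry the rotated gradient -/
theorem etaE_vC (n : ℕ) (hG : G.bc = BC.free) (hM : G.M = 2 * n) (e : G.V × Bool) (he : stp e.1 e.2 ≠ e.1) :
    etaE n (fun w : G.V => vC n (G.ι w + (-(n : ℤ), -(n : ℤ)))) e = rot e.2 (gD n) (G.ι e.1) := by
  obtain ⟨w, d⟩ := e
  simp only at he ⊢
  rw [← rot_gC_eq]
  have hs := iota_stp_free hG w d he
  have hb := inBox_iota n hM w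
  have hb' := inBox_iota n hM (stp w d)
  simp only [etaE, hs]
  rw [hs] at hb'
  cases d
  · have := pot_vert (rot true (gC n)) (rot false (gC n)) (G.ι w + (-(n : ℤ), -(n : ℤ)))
    rw [← this]
    simp only [bdir, Bool.false_eq_true, if_false, vC, tauE, tauP, true_and]
    have e1 : G.ι w + (0, 1) + (-(n : ℤ), -(n : ℤ)) = G.ι w + (-(n : ℤ), -(n : ℤ)) + (0, 1) := by abel
    rw [e1]
    congr 2
    have c1 : ((w.2 : ℕ) + 1 = n ∧ n ≤ (w.1 : ℕ)) ↔
        ((G.ι w + (-(n : ℤ), -(n : ℤ))).2 + 1 = 0 ∧ 0 ≤ (G.ι w + (-(n : ℤ), -(n : ℤ))).1) := by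
      simp only [Geom.ι, Prod.mk_add_mk]
      omega
    by_cases h : ((w.2 : ℕ) + 1 = n ∧ n ≤ (w.1 : ℕ))
    · rw [if_pos h, if_pos (c1.1 h)]; simp
    · rw [if_neg h, if_neg (fun h' => h (c1.2 h'))]; simp
  · have e1 : G.ι w + bdir true + (-(n : ℤ), -(n : ℤ)) = G.ι w + (-(n : ℤ), -(n : ℤ)) + (1, 0) := by
      simp only [bdir, if_true]; abel
    rw [e1] at hb' ⊢
    have := pot_horiz n _ _ (rot_gC_curl n) _ hb hb'
    rw [← this]
    simp [tauE, vC]

/-- **Lemma 4.2**, (ent:unit-decay) and the bounded consistent branches. -/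
theorem center_background : ∃ (C c0 : ℝ) (vinf : ℤ × ℤ → ℝ), 0 < c0 ∧ (∀ x, |vinf x| ≤ C) ∧
    -- the plane connection is co-closed and has the first bound
    (∀ x, etaP vinf x true + etaP vinf x false - etaP vinf (x - bdir true) true - etaP vinf (x - bdir false) false = 0) ∧
    (∀ r ≤ 4, ∀ (a : Fin r → Fin 4) (x : ℤ × ℤ) (d : Bool),
      |difs a (fun x' => etaP vinf x' d) x| ≤ C * ((1 + cdist 0 x) ^ (1 + r))⁻¹) ∧
    ∀ (G : Geom) (n : ℕ), 0 < n → G.bc = BC.free → G.M = 2 * n → ∃ v : G.V → ℝ, (∀ x, |v x| ≤ C) ∧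
      (∀ f : G.V → ℝ, ∑ e : G.V × Bool, etaE n v e * (f (stp e.1 e.2) - f e.1) = 0) ∧
      (∀ r ≤ 4, ∀ (a : Fin r → Fin 4) (w : G.V) (d : Bool),
        |difs a (fun x' => elift (etaE n v) x' d) (G.ι w)| ≤ C * ((1 + cdist n (G.ι w)) ^ (1 + r))⁻¹) ∧
      (∀ r ≤ 4, ∀ (a : Fin r → Fin 4) (w : G.V) (d : Bool), cdist n (G.ι w) ≤ c0 * n →
        |difs a (fun x' => elift (etaE n v) x' d - etaP vinf (x' - ((n : ℤ), (n : ℤ))) d) (G.ι w)| ≤ C * ((n : ℝ) ^ (1 + r))⁻¹) ∧
      -- the same ray and additive convention in the square and in the plane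
      (∀ w : G.V, cdist n (G.ι w) ≤ c0 * n → |v w - vinf (G.ι w - ((n : ℤ), (n : ℤ)))| ≤ C * (1 + cdist n (G.ι w)) / n) := by
  have h3 := f42C3_pos
  have h6 := f42C6_pos
  have hpi := Real.pi_pos
  obtain ⟨C, hC⟩ : ∃ C : ℝ, C = 5 * f42C3 + 2 * Real.pi + 2 * f42C6 := ⟨_, rfl⟩
  have hC1 : 5 * f42C3 + 2 * Real.pi ≤ C := by rw [hC]; linarith
  have hC3 : f42C3 ≤ C := by rw [hC]; linarith
  have hC6 : 2 * f42C6 ≤ C := by rw [hC]; linarith
  refine ⟨C, 1 / 4, vInf, by norm_num, fun x => (vInf_bound x).trans hC1, ?_, ?_, ?_⟩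
  · intro x
    simp only [etaP_vInf]
    exact aInf_div x
  · intro r hr a x d
    simp only [etaP_vInf]
    have h := aInf_bound d (List.ofFn a) (by simpa using hr) x
    rw [List.length_ofFn] at h
    have e : cdist 0 x = sn x := by simp [cdist, sn]
    rw [e, difs_eq_dl]
    have s0 := sn_nonneg x
    exact h.trans (mul_le_mul_of_nonneg_right hC3 (by positivity))
  · intro G n hn hG hM
    obtain ⟨v, hv⟩ : ∃ v : G.V → ℝ, v = fun w : G.V => vC n (G.ι w + (-(n : ℤ), -(n : ℤ))) := ⟨_, rfl⟩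
    have hη : ∀ e : G.V × Bool, stp e.1 e.2 ≠ e.1 → etaE n v e = rot e.2 (gD n) (G.ι e.1) := by
      intro e he; rw [hv]; exact etaE_vC n hG hM e he
    have hel : ∀ (x : ℤ × ℤ) (d : Bool), elift (etaE n v) x d = rot d (gC n) (x + (-(n : ℤ), -(n : ℤ))) := by
      intro x d
      rw [rot_gC_eq]
      exact f42_elift_rot hG (gD n) (by rw [hM]; exact gD_oddLift n) _ hη x d
    refine ⟨v, ?_, ?_, ?_, ?_, ?_⟩
    · intro w
      rw [hv]
      exact (vC_bound n _ (inBox_iota n hM w)).trans hC1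
    · exact f42_coclosed (gD n) (by rw [hM]; exact gD_wall n) _ hη
    · intro r hr a w d
      simp only [hel]
      rw [difs_eq_dl, f42_dl_shift, cdist_eq_sn]
      have h := rot_gC_bound n d (List.ofFn a) (by simpa using hr) _ (inBox_iota n hM w)
      rw [List.length_ofFn] at h
      have s0 := sn_nonneg (G.ι w + (-(n : ℤ), -(n : ℤ)))
      exact h.trans (mul_le_mul_of_nonneg_right hC3 (by positivity))
    · intro r hr a w d hw
      simp only [hel, etaP_vInf, sub_eq_add_neg (_ : ℤ × ℤ), Prod.neg_mk]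
      rw [cdist_eq_sn] at hw
      rw [difs_eq_dl, f42_dl_shift _ (fun y => rot d (gC n) y - aInf d y)]
      have h := aInf_cmp' n hn d (List.ofFn a) (by simpa using hr) _ hw
      rw [List.length_ofFn] at h
      have hn0 : (0 : ℝ) < n := by exact_mod_cast hn
      refine h.trans (mul_le_mul_of_nonneg_right (by linarith) (by positivity))
    · intro w hw
      rw [cdist_eq_sn] at hw ⊢
      have hn0 : (0 : ℝ) < n := by exact_mod_cast hn
      have e : G.ι w - ((n : ℤ), (n : ℤ)) = G.ι w + (-(n : ℤ), -(n : ℤ)) := by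
        rw [sub_eq_add_neg, Prod.neg_mk]
      rw [e, hv]
      set x := G.ι w + (-(n : ℤ), -(n : ℤ)) with hx
      have s0 := sn_nonneg x
      have hcmp : ∀ (d : Bool) (y : ℤ × ℤ), sn y ≤ sn x → |rot d (gC n) y - aInf d y| ≤ f42C6 * (n : ℝ)⁻¹ := by
        intro d y hy
        have := aInf_cmp' n hn d [] (by simp) y (hy.trans hw)
        simpa [dl_nil] using this
      have h := pot_compare (rot true (gC n)) (rot false (gC n)) (aInf true) (aInf false) (f42C6 * (n : ℝ)⁻¹) x (hcmp true) (hcmp false)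
      refine h.trans ?_
      rw [div_eq_mul_inv]
      have : 2 * sn x * (f42C6 * (n : ℝ)⁻¹) = 2 * f42C6 * sn x * (n : ℝ)⁻¹ := by ring
      rw [this]
      refine mul_le_mul_of_nonneg_right ?_ (by positivity)
      calc 2 * f42C6 * sn x ≤ C * sn x := mul_le_mul_of_nonneg_right hC6 s0
        _ ≤ C * (1 + sn x) := mul_le_mul_of_nonneg_left (by linarith) (by linarith)

end

end Claimed.Agent.R285.F4a
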