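import Mathlib

/-!
# ROW 285, F4a: abstract least squares `min_u |L u + d|²`   (architect helper251)   LEAF L-F4a-LSQ

Paper-free linear algebra.  PLAN: work in `EuclideanSpace ℝ ι`; `K` = range of `u ↦ L u` (finite dimensional, hence complete);
`lsq L d = ‖d - P d‖²`, `P` = orthogonal projection on `K` (`Submodule.starProjection` / `orthogonalProjection`, `Submodule.norm_eq_iInf_iff_real_inner_eq_zero`).
`d ↦ d - P d` is linear: this gives `lsq_attained`, `lsq_of_normal`, bilinearity of `lsqB` and `lsq_sum`.  About 250 lines.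
-/

set_option autoImplicit false

namespace Claimed.Agent.R285.F4a

open scoped BigOperators

noncomputable section

variable {ι V κ : Type} [Fintype ι] [Fintype V] [Fintype κ]

/-- the sum of squares `|L u + d|²` -/
def sqs (L : Matrix ι V ℝ) (d : ι → ℝ) (u : V → ℝ) : ℝ := ∑ i, (L.mulVec u i + d i) ^ 2

/-- least squares -/
def lsq (L : Matrix ι V ℝ) (d : ι → ℝ) : ℝ := ⨅ u : V → ℝ, sqs L d u

/-- the polar form of `lsq L` -/
def lsqB (L : Matrix ι V ℝ) (d d' : ι → ℝ) : ℝ := (lsq L (d + d') - lsq L d - lsq L d') / 2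

variable (L : Matrix ι V ℝ)

/-- the normal equations have a solution (orthogonal projection on the range of `L`) -/
theorem lsq_nrm_exists (d : ι → ℝ) :
    ∃ u : V → ℝ, ∀ ζ : V → ℝ, ∑ i, (L.mulVec u i + d i) * L.mulVec ζ i = 0 := by
  classical
  let A : (V → ℝ) →ₗ[ℝ] EuclideanSpace ℝ ι :=
    (WithLp.linearEquiv 2 ℝ (ι → ℝ)).symm.toLinearMap ∘ₗ L.mulVecLin
  have hA : ∀ u i, A u i = L.mulVec u i := fun u i => rfl
  let K : Submodule ℝ (EuclideanSpace ℝ ι) := LinearMap.range A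
  let x : EuclideanSpace ℝ ι := (WithLp.linearEquiv 2 ℝ (ι → ℝ)).symm d
  have hx : ∀ i, x i = d i := fun i => rfl
  obtain ⟨u₁, hu₁⟩ : K.starProjection x ∈ K := K.starProjection_apply_mem x
  have horth := K.sub_starProjection_mem_orthogonal x
  refine ⟨-u₁, fun ζ => ?_⟩
  have h1 := (Submodule.mem_orthogonal K _).1 horth (A ζ) ⟨ζ, rfl⟩
  rw [← hu₁, PiLp.inner_apply] at h1
  rw [← h1]
  refine Finset.sum_congr rfl fun i _ => ?_
  simp only [PiLp.sub_apply, hA, hx, Matrix.mulVec_neg, Pi.neg_apply, RCLike.inner_apply, conj_trivial]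
  ring

theorem sqs_nonneg (d : ι → ℝ) (u : V → ℝ) : 0 ≤ sqs L d u :=
  Finset.sum_nonneg fun _ _ => sq_nonneg _

theorem lsq_nonneg (d : ι → ℝ) : 0 ≤ lsq L d :=
  Real.iInf_nonneg fun u => sqs_nonneg L d u

theorem lsq_le (d : ι → ℝ) (u : V → ℝ) : lsq L d ≤ sqs L d u :=
  ciInf_le ⟨0, by rintro _ ⟨v, rfl⟩; exact sqs_nonneg L d v⟩ u

/-- expansion around any point: `|L (u + ζ) + d|² = |L u + d|² + 2 ⟨L u + d, L ζ⟩ + |L ζ|²` -/
theorem sqs_add (d : ι → ℝ) (u ζ : V → ℝ) :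
    sqs L d (u + ζ) = sqs L d u + 2 * ∑ i, (L.mulVec u i + d i) * L.mulVec ζ i + ∑ i, L.mulVec ζ i ^ 2 := by
  unfold sqs
  rw [Finset.mul_sum, ← Finset.sum_add_distrib, ← Finset.sum_add_distrib]
  refine Finset.sum_congr rfl fun i _ => ?_
  rw [Matrix.mulVec_add, Pi.add_apply]
  ring

/-- every solution of the normal equations is a minimiser -/
theorem lsq_of_normal (d : ι → ℝ) (u : V → ℝ) (h : ∀ ζ : V → ℝ, ∑ i, (L.mulVec u i + d i) * L.mulVec ζ i = 0) :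
    lsq L d = sqs L d u := by
  refine le_antisymm (lsq_le L d u) (le_ciInf fun v => ?_)
  have h1 := sqs_add L d u (v - u)
  rw [add_sub_cancel, h (v - u), mul_zero, add_zero] at h1
  rw [h1]
  exact le_add_of_nonneg_right (Finset.sum_nonneg fun _ _ => sq_nonneg _)

/-- the minimum is attained, at a solution of the normal equations -/
theorem lsq_attained (d : ι → ℝ) :
    ∃ u : V → ℝ, lsq L d = sqs L d u ∧ ∀ ζ : V → ℝ, ∑ i, (L.mulVec u i + d i) * L.mulVec ζ i = 0 := by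
  obtain ⟨u, hu⟩ := lsq_nrm_exists L d
  exact ⟨u, lsq_of_normal L d u hu, hu⟩

theorem lsq_nrm_add {d d' : ι → ℝ} {u u' : V → ℝ}
    (h : ∀ ζ : V → ℝ, ∑ i, (L.mulVec u i + d i) * L.mulVec ζ i = 0)
    (h' : ∀ ζ : V → ℝ, ∑ i, (L.mulVec u' i + d' i) * L.mulVec ζ i = 0) (ζ : V → ℝ) :
    ∑ i, (L.mulVec (u + u') i + (d + d') i) * L.mulVec ζ i = 0 := by
  have h1 : ∑ i, (L.mulVec (u + u') i + (d + d') i) * L.mulVec ζ i
      = ∑ i, (L.mulVec u i + d i) * L.mulVec ζ i + ∑ i, (L.mulVec u' i + d' i) * L.mulVec ζ i := by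
    rw [← Finset.sum_add_distrib]
    refine Finset.sum_congr rfl fun i _ => ?_
    rw [Matrix.mulVec_add, Pi.add_apply, Pi.add_apply]
    ring
  rw [h1, h ζ, h' ζ, add_zero]

theorem lsq_nrm_smul (t : ℝ) {d : ι → ℝ} {u : V → ℝ}
    (h : ∀ ζ : V → ℝ, ∑ i, (L.mulVec u i + d i) * L.mulVec ζ i = 0) (ζ : V → ℝ) :
    ∑ i, (L.mulVec (t • u) i + (t • d) i) * L.mulVec ζ i = 0 := by
  have h1 : ∑ i, (L.mulVec (t • u) i + (t • d) i) * L.mulVec ζ i
      = t * ∑ i, (L.mulVec u i + d i) * L.mulVec ζ i := by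
    rw [Finset.mul_sum]
    refine Finset.sum_congr rfl fun i _ => ?_
    rw [Matrix.mulVec_smul, Pi.smul_apply, Pi.smul_apply, smul_eq_mul, smul_eq_mul]
    ring
  rw [h1, h ζ, mul_zero]

/-- gauge invariance -/
theorem lsq_gauge (d : ι → ℝ) (u0 : V → ℝ) : lsq L (d + L.mulVec u0) = lsq L d := by
  obtain ⟨u, hu⟩ := lsq_nrm_exists L d
  have e : ∀ i, L.mulVec (u - u0) i + (d + L.mulVec u0) i = L.mulVec u i + d i := fun i => by
    rw [Matrix.mulVec_sub, Pi.sub_apply, Pi.add_apply]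
    ring
  rw [lsq_of_normal L d u hu, lsq_of_normal L (d + L.mulVec u0) (u - u0) (fun ζ => by
    simp only [e]
    exact hu ζ)]
  unfold sqs
  simp only [e]

theorem lsq_smul (t : ℝ) (d : ι → ℝ) : lsq L (t • d) = t ^ 2 * lsq L d := by
  obtain ⟨u, hu⟩ := lsq_nrm_exists L d
  rw [lsq_of_normal L d u hu, lsq_of_normal L (t • d) (t • u) (lsq_nrm_smul L t hu)]
  unfold sqs
  rw [Finset.mul_sum]
  refine Finset.sum_congr rfl fun i _ => ?_
  rw [Matrix.mulVec_smul, Pi.smul_apply, Pi.smul_apply, smul_eq_mul, smul_eq_mul]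
  ring

theorem lsq_le_sq (d : ι → ℝ) : lsq L d ≤ ∑ i, d i ^ 2 := by
  refine (lsq_le L d 0).trans (le_of_eq ?_)
  unfold sqs
  simp

/-- the polar form through minimisers -/
theorem lsqB_eq (d d' : ι → ℝ) (u u' : V → ℝ)
    (h : ∀ ζ : V → ℝ, ∑ i, (L.mulVec u i + d i) * L.mulVec ζ i = 0)
    (h' : ∀ ζ : V → ℝ, ∑ i, (L.mulVec u' i + d' i) * L.mulVec ζ i = 0) :
    lsqB L d d' = ∑ i, (L.mulVec u i + d i) * (L.mulVec u' i + d' i) ∧
    lsqB L d d' = ∑ i, (L.mulVec u i + d i) * d' i := by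
  have h1 : lsqB L d d' = ∑ i, (L.mulVec u i + d i) * (L.mulVec u' i + d' i) := by
    unfold lsqB
    rw [lsq_of_normal L d u h, lsq_of_normal L d' u' h',
      lsq_of_normal L (d + d') (u + u') (lsq_nrm_add L h h')]
    unfold sqs
    rw [← Finset.sum_sub_distrib, ← Finset.sum_sub_distrib, Finset.sum_div]
    refine Finset.sum_congr rfl fun i _ => ?_
    rw [Matrix.mulVec_add, Pi.add_apply, Pi.add_apply]
    ring
  refine ⟨h1, ?_⟩
  rw [h1, ← zero_add (∑ i, (L.mulVec u i + d i) * d' i), ← h u', ← Finset.sum_add_distrib]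
  refine Finset.sum_congr rfl fun i _ => ?_
  ring

theorem lsqB_self (d : ι → ℝ) : lsqB L d d = lsq L d := by
  unfold lsqB
  have h : d + d = (2 : ℝ) • d := (two_smul ℝ d).symm
  rw [h, lsq_smul]
  ring

theorem lsqB_comm (d d' : ι → ℝ) : lsqB L d d' = lsqB L d' d := by
  unfold lsqB
  rw [add_comm d d']
  ring

theorem lsqB_add (d₁ d₂ d' : ι → ℝ) : lsqB L (d₁ + d₂) d' = lsqB L d₁ d' + lsqB L d₂ d' := by
  obtain ⟨u₁, h₁⟩ := lsq_nrm_exists L d₁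
  obtain ⟨u₂, h₂⟩ := lsq_nrm_exists L d₂
  obtain ⟨u', h'⟩ := lsq_nrm_exists L d'
  rw [(lsqB_eq L d₁ d' u₁ u' h₁ h').2, (lsqB_eq L d₂ d' u₂ u' h₂ h').2,
    (lsqB_eq L (d₁ + d₂) d' (u₁ + u₂) u' (lsq_nrm_add L h₁ h₂) h').2, ← Finset.sum_add_distrib]
  refine Finset.sum_congr rfl fun i _ => ?_
  rw [Matrix.mulVec_add, Pi.add_apply, Pi.add_apply]
  ring

theorem lsqB_smul (t : ℝ) (d d' : ι → ℝ) : lsqB L (t • d) d' = t * lsqB L d d' := by
  obtain ⟨u, h⟩ := lsq_nrm_exists L d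
  obtain ⟨u', h'⟩ := lsq_nrm_exists L d'
  rw [(lsqB_eq L d d' u u' h h').2, (lsqB_eq L (t • d) d' (t • u) u' (lsq_nrm_smul L t h) h').2,
    Finset.mul_sum]
  refine Finset.sum_congr rfl fun i _ => ?_
  rw [Matrix.mulVec_smul, Pi.smul_apply, Pi.smul_apply, smul_eq_mul, smul_eq_mul]
  ring

/-- Cauchy-Schwarz -/
theorem lsqB_sq_le (d d' : ι → ℝ) : lsqB L d d' ^ 2 ≤ lsq L d * lsq L d' := by
  obtain ⟨u, h⟩ := lsq_nrm_exists L d
  obtain ⟨u', h'⟩ := lsq_nrm_exists L d'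
  rw [(lsqB_eq L d d' u u' h h').1, lsq_of_normal L d u h, lsq_of_normal L d' u' h']
  exact Finset.sum_mul_sq_le_sq_mul_sq _ _ _

theorem lsqB_zero_left (d' : ι → ℝ) : lsqB L 0 d' = 0 := by
  have := lsqB_smul L 0 0 d'
  rwa [zero_smul, zero_mul] at this

omit [Fintype κ] in
theorem lsqB_sum_left (s : Finset κ) (w : κ → ℝ) (D : κ → ι → ℝ) (d' : ι → ℝ) :
    lsqB L (∑ k ∈ s, w k • D k) d' = ∑ k ∈ s, w k * lsqB L (D k) d' := by
  classical
  induction s using Finset.induction_on with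
  | empty => simp [lsqB_zero_left]
  | insert a s ha ih =>
    rw [Finset.sum_insert ha, Finset.sum_insert ha, lsqB_add, lsqB_smul, ih]

/-- `lsq L` is a quadratic form -/
theorem lsq_sum (w : κ → ℝ) (D : κ → ι → ℝ) :
    lsq L (∑ k, w k • D k) = ∑ k, ∑ k', lsqB L (D k) (D k') * w k * w k' := by
  rw [← lsqB_self, lsqB_sum_left]
  refine Finset.sum_congr rfl fun k _ => ?_
  rw [lsqB_comm, lsqB_sum_left, Finset.mul_sum]
  refine Finset.sum_congr rfl fun k' _ => ?_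
  rw [lsqB_comm L (D k') (D k)]
  ring

theorem lsq_nrm_trial {d : ι → ℝ} {u0 ξ : V → ℝ}
    (h : ∀ ζ : V → ℝ, ∑ i, L.mulVec ξ i * L.mulVec ζ i = - ∑ i, (L.mulVec u0 i + d i) * L.mulVec ζ i)
    (ζ : V → ℝ) : ∑ i, (L.mulVec (u0 + ξ) i + d i) * L.mulVec ζ i = 0 := by
  have h1 : ∑ i, (L.mulVec (u0 + ξ) i + d i) * L.mulVec ζ i
      = ∑ i, (L.mulVec u0 i + d i) * L.mulVec ζ i + ∑ i, L.mulVec ξ i * L.mulVec ζ i := by
    rw [← Finset.sum_add_distrib]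
    refine Finset.sum_congr rfl fun i _ => ?_
    rw [Matrix.mulVec_add, Pi.add_apply]
    ring
  rw [h1, h ζ, add_neg_cancel]

/-- **the correction formula** `min = C - ⟨F, T⁻¹ F⟩`: for ANY trial point `u₀`, with `ξ` the solution of `⟨L ξ, L ζ⟩ = - ⟨L u₀ + d, L ζ⟩`. -/
theorem lsq_trial (d : ι → ℝ) (u0 ξ : V → ℝ)
    (h : ∀ ζ : V → ℝ, ∑ i, L.mulVec ξ i * L.mulVec ζ i = - ∑ i, (L.mulVec u0 i + d i) * L.mulVec ζ i) :
    lsq L d = sqs L d u0 - ∑ i, L.mulVec ξ i ^ 2 := by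
  rw [lsq_of_normal L d (u0 + ξ) (lsq_nrm_trial L h), sqs_add]
  have h1 := h ξ
  have h2 : ∑ i, L.mulVec ξ i ^ 2 = ∑ i, L.mulVec ξ i * L.mulVec ξ i :=
    Finset.sum_congr rfl fun i _ => sq _
  rw [h2]
  linarith

/-- bilinear version of the correction formula -/
theorem lsqB_trial (d d' : ι → ℝ) (u0 u0' ξ ξ' : V → ℝ)
    (h : ∀ ζ : V → ℝ, ∑ i, L.mulVec ξ i * L.mulVec ζ i = - ∑ i, (L.mulVec u0 i + d i) * L.mulVec ζ i)
    (h' : ∀ ζ : V → ℝ, ∑ i, L.mulVec ξ' i * L.mulVec ζ i = - ∑ i, (L.mulVec u0' i + d' i) * L.mulVec ζ i) :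
    lsqB L d d' = ∑ i, (L.mulVec u0 i + d i) * (L.mulVec u0' i + d' i) - ∑ i, L.mulVec ξ i * L.mulVec ξ' i := by
  rw [(lsqB_eq L d d' (u0 + ξ) (u0' + ξ') (lsq_nrm_trial L h) (lsq_nrm_trial L h')).1]
  have h1 := h ξ'
  have h2 := h' ξ
  have h3 : ∑ i, L.mulVec ξ' i * L.mulVec ξ i = ∑ i, L.mulVec ξ i * L.mulVec ξ' i :=
    Finset.sum_congr rfl fun i _ => mul_comm _ _
  have h4 : ∑ i, (L.mulVec (u0 + ξ) i + d i) * (L.mulVec (u0' + ξ') i + d' i)
      = ∑ i, (L.mulVec u0 i + d i) * (L.mulVec u0' i + d' i) + ∑ i, (L.mulVec u0 i + d i) * L.mulVec ξ' i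
        + ∑ i, (L.mulVec u0' i + d' i) * L.mulVec ξ i + ∑ i, L.mulVec ξ i * L.mulVec ξ' i := by
    rw [← Finset.sum_add_distrib, ← Finset.sum_add_distrib, ← Finset.sum_add_distrib]
    refine Finset.sum_congr rfl fun i _ => ?_
    rw [Matrix.mulVec_add, Matrix.mulVec_add, Pi.add_apply, Pi.add_apply]
    ring
  rw [h4]
  linarith

/-- solvability of `⟨L ξ, L ζ⟩ = F (L ζ)` -/
theorem lsq_solve (r : ι → ℝ) : ∃ ξ : V → ℝ, ∀ ζ : V → ℝ, ∑ i, L.mulVec ξ i * L.mulVec ζ i = ∑ i, r i * L.mulVec ζ i := by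
  obtain ⟨u, hu⟩ := lsq_nrm_exists L (-r)
  refine ⟨u, fun ζ => ?_⟩
  have h1 := hu ζ
  rw [← sub_eq_zero, ← Finset.sum_sub_distrib, ← h1]
  refine Finset.sum_congr rfl fun i _ => ?_
  rw [Pi.neg_apply]
  ring

end

end Claimed.Agent.R285.F4a
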