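import Claimed.Agent.R285.F4a.Defs
import Claimed.Agent.R285.F4a.LeastSq

/-!
# ROW 285, F4a: the energies of a cut topology as least squares problems   (architect helper251)   LEAF L-F4a-EN-A

`T.En a w y = lsq (T.Lm a) (T.dv a w y)`: rows = retained bonds (scaled by `a^{-1/2}`) and present cells.  Everything follows from `LeastSq.lean`:
`dv` is linear in `(w, y)`, `dv a w 0 = ∑_f w_f • dv a (single f 1) 0`, and `dv a (single f 1) 0 = 0` when `f ∉ T.faces` (no retained bond crosses `f`, see `IsEdge`).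
`face_decomposition`: expand `sig c z w = ∑_f w_f sig c z (single f 1)`; for `z ∈ T.V4` only retained faces occur.  About 300 lines.
-/

set_option autoImplicit false

namespace Claimed.Agent.R285.F4a

open scoped BigOperators ENNReal NNReal
open MeasureTheory ProbabilityTheory Polynomial
open Claimed.Agent.R285 Claimed.Agent.R285.RG

noncomputable section

variable {G : Geom}

/-- rows of the least squares problem: retained bonds and present cells -/
abbrev Top.Row {c : Grid G} (T : Top c) : Type := T.graph.E ⊕ {i : c.I // i ∈ T.cells}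

/-- `u ↦ (a^{-1/2} ∇ u, B_s u)` -/
def Top.Lm {c : Grid G} (T : Top c) (a : ℝ) : Matrix T.Row G.V ℝ := fun r x =>
  match r with
  | Sum.inl e => (Real.sqrt a)⁻¹ * ((if x = stp e.1.1 e.1.2 then 1 else 0) - (if x = e.1.1 then 1 else 0))
  | Sum.inr i => if c.blk x = i.1 then ((c.sites {i.1}).card : ℝ)⁻¹ else 0

/-- the affine datum `(a^{-1/2} w, - y)` -/
def Top.dv {c : Grid G} (T : Top c) (a : ℝ) (w : Face c → ℝ) (y : c.I → ℝ) : T.Row → ℝ := fun r =>
  match r with
  | Sum.inl e => (Real.sqrt a)⁻¹ * T.econn w e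
  | Sum.inr i => - y i.1

theorem Lm_inl {c : Grid G} (T : Top c) (a : ℝ) (u : G.V → ℝ) (e : T.graph.E) :
    (T.Lm a).mulVec u (Sum.inl e) = (Real.sqrt a)⁻¹ * (u (stp e.1.1 e.1.2) - u e.1.1) := by
  simp only [Matrix.mulVec, dotProduct, Top.Lm]
  simp only [mul_assoc, sub_mul, ite_mul, one_mul, zero_mul, ← Finset.mul_sum, Finset.sum_sub_distrib,
    Finset.sum_ite_eq', Finset.mem_univ, if_true]

theorem Lm_inr {c : Grid G} (T : Top c) (a : ℝ) (u : G.V → ℝ) (i : {i : c.I // i ∈ T.cells}) :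
    (T.Lm a).mulVec u (Sum.inr i) = avg c u i.1 := by
  simp only [Matrix.mulVec, dotProduct, Top.Lm, avg, cellAvg, Grid.sites, Finset.mem_singleton]
  rw [Finset.sum_div, Finset.sum_filter]
  refine Finset.sum_congr rfl fun x _ => ?_
  split_ifs
  · rw [div_eq_mul_inv, mul_comm]
  · rw [zero_mul]

theorem quad_eq_sqs {c : Grid G} (T : Top c) (a : ℝ) (ha : 0 < a) (w : Face c → ℝ) (y : c.I → ℝ) (u : G.V → ℝ) :
    T.quad a w y u = sqs (T.Lm a) (T.dv a w y) u := by
  unfold sqs Top.quad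
  rw [Fintype.sum_sum_type]
  congr 1
  · rw [Finset.mul_sum]
    refine Finset.sum_congr rfl fun e _ => ?_
    rw [Lm_inl]
    simp only [Top.dv]
    rw [← mul_add, mul_pow, inv_pow, Real.sq_sqrt ha.le]
  · rw [← Finset.sum_coe_sort T.cells]
    refine Finset.sum_congr rfl fun i _ => ?_
    rw [Lm_inr]
    simp only [Top.dv]
    ring

theorem En_eq_lsq {c : Grid G} (T : Top c) (a : ℝ) (ha : 0 < a) (w : Face c → ℝ) (y : c.I → ℝ) :
    T.En a w y = lsq (T.Lm a) (T.dv a w y) := by
  unfold Top.En lsq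
  exact iInf_congr fun u => quad_eq_sqs T a ha w y u

theorem ena_econn_add {c : Grid G} (T : Top c) (w w' : Face c → ℝ) (e : T.graph.E) :
    T.econn (w + w') e = T.econn w e + T.econn w' e := by
  unfold Top.econn
  split_ifs
  · simp
  · rfl

theorem ena_econn_smul {c : Grid G} (T : Top c) (t : ℝ) (w : Face c → ℝ) (e : T.graph.E) :
    T.econn (t • w) e = t * T.econn w e := by
  unfold Top.econn
  split_ifs
  · simp
  · rfl

theorem ena_dv_add {c : Grid G} (T : Top c) (a : ℝ) (w w' : Face c → ℝ) :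
    T.dv a (w + w') 0 = T.dv a w 0 + T.dv a w' 0 := by
  funext r
  rcases r with e | i
  · simp only [Top.dv, Pi.add_apply, ena_econn_add, mul_add]
  · simp [Top.dv]

theorem ena_dv_smul {c : Grid G} (T : Top c) (a t : ℝ) (w : Face c → ℝ) :
    T.dv a (t • w) 0 = t • T.dv a w 0 := by
  funext r
  rcases r with e | i
  · simp only [Top.dv, Pi.smul_apply, ena_econn_smul, smul_eq_mul]
    ring
  · simp [Top.dv]

theorem ena_dv_zero {c : Grid G} (T : Top c) (a : ℝ) : T.dv a 0 0 = 0 := by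
  have := ena_dv_smul T a 0 0
  rwa [zero_smul, zero_smul] at this

theorem ena_dv_sum {c : Grid G} (T : Top c) (a : ℝ) {κ : Type} (s : Finset κ) (t : κ → ℝ) (W : κ → Face c → ℝ) :
    T.dv a (∑ k ∈ s, t k • W k) 0 = ∑ k ∈ s, t k • T.dv a (W k) 0 := by
  classical
  induction s using Finset.induction_on with
  | empty => simp [ena_dv_zero]
  | insert b s hb ih => rw [Finset.sum_insert hb, Finset.sum_insert hb, ena_dv_add, ena_dv_smul, ih]

theorem ena_single_sum {c : Grid G} (w : Face c → ℝ) : w = ∑ f, w f • (Pi.single f 1 : Face c → ℝ) := by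
  funext g
  simp [Finset.sum_apply, Pi.single_apply]

theorem ena_dv_single {c : Grid G} (T : Top c) (a : ℝ) {f : Face c} (hf : f ∉ T.faces) :
    T.dv a (Pi.single f 1) 0 = 0 := by
  funext r
  rcases r with e | i
  · simp only [Top.dv, Top.econn, Pi.zero_apply]
    split_ifs with h
    · simp
    · have h1 : (c.blk e.1.1, e.1.2) ∈ T.faces := e.2.2.2.2.resolve_left h
      have h2 : (c.blk e.1.1, e.1.2) ≠ f := fun h3 => hf (h3 ▸ h1)
      rw [Pi.single_eq_of_ne h2, mul_zero]
  · simp [Top.dv]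

open Classical in
theorem Qmat_eq_lsqB {c : Grid G} (T : Top c) (a : ℝ) (ha : 0 < a) (f f' : Face c) :
    T.Qmat a f f' = lsqB (T.Lm a) (T.dv a (Pi.single f 1) 0) (T.dv a (Pi.single f' 1) 0) := by
  unfold Top.Qmat Top.Qf lsqB
  rw [En_eq_lsq T a ha, En_eq_lsq T a ha, En_eq_lsq T a ha, ena_dv_add]

/-- the minimum exists -/
theorem En_attained {c : Grid G} (T : Top c) (a : ℝ) (ha : 0 < a) (w : Face c → ℝ) (y : c.I → ℝ) :
    ∃ u, T.En a w y = T.quad a w y u := by
  obtain ⟨u, hu, -⟩ := lsq_attained (T.Lm a) (T.dv a w y)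
  exact ⟨u, by rw [En_eq_lsq T a ha, quad_eq_sqs T a ha, hu]⟩

/-- `𝒬_G` is a quadratic form of the retained face data; so (ent:face-decomposition) holds by definition of `Hm` -/
theorem Qf_quadratic {c : Grid G} (T : Top c) (a : ℝ) (ha : 0 < a) (w : Face c → ℝ) :
    T.Qf a w = ∑ f ∈ T.faces, ∑ f' ∈ T.faces, T.Qmat a f f' * w f * w f' ∧
    ∀ f f', (f ∉ T.faces ∨ f' ∉ T.faces) → T.Qmat a f f' = 0 := by
  have hz : ∀ f f', (f ∉ T.faces ∨ f' ∉ T.faces) → T.Qmat a f f' = 0 := by
    intro f f' h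
    rw [Qmat_eq_lsqB T a ha]
    rcases h with h | h
    · rw [ena_dv_single T a h, lsqB_zero_left]
    · rw [ena_dv_single T a h, lsqB_comm, lsqB_zero_left]
  refine ⟨?_, hz⟩
  have h1 : T.Qf a w = ∑ f, ∑ f', T.Qmat a f f' * w f * w f' := by
    unfold Top.Qf
    rw [En_eq_lsq T a ha]
    conv_lhs => rw [ena_single_sum w]
    rw [ena_dv_sum, lsq_sum]
    refine Finset.sum_congr rfl fun f _ => Finset.sum_congr rfl fun f' _ => ?_
    rw [Qmat_eq_lsqB T a ha]
  rw [h1]
  symm
  refine Finset.sum_subset (Finset.subset_univ _) (fun f _ hf => ?_) |>.trans ?_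
  · exact Finset.sum_eq_zero fun f' _ => by rw [hz f f' (Or.inl hf)]; ring
  · refine Finset.sum_congr rfl fun f _ => ?_
    refine Finset.sum_subset (Finset.subset_univ _) (fun f' _ hf' => ?_)
    rw [hz f f' (Or.inr hf')]; ring

theorem ena_sig_sum {c : Grid G} (z : c.I) (w : Face c → ℝ) :
    sig c z w = ∑ f, w f * sig c z (Pi.single f 1) := by
  unfold sig
  simp only [mul_sub, mul_add, Finset.sum_sub_distrib, Finset.sum_add_distrib, Pi.single_apply, mul_ite, mul_one,
    mul_zero, Finset.sum_ite_eq, Finset.mem_univ, if_true]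

theorem ena_sig_single {c : Grid G} (T : Top c) {z : c.I} (hz : z ∈ T.V4) {f : Face c} (hf : f ∉ T.faces) :
    sig c z (Pi.single f 1) = 0 := by
  classical
  unfold Top.V4 at hz
  obtain ⟨h1, h2, h3, h4⟩ := (Finset.mem_filter.1 hz).2
  unfold sig
  have e : ∀ g ∈ T.faces, (Pi.single f 1 : Face c → ℝ) g = 0 := fun g hg => by
    have hne : g ≠ f := fun h => hf (h ▸ hg)
    exact Pi.single_eq_of_ne hne _
  rw [e _ h1, e _ h2, e _ h3, e _ h4]
  ring

theorem face_decomposition {c : Grid G} (T : Top c) (a Ds : ℝ) (ha : 0 < a) (w : Face c → ℝ) :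
    T.Qf a w = Ds * ∑ z ∈ T.V4, sig c z w ^ 2 + ∑ f ∈ T.faces, ∑ f' ∈ T.faces, T.Hm a Ds f f' * w f * w f' := by
  have hs : ∀ z ∈ T.V4, sig c z w = ∑ f ∈ T.faces, w f * sig c z (Pi.single f 1) := by
    intro z hz
    rw [ena_sig_sum z w]
    symm
    refine Finset.sum_subset (Finset.subset_univ _) (fun f _ hf => ?_)
    rw [ena_sig_single T hz hf, mul_zero]
  have h2 : ∑ z ∈ T.V4, sig c z w ^ 2
      = ∑ f ∈ T.faces, ∑ f' ∈ T.faces,
          (∑ z ∈ T.V4, sig c z (Pi.single f 1) * sig c z (Pi.single f' 1)) * w f * w f' := by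
    have h3 : ∀ z ∈ T.V4, sig c z w ^ 2 = ∑ f ∈ T.faces, ∑ f' ∈ T.faces,
        sig c z (Pi.single f 1) * sig c z (Pi.single f' 1) * w f * w f' := by
      intro z hz
      rw [hs z hz, sq, Finset.sum_mul_sum]
      refine Finset.sum_congr rfl fun f _ => Finset.sum_congr rfl fun f' _ => ?_
      ring
    rw [Finset.sum_congr rfl h3, Finset.sum_comm]
    refine Finset.sum_congr rfl fun f _ => ?_
    rw [Finset.sum_comm]
    refine Finset.sum_congr rfl fun f' _ => ?_
    rw [Finset.sum_mul, Finset.sum_mul]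
  rw [(Qf_quadratic T a ha w).1, h2, Finset.mul_sum, ← Finset.sum_add_distrib]
  refine Finset.sum_congr rfl fun f _ => ?_
  rw [Finset.mul_sum, ← Finset.sum_add_distrib]
  refine Finset.sum_congr rfl fun f' _ => ?_
  unfold Top.Hm
  ring

end

end Claimed.Agent.R285.F4a
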