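import Claimed.Agent.R285.F4a.Defs
import Claimed.Agent.R285.F4a.LeastSq

/-!
# ROW 285, F4a: elementary identities for the energies   (architect helper251)   LEAF L-F4a-EN-B

Direct manipulations of `⨅` (reparametrisation `u ↦ u + v` by `Equiv.addRight`, `ciInf_mono`, bounded below by `0`).
* `sector_completion`: substitute `u = v + u'`; the cross term vanishes by co-closure.   * `exists_coclosed`: minimise `∑_e (∇ v + 2π τ)²` (finite dimensional; or use `lsq_attained` of `LeastSq.lean`, import allowed).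
* `Qf_physical`: substitute `ξ = u - y_{cell}` (`ξ x = u x - y (c.blk x)`); on a crossing bond of a retained face `f = (c.blk x, d)` the target cell is `fnb c f` (needs `Whole c`, `T.Ok`).
* `sig_wf`, `sig_tauU`: unfold, `ring` / case analysis.   About 350 lines.
-/

set_option autoImplicit false

namespace Claimed.Agent.R285.F4a

open scoped BigOperators ENNReal NNReal
open MeasureTheory ProbabilityTheory Polynomial
open Claimed.Agent.R285 Claimed.Agent.R285.RG

noncomputable section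

variable {G : Geom}

theorem enb_iInf_const_add {α : Type} [Nonempty α] (C : ℝ) (f : α → ℝ) (hf : ∀ u, 0 ≤ f u) :
    ⨅ u, (C + f u) = C + ⨅ u, f u := by
  have hb : BddBelow (Set.range f) := ⟨0, by rintro _ ⟨u, rfl⟩; exact hf u⟩
  have hb' : BddBelow (Set.range fun u => C + f u) :=
    ⟨C, by rintro _ ⟨u, rfl⟩; exact le_add_of_nonneg_right (hf u)⟩
  refine le_antisymm ?_ (le_ciInf fun u => by have := ciInf_le hb u; linarith)
  have h1 : (⨅ u, (C + f u)) - C ≤ ⨅ u, f u :=
    le_ciInf fun u => by have := ciInf_le hb' u; linarith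
  linarith

theorem enb_quad_nonneg {c : Grid G} (T : Top c) (a : ℝ) (ha : 0 < a) (w : Face c → ℝ) (y : c.I → ℝ)
    (u : G.V → ℝ) : 0 ≤ T.quad a w y u := by
  unfold Top.quad
  have := inv_pos.2 ha
  exact add_nonneg (mul_nonneg this.le (Finset.sum_nonneg fun _ _ => sq_nonneg _))
    (Finset.sum_nonneg fun _ _ => sq_nonneg _)

theorem enb_econn_two_pi {c : Grid G} (T : Top c) (τ : Face c → ℤ) (e : T.graph.E) :
    T.econn (fun f => 2 * Real.pi * (τ f : ℝ)) e = 2 * Real.pi * (T.econn τ e : ℤ) := by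
  unfold Top.econn
  split_ifs <;> simp

theorem enb_avg_add (c : Grid G) (u v : G.V → ℝ) (i : c.I) : avg c (u + v) i = avg c u i + avg c v i := by
  simp only [avg, cellAvg, Pi.add_apply, Finset.sum_add_distrib, add_div]

/-- (eq:sector-completion); valid on every topology -/
theorem sector_completion {c : Grid G} (T : Top c) (a : ℝ) (ha : 0 < a) (τ : Face c → ℤ) (v : G.V → ℝ)
    (hv : T.CoClosed (T.eta τ v)) (y : c.I → ℝ) :
    T.Eobs a τ y = a⁻¹ * ∑ e, T.eta τ v e ^ 2 + T.Eobs a 0 (fun i => y i - avg c v i) := by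
  unfold Top.Eobs Top.En
  rw [← enb_iInf_const_add _ _ (fun u => enb_quad_nonneg T a ha _ _ u),
    ← Equiv.iInf_comp (Equiv.addRight v)]
  refine iInf_congr fun u => ?_
  simp only [Equiv.coe_addRight]
  unfold Top.quad
  have h1 : ∑ e : T.graph.E, ((u + v) (stp e.1.1 e.1.2) - (u + v) e.1.1
        + T.econn (fun f => 2 * Real.pi * (τ f : ℝ)) e) ^ 2
      = ∑ e, T.eta τ v e ^ 2 + ∑ e : T.graph.E, (u (stp e.1.1 e.1.2) - u e.1.1
        + T.econn (fun f => 2 * Real.pi * (((0 : Face c → ℤ) f : ℤ) : ℝ)) e) ^ 2 := by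
    have h2 := hv u
    have h3 : ∀ e : T.graph.E, ((u + v) (stp e.1.1 e.1.2) - (u + v) e.1.1
        + T.econn (fun f => 2 * Real.pi * (τ f : ℝ)) e) ^ 2
        = T.eta τ v e ^ 2 + (u (stp e.1.1 e.1.2) - u e.1.1
          + T.econn (fun f => 2 * Real.pi * (((0 : Face c → ℤ) f : ℤ) : ℝ)) e) ^ 2
          + 2 * (T.eta τ v e * (u (stp e.1.1 e.1.2) - u e.1.1)) := by
      intro e
      rw [enb_econn_two_pi, enb_econn_two_pi]
      have h4 : T.econn (0 : Face c → ℤ) e = 0 := by
        unfold Top.econn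
        split_ifs <;> rfl
      rw [h4]
      unfold Top.eta
      simp only [Pi.add_apply, Int.cast_zero, mul_zero, add_zero]
      ring
    rw [Finset.sum_congr rfl fun e _ => h3 e, Finset.sum_add_distrib, Finset.sum_add_distrib,
      ← Finset.mul_sum, h2, mul_zero, add_zero]
  rw [h1, mul_add, add_assoc]
  congr 2
  refine Finset.sum_congr rfl fun i _ => ?_
  rw [enb_avg_add]
  ring

theorem exists_coclosed {c : Grid G} (T : Top c) (τ : Face c → ℤ) : ∃ v, T.CoClosed (T.eta τ v) := by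
  let L : Matrix T.graph.E G.V ℝ := fun e x =>
    (if x = stp e.1.1 e.1.2 then 1 else 0) - (if x = e.1.1 then 1 else 0)
  have hL : ∀ (u : G.V → ℝ) (e : T.graph.E), L.mulVec u e = u (stp e.1.1 e.1.2) - u e.1.1 := by
    intro u e
    simp only [Matrix.mulVec, dotProduct, L]
    simp only [sub_mul, ite_mul, one_mul, zero_mul, Finset.sum_sub_distrib,
      Finset.sum_ite_eq', Finset.mem_univ, if_true]
  obtain ⟨v, hv⟩ := lsq_nrm_exists L (fun e => 2 * Real.pi * (T.econn τ e : ℤ))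
  refine ⟨v, fun f => ?_⟩
  have := hv f
  simp only [hL] at this
  exact this

/-! ### geometry of whole cells -/

theorem enb_fold_succ (i : Fin G.M) (h : (i : ℕ) + 1 < G.M) : ((G.fold ((i : ℕ) + 1 : ℤ) : Fin G.M) : ℕ) = i + 1 := by
  unfold Geom.fold
  split
  · simp only
    have h1 : (((i : ℕ) : ℤ) + 1) % (G.M : ℤ) = (i : ℕ) + 1 := Int.emod_eq_of_lt (by omega) (by omega)
    rw [h1]
    omega
  · simp only
    have h1 : (((i : ℕ) : ℤ) + 1) % (2 * (G.M : ℤ)) = (i : ℕ) + 1 := Int.emod_eq_of_lt (by omega) (by omega)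
    rw [h1, if_pos (by omega)]
    omega

theorem enb_fold_self (i : Fin G.M) : G.fold (((i : ℕ) : ℤ) + 0) = i := by
  have hi := i.2
  apply Fin.ext
  unfold Geom.fold
  split
  · simp only
    have h1 : (((i : ℕ) : ℤ) + 0) % (G.M : ℤ) = (i : ℕ) := Int.emod_eq_of_lt (by omega) (by omega)
    rw [h1]
    omega
  · simp only
    have h1 : (((i : ℕ) : ℤ) + 0) % (2 * (G.M : ℤ)) = (i : ℕ) := Int.emod_eq_of_lt (by omega) (by omega)
    rw [h1, if_pos (by omega)]
    omega

theorem enb_fold_last_per (hG : G.bc = BC.per) (i : Fin G.M) (h : (i : ℕ) + 1 = G.M) :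
    ((G.fold ((i : ℕ) + 1 : ℤ) : Fin G.M) : ℕ) = 0 := by
  unfold Geom.fold
  split
  · simp only
    have h1 : (((i : ℕ) : ℤ) + 1) % (G.M : ℤ) = 0 := by
      have : (((i : ℕ) : ℤ) + 1) = (G.M : ℤ) := by exact_mod_cast h
      rw [this, Int.emod_self]
    rw [h1]
    rfl
  · rename_i h2
    rw [hG] at h2
    cases h2

theorem enb_fold_last_free (hG : G.bc = BC.free) (i : Fin G.M) (h : (i : ℕ) + 1 = G.M) :
    G.fold ((i : ℕ) + 1 : ℤ) = i := by
  apply Fin.ext
  unfold Geom.fold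
  split
  · rename_i h2
    rw [hG] at h2
    cases h2
  · simp only
    have h1 : (((i : ℕ) : ℤ) + 1) % (2 * (G.M : ℤ)) = (G.M : ℤ) := by
      have : (((i : ℕ) : ℤ) + 1) = (G.M : ℤ) := by exact_mod_cast h
      rw [this]
      exact Int.emod_eq_of_lt (by omega) (by omega)
    rw [h1, if_neg (by omega)]
    omega

theorem enb_blk1_surj {c : Grid G} (hc : Whole c) (b : Fin c.n) : ∃ j, c.blk1 j = b := by
  have h1 := hc.size b
  have h2 : (Finset.univ.filter fun i => c.blk1 i = b).Nonempty := by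
    rw [← Finset.card_pos, h1]
    exact hc.pos
  obtain ⟨j, hj⟩ := h2
  exact ⟨j, (Finset.mem_filter.1 hj).2⟩

theorem enb_blk1_fold {c : Grid G} (hc : Whole c) (i : Fin G.M)
    (hne : c.blk1 (G.fold ((i : ℕ) + 1 : ℤ)) ≠ c.blk1 i) : c.blk1 (G.fold ((i : ℕ) + 1 : ℤ)) = nx (c.blk1 i) := by
  have hi := i.2
  have hn := hc.two
  by_cases h : (i : ℕ) + 1 < G.M
  · have h1 := enb_fold_succ i h
    have hle : i ≤ G.fold ((i : ℕ) + 1 : ℤ) := by
      rw [Fin.le_def, h1]
      omega
    have h2 : c.blk1 i ≤ c.blk1 (G.fold ((i : ℕ) + 1 : ℤ)) := hc.mono hle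
    have h3 : (c.blk1 i : ℕ) < c.blk1 (G.fold ((i : ℕ) + 1 : ℤ)) := by
      rcases lt_or_eq_of_le (Fin.le_def.1 h2) with h4 | h4
      · exact h4
      · exact absurd (Fin.ext h4).symm hne
    have h5 := (c.blk1 (G.fold ((i : ℕ) + 1 : ℤ))).2
    obtain ⟨j, hj⟩ := enb_blk1_surj hc ⟨(c.blk1 i : ℕ) + 1, by omega⟩
    have h6 : (c.blk1 j : ℕ) = (c.blk1 i : ℕ) + 1 := by rw [hj]
    have h7 : (c.blk1 (G.fold ((i : ℕ) + 1 : ℤ)) : ℕ) ≤ c.blk1 j := by
      by_cases hji : (j : ℕ) ≤ i
      · have := Fin.le_def.1 (hc.mono (Fin.le_def.2 hji))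
        omega
      · refine Fin.le_def.1 (hc.mono (Fin.le_def.2 ?_))
        rw [h1]
        omega
    apply Fin.ext
    unfold nx
    simp only
    rw [Nat.mod_eq_of_lt (by omega)]
    omega
  · have h' : (i : ℕ) + 1 = G.M := by omega
    rcases hG : G.bc with _ | _
    · have h1 := enb_fold_last_per hG i h'
      obtain ⟨j, hj⟩ := enb_blk1_surj hc ⟨0, by omega⟩
      obtain ⟨j', hj'⟩ := enb_blk1_surj hc ⟨c.n - 1, by omega⟩
      have h2 : (c.blk1 (G.fold ((i : ℕ) + 1 : ℤ)) : ℕ) ≤ c.blk1 j :=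
        Fin.le_def.1 (hc.mono (Fin.le_def.2 (by rw [h1]; omega)))
      have h3 : (c.blk1 j' : ℕ) ≤ c.blk1 i :=
        Fin.le_def.1 (hc.mono (Fin.le_def.2 (by have := j'.2; omega)))
      rw [hj] at h2
      rw [hj'] at h3
      simp only at h2 h3
      have h4 := (c.blk1 i).2
      have h5 : (c.blk1 i : ℕ) + 1 = c.n := by omega
      apply Fin.ext
      unfold nx
      simp only
      rw [h5, Nat.mod_self]
      omega
    · exact absurd (by rw [enb_fold_last_free hG i h']) hne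

theorem enb_blk_stp {c : Grid G} (hc : Whole c) (x : G.V) (d : Bool) (hne : c.blk (stp x d) ≠ c.blk x) :
    c.blk (stp x d) = fnb c (c.blk x, d) := by
  cases d
  · have h1 : stp x false = (x.1, G.fold ((x.2 : ℕ) + 1 : ℤ)) := by
      unfold stp bdir Geom.π Geom.ι
      simp only [Bool.false_eq_true, if_false, Prod.mk_add_mk]
      rw [enb_fold_self]
    rw [h1] at hne ⊢
    unfold Grid.blk at hne ⊢
    unfold fnb
    simp only [Bool.false_eq_true, if_false] at hne ⊢
    have h2 : c.blk1 (G.fold ((x.2 : ℕ) + 1 : ℤ)) ≠ c.blk1 x.2 := fun h => hne (by rw [h])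
    rw [enb_blk1_fold hc x.2 h2]
  · have h1 : stp x true = (G.fold ((x.1 : ℕ) + 1 : ℤ), x.2) := by
      unfold stp bdir Geom.π Geom.ι
      simp only [if_true, Prod.mk_add_mk]
      rw [enb_fold_self]
    rw [h1] at hne ⊢
    unfold Grid.blk at hne ⊢
    unfold fnb
    simp only [if_true] at hne ⊢
    have h2 : c.blk1 (G.fold ((x.1 : ℕ) + 1 : ℤ)) ≠ c.blk1 x.1 := fun h => hne (by rw [h])
    rw [enb_blk1_fold hc x.1 h2]

theorem enb_avg_blk {c : Grid G} (hc : Whole c) (y : c.I → ℝ) (i : c.I) : avg c (fun x => y (c.blk x)) i = y i := by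
  simp only [avg, cellAvg]
  have h1 : ∑ v ∈ c.sites {i}, y (c.blk v) = ∑ v ∈ c.sites {i}, y i := by
    refine Finset.sum_congr rfl fun v hv => ?_
    unfold Grid.sites at hv
    rw [Finset.mem_singleton.1 (Finset.mem_filter.1 hv).2]
  have h2 : (c.sites {i}).Nonempty := by
    obtain ⟨j1, hj1⟩ := enb_blk1_surj hc i.1
    obtain ⟨j2, hj2⟩ := enb_blk1_surj hc i.2
    refine ⟨(j1, j2), ?_⟩
    unfold Grid.sites
    simp [Grid.blk, hj1, hj2]
  have h3 : ((c.sites {i}).card : ℝ) ≠ 0 := by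
    exact_mod_cast (Finset.card_pos.2 h2).ne'
  rw [h1, Finset.sum_const, nsmul_eq_mul]
  field_simp

/-- for physical face data the face energy is the observation energy -/
theorem Qf_physical {c : Grid G} (hc : Whole c) (T : Top c) (hT : T.Ok) (a : ℝ) (τ : Face c → ℤ) (y : c.I → ℝ) :
    T.Qf a (wf c τ y) = T.Eobs a τ y := by
  unfold Top.Qf Top.Eobs Top.En
  rw [← Equiv.iInf_comp (Equiv.addRight (fun x => y (c.blk x))) (g := fun u => T.quad a _ y u)]
  refine iInf_congr fun u => ?_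
  simp only [Equiv.coe_addRight]
  unfold Top.quad
  congr 1
  · congr 1
    refine Finset.sum_congr rfl fun e _ => ?_
    congr 1
    unfold Top.econn
    simp only [Pi.add_apply]
    split_ifs with h
    · rw [h]
      ring
    · rw [enb_blk_stp hc e.1.1 e.1.2 h]
      unfold wf
      ring
  · refine Finset.sum_congr rfl fun i _ => ?_
    rw [enb_avg_add, enb_avg_blk hc]
    simp

/-- restriction of one trial field to an open union only lowers the energy (proof of L4.3): monotonicity in the topology -/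
theorem Eobs_mono {c : Grid G} (T T' : Top c) (hcell : T.cells ⊆ T'.cells) (hface : T.faces ⊆ T'.faces) (a : ℝ) (ha : 0 < a)
    (w : Face c → ℝ) (y : c.I → ℝ) : T.En a w y ≤ T'.En a w y := by
  classical
  unfold Top.En
  refine ciInf_mono ⟨0, by rintro _ ⟨u, rfl⟩; exact enb_quad_nonneg T a ha w y u⟩ fun u => ?_
  unfold Top.quad
  have hinv := inv_pos.2 ha
  have hc2 : ∑ i ∈ T.cells, (avg c u i - y i) ^ 2 ≤ ∑ i ∈ T'.cells, (avg c u i - y i) ^ 2 :=
    Finset.sum_le_sum_of_subset_of_nonneg hcell fun _ _ _ => sq_nonneg _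
  refine add_le_add (mul_le_mul_of_nonneg_left ?_ hinv.le) hc2
  let F : G.V × Bool → ℝ := fun e =>
    (u (stp e.1 e.2) - u e.1 + (if c.blk (stp e.1 e.2) = c.blk e.1 then 0 else w (c.blk e.1, e.2))) ^ 2
  have h1 : ∀ S : Top c, ∑ e : S.graph.E, (u (stp e.1.1 e.1.2) - u e.1.1 + S.econn w e) ^ 2
      = ∑ e ∈ Finset.univ.filter S.IsEdge, F e := by
    intro S
    exact (Finset.sum_subtype (Finset.univ.filter S.IsEdge) (by simp) F).symm
  rw [h1 T, h1 T']
  refine Finset.sum_le_sum_of_subset_of_nonneg ?_ fun _ _ _ => sq_nonneg _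
  intro e he
  rw [Finset.mem_filter] at he ⊢
  obtain ⟨-, h2, h3, h4, h5⟩ := he
  exact ⟨Finset.mem_univ _, h2, hcell h3, hcell h4, h5.imp_right fun h => hface h⟩

/-- (ent:fixed-circulation): the circulation of physical face data is that of the connection -/
theorem sig_wf (c : Grid G) (z : c.I) (τ : Face c → ℤ) (y : c.I → ℝ) :
    sig c z (wf c τ y) = 2 * Real.pi * (τ (z, true) + τ (fnb c (z, true), false) - τ (fnb c (z, false), true) - τ (z, false) : ℤ) := by
  unfold sig wf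
  have h : fnb c (fnb c (z, true), false) = fnb c (fnb c (z, false), true) := by
    simp [fnb]
  rw [h]
  push_cast
  ring

/-- the unit connection has circulation `2π` at the centre junction and `0` elsewhere -/
theorem sig_tauU (c : Grid G) (hn : 2 ≤ c.n) (z : c.I) (hz : (z.1 : ℕ) + 1 < c.n ∧ (z.2 : ℕ) + 1 < c.n) (y : c.I → ℝ) :
    sig c z (wf c (tauU c) y) = if (z.1 : ℕ) + 1 = c.n / 2 ∧ (z.2 : ℕ) + 1 = c.n / 2 then 2 * Real.pi else 0 := by
  rw [sig_wf]
  have h1 : ((nx z.1 : Fin c.n) : ℕ) = z.1 + 1 := by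
    unfold nx
    simp only
    exact Nat.mod_eq_of_lt hz.1
  unfold tauU
  simp only [fnb, if_true, Bool.true_eq_false, false_and, if_false, true_and, h1]
  by_cases h2 : (z.2 : ℕ) + 1 = c.n / 2
  · by_cases h3 : c.n / 2 ≤ (z.1 : ℕ)
    · have h4 : c.n / 2 ≤ (z.1 : ℕ) + 1 := by omega
      have h5 : ¬ ((z.1 : ℕ) + 1 = c.n / 2) := by omega
      simp [h2, h3, h4, h5]
    · by_cases h4 : c.n / 2 ≤ (z.1 : ℕ) + 1
      · have h5 : (z.1 : ℕ) + 1 = c.n / 2 := by omega
        simp [h2, h3, h4, h5]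
      · have h5 : ¬ ((z.1 : ℕ) + 1 = c.n / 2) := by omega
        simp [h2, h3, h4, h5]
  · simp [h2]

end

end Claimed.Agent.R285.F4a
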