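import Claimed.Agent.R285.F4a.Defs
import Claimed.Agent.R285.F4a.EnB
import Claimed.Agent.R285.Ker.Asm1

/-!
# ROW 285, F4a: open energies and the covariance contraction   (architect helper251)   LEAF L-F4a-EN-C

* `openE_eq`: both sides are `⨅ u` of the same function: `cellsIn c (c.sites O) = O` (cells are non-empty), `bondE (c.sites O) u` = sum over the retained bonds of `Top.opn c O`
  (each bond is counted twice with the factor 1/2; a step through a free wall is a loop and contributes 0).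
* `energy_contraction`: trial field `u = √a • C f`: `a⁻¹ ∑_{e ∈ T} (∇u)² ≤ ⟨C f, A C f⟩ ≤ ⟨f, C f⟩` (`low_cac`), the rows give `∑_{i ∈ cells} e_i² ≤ ∑ e_i²`.
* `low_cac` is a statement on the kernels (spectral calculus of `lap G`: `λ c(λ)² ≤ c(λ)` because `0 ≤ λ c(λ) = 1 - 𝖯_u(λ) ≤ 1`): belongs to the package PK-KER (helper14 / helper165); prove it there or here.
-/

set_option autoImplicit false

namespace Claimed.Agent.R285.F4a

open scoped BigOperators ENNReal NNReal
open MeasureTheory ProbabilityTheory Polynomial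
open Claimed.Agent.R285 Claimed.Agent.R285.RG Claimed.Agent.R285.Ker

noncomputable section

variable {G : Geom}

/-- `C A C ≤ C` for `C = C_{<u}` -/
theorem low_cac (u : ℕ) (hu : 1 ≤ u) (f : G.V → ℝ) :
    ((Cless G u).mulVec f) ⬝ᵥ (lap G).mulVec ((Cless G u).mulVec f) ≤ f ⬝ᵥ (Cless G u).mulVec f := by
  have hsym : (low G Fam.entry u).transpose = low G Fam.entry u := ker_mul_symm (ker_cov_mul G _)
  have h1 : low G Fam.entry u * lap G * low G Fam.entry u
      = cov G (Fam.entry.lowP u * X * Fam.entry.lowP u) := by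
    simp [low, cov, map_mul, aeval_X]
  have h2 : ((Cless G u).mulVec f) ⬝ᵥ (lap G).mulVec ((Cless G u).mulVec f)
      = f ⬝ᵥ (low G Fam.entry u * lap G * low G Fam.entry u).mulVec f := by
    show ((low G Fam.entry u).mulVec f) ⬝ᵥ (lap G).mulVec ((low G Fam.entry u).mulVec f) = _
    rw [Matrix.mulVec_mulVec, ← Matrix.vecMul_transpose, hsym, ← Matrix.dotProduct_mulVec,
      Matrix.mulVec_mulVec, Matrix.mul_assoc]
  rw [h2, h1]
  refine ker_cov_mono G _ _ ?_ f
  intro x h0 h8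
  have h3 := ker_lowP_eval Fam.entry u hu x
  have h4 := ker_qq_nonneg Fam.entry.c u x
  have h5 : Fam.entry.pref.eval x = 1 := by simp [Fam.entry]
  have h6 := ker_low_nonneg ker_entry_adm u hu x h0 h8
  have h7 := ker_qq_le_one Fam.entry.c ker_entry_adm.c_ge u hu x h0 h8
  simp only [eval_mul, eval_X]
  rw [h5, one_mul] at h3
  have h8 : (Fam.entry.lowP u).eval x * x = 1 - qq Fam.entry.c u x := by rw [mul_comm, h3]
  rw [h8]
  nlinarith

/-- reindexing of a sum over the "backward" bonds by the "forward" bonds -/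
theorem enc_sum_swap {V : Type} [Fintype V] [DecidableEq V] (σ ρ : V → V) (h1 : ∀ v, ρ v ≠ v → σ (ρ v) = v)
    (h2 : ∀ v, σ v ≠ v → ρ (σ v) = v) (g : V → V → ℝ) (hg : ∀ v, g v v = 0) :
    ∑ v, g v (ρ v) = ∑ w, g (σ w) w := by
  have e1 : ∑ v, g v (ρ v) = ∑ v ∈ Finset.univ.filter (fun v => ρ v ≠ v), g v (ρ v) := by
    symm
    refine Finset.sum_subset (Finset.filter_subset _ _) fun v _ hv => ?_
    have : ρ v = v := by
      by_contra h
      exact hv (Finset.mem_filter.2 ⟨Finset.mem_univ _, h⟩)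
    rw [this, hg]
  have e2 : ∑ w, g (σ w) w = ∑ w ∈ Finset.univ.filter (fun w => σ w ≠ w), g (σ w) w := by
    symm
    refine Finset.sum_subset (Finset.filter_subset _ _) fun v _ hv => ?_
    have : σ v = v := by
      by_contra h
      exact hv (Finset.mem_filter.2 ⟨Finset.mem_univ _, h⟩)
    rw [this, hg]
  rw [e1, e2]
  refine Finset.sum_nbij' ρ σ ?_ ?_ ?_ ?_ ?_
  · intro v hv
    have hv' := (Finset.mem_filter.1 hv).2
    refine Finset.mem_filter.2 ⟨Finset.mem_univ _, ?_⟩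
    rw [h1 v hv']
    exact hv'.symm
  · intro w hw
    have hw' := (Finset.mem_filter.1 hw).2
    refine Finset.mem_filter.2 ⟨Finset.mem_univ _, ?_⟩
    rw [h2 w hw']
    exact hw'.symm
  · intro v hv
    exact h1 v (Finset.mem_filter.1 hv).2
  · intro w hw
    exact h2 w (Finset.mem_filter.1 hw).2
  · intro v hv
    rw [h1 v (Finset.mem_filter.1 hv).2]

theorem enc_per_free (hG : G.bc = BC.free) : per G = 2 * G.M := by
  unfold per
  rw [hG]

theorem enc_fold_back (j : Fin G.M) (h : G.fold ((j : ℕ) + (-1) : ℤ) ≠ j) :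
    G.fold (((G.fold ((j : ℕ) + (-1) : ℤ) : Fin G.M) : ℕ) + 1 : ℤ) = j := by
  set k := G.fold ((j : ℕ) + (-1) : ℤ) with hk
  have h1 : G.fold ((k : ℕ) : ℤ) = G.fold ((j : ℕ) + (-1) : ℤ) := by rw [ker_fold_coe]
  have hj := j.2
  have hk2 := k.2
  rw [ker_fold_eq_iff] at h1
  rcases h1 with h1 | ⟨hG, h1⟩
  · rw [← ker_fold_coe G j, ker_fold_eq_iff]
    left
    have e : ((k : ℕ) : ℤ) + 1 - ((j : ℕ) : ℤ) = ((k : ℕ) : ℤ) - (((j : ℕ) : ℤ) + -1) := by ring
    simpa [ker_fold_coe, e] using h1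
  · exfalso
    rw [enc_per_free hG] at h1
    obtain ⟨q, hq⟩ := h1
    push_cast at hq
    have hq0 : q = 0 := by
      by_contra hne
      rcases lt_or_gt_of_ne hne with hlt | hgt
      · nlinarith
      · nlinarith
    subst hq0
    apply h
    apply Fin.ext
    omega

theorem enc_fold_fwd (i : Fin G.M) (h : G.fold ((i : ℕ) + 1 : ℤ) ≠ i) :
    G.fold (((G.fold ((i : ℕ) + 1 : ℤ) : Fin G.M) : ℕ) + (-1) : ℤ) = i := by
  set k := G.fold ((i : ℕ) + 1 : ℤ) with hk
  have h1 : G.fold ((k : ℕ) : ℤ) = G.fold ((i : ℕ) + 1 : ℤ) := by rw [ker_fold_coe]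
  have hi := i.2
  have hk2 := k.2
  rw [ker_fold_eq_iff] at h1
  rcases h1 with h1 | ⟨hG, h1⟩
  · rw [← ker_fold_coe G i, ker_fold_eq_iff]
    left
    have e : ((k : ℕ) : ℤ) + -1 - ((i : ℕ) : ℤ) = ((k : ℕ) : ℤ) - (((i : ℕ) : ℤ) + 1) := by ring
    simpa [ker_fold_coe, e] using h1
  · exfalso
    rw [enc_per_free hG] at h1
    obtain ⟨q, hq⟩ := h1
    push_cast at hq
    have hq1 : q = 1 := by
      by_contra hne
      rcases lt_or_gt_of_ne hne with hlt | hgt
      · have : q ≤ 0 := by omega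
        nlinarith
      · have : 2 ≤ q := by omega
        nlinarith
    subst hq1
    apply h
    apply Fin.ext
    omega

theorem enc_stp_true (v : G.V) : stp v true = (G.fold ((v.1 : ℕ) + 1 : ℤ), v.2) := by
  unfold stp bdir Geom.π Geom.ι
  simp only [if_true, Prod.mk_add_mk]
  rw [enb_fold_self]

theorem enc_stp_false (v : G.V) : stp v false = (v.1, G.fold ((v.2 : ℕ) + 1 : ℤ)) := by
  unfold stp bdir Geom.π Geom.ι
  simp only [Bool.false_eq_true, if_false, Prod.mk_add_mk]
  rw [enb_fold_self]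

theorem enc_bk_true (v : G.V) : G.π (G.ι v + -bdir true) = (G.fold ((v.1 : ℕ) + (-1) : ℤ), v.2) := by
  unfold bdir Geom.π Geom.ι
  simp only [if_true, Prod.neg_mk, neg_zero, Prod.mk_add_mk]
  rw [enb_fold_self]

theorem enc_bk_false (v : G.V) : G.π (G.ι v + -bdir false) = (v.1, G.fold ((v.2 : ℕ) + (-1) : ℤ)) := by
  unfold bdir Geom.π Geom.ι
  simp only [Bool.false_eq_true, if_false, Prod.neg_mk, neg_zero, Prod.mk_add_mk]
  rw [enb_fold_self]

theorem enc_swap_bond (d : Bool) (g : G.V → G.V → ℝ) (hg : ∀ v, g v v = 0) :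
    ∑ v, g v (G.π (G.ι v + -bdir d)) = ∑ w, g (stp w d) w := by
  refine enc_sum_swap (fun v => stp v d) (fun v => G.π (G.ι v + -bdir d)) ?_ ?_ g hg
  · intro v hv
    cases d
    · simp only [enc_bk_false, enc_stp_false] at hv ⊢
      have h : G.fold ((v.2 : ℕ) + (-1) : ℤ) ≠ v.2 := fun h => hv (by rw [h])
      rw [enc_fold_back v.2 h]
    · simp only [enc_bk_true, enc_stp_true] at hv ⊢
      have h : G.fold ((v.1 : ℕ) + (-1) : ℤ) ≠ v.1 := fun h => hv (by rw [h])
      rw [enc_fold_back v.1 h]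
  · intro v hv
    cases d
    · simp only [enc_bk_false, enc_stp_false] at hv ⊢
      have h : G.fold ((v.2 : ℕ) + 1 : ℤ) ≠ v.2 := fun h => hv (by rw [h])
      rw [enc_fold_fwd v.2 h]
    · simp only [enc_bk_true, enc_stp_true] at hv ⊢
      have h : G.fold ((v.1 : ℕ) + 1 : ℤ) ≠ v.1 := fun h => hv (by rw [h])
      rw [enc_fold_fwd v.1 h]

/-- a sum over the four neighbours as a sum over the oriented bonds -/
theorem enc_sum_four (g : G.V → G.V → ℝ) (hg : ∀ v, g v v = 0) :
    ∑ v, ∑ e : Fin 4, g v (G.π (G.ι v + dir e)) = ∑ e : G.V × Bool, (g e.1 (stp e.1 e.2) + g (stp e.1 e.2) e.1) := by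
  have h0 : dir 0 = bdir true := rfl
  have h1 : dir 1 = -bdir true := by simp [dir, bdir]
  have h2 : dir 2 = bdir false := rfl
  have h3 : dir 3 = -bdir false := by simp [dir, bdir]
  have hR : ∑ e : G.V × Bool, (g e.1 (stp e.1 e.2) + g (stp e.1 e.2) e.1)
      = ∑ v : G.V, ∑ d : Bool, (g v (stp v d) + g (stp v d) v) :=
    Fintype.sum_prod_type (fun e : G.V × Bool => g e.1 (stp e.1 e.2) + g (stp e.1 e.2) e.1)
  rw [hR]
  simp only [Fin.sum_univ_four, h0, h1, h2, h3, Finset.sum_add_distrib, Fintype.sum_bool]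
  rw [enc_swap_bond true g hg, enc_swap_bond false g hg]
  unfold stp
  ring

theorem enc_lap_mulVec (u : G.V → ℝ) (v : G.V) :
    (lap G).mulVec u v = ∑ e : Fin 4, (u v - u (G.π (G.ι v + dir e))) := by
  simp only [Matrix.mulVec, dotProduct, lap, Finset.sum_mul]
  rw [Finset.sum_comm]
  refine Finset.sum_congr rfl fun e _ => ?_
  simp only [sub_mul, ite_mul, one_mul, zero_mul, Finset.sum_sub_distrib, Finset.sum_ite_eq, Finset.mem_univ,
    if_true]

/-- the Dirichlet form of `lap G` is the energy of all oriented bonds -/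
theorem enc_dirichlet (u : G.V → ℝ) :
    u ⬝ᵥ (lap G).mulVec u = ∑ e : G.V × Bool, (u (stp e.1 e.2) - u e.1) ^ 2 := by
  have h := enc_sum_four (G := G) (fun v w => u v * (u v - u w)) (fun v => by simp)
  simp only [dotProduct, enc_lap_mulVec, Finset.mul_sum]
  rw [h]
  refine Finset.sum_congr rfl fun e _ => ?_
  ring

/-- the Dirichlet form of `lap G` dominates the bond energy of every topology -/
theorem bond_le_lap {c : Grid G} (T : Top c) (u : G.V → ℝ) :
    ∑ e : T.graph.E, (u (stp e.1.1 e.1.2) - u e.1.1) ^ 2 ≤ u ⬝ᵥ (lap G).mulVec u := by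
  classical
  rw [enc_dirichlet]
  have h1 : ∑ e : T.graph.E, (u (stp e.1.1 e.1.2) - u e.1.1) ^ 2
      = ∑ e ∈ Finset.univ.filter T.IsEdge, (u (stp e.1 e.2) - u e.1) ^ 2 :=
    (Finset.sum_subtype (Finset.univ.filter T.IsEdge) (by simp)
      (fun e : G.V × Bool => (u (stp e.1 e.2) - u e.1) ^ 2)).symm
  rw [h1]
  exact Finset.sum_le_sum_of_subset_of_nonneg (Finset.filter_subset _ _) fun _ _ _ => sq_nonneg _

open Classical in
theorem enc_bondE (D : Finset G.V) (u : G.V → ℝ) :
    bondE D u = ∑ e : G.V × Bool, if e.1 ∈ D ∧ stp e.1 e.2 ∈ D then (u (stp e.1 e.2) - u e.1) ^ 2 else 0 := by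
  have h := enc_sum_four (G := G) (fun v w => if v ∈ D ∧ w ∈ D then (u w - u v) ^ 2 else 0) (fun v => by simp)
  have h1 : bondE D u = (1 / 2) * ∑ v, ∑ e : Fin 4,
      (if v ∈ D ∧ G.π (G.ι v + dir e) ∈ D then (u (G.π (G.ι v + dir e)) - u v) ^ 2 else 0) := by
    unfold bondE
    congr 1
    rw [← Finset.sum_subset (Finset.subset_univ D) (fun v _ hv => by simp [hv])]
    refine Finset.sum_congr rfl fun v hv => Finset.sum_congr rfl fun e _ => ?_
    simp only [hv, true_and, dif, Geom.lift, ker_pi_iota]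
  rw [h1, h, Finset.mul_sum]
  refine Finset.sum_congr rfl fun e _ => ?_
  by_cases h2 : e.1 ∈ D ∧ stp e.1 e.2 ∈ D
  · rw [if_pos h2, if_pos h2.symm]
    ring
  · rw [if_neg h2, if_neg (fun h3 => h2 h3.symm)]
    ring

theorem enc_blk1_lt {c : Grid G} (hc : Whole c) (i : Fin G.M)
    (hne : c.blk1 (G.fold ((i : ℕ) + 1 : ℤ)) ≠ c.blk1 i) : G.bc = BC.per ∨ (c.blk1 i : ℕ) + 1 < c.n := by
  have hi := i.2
  by_cases h : (i : ℕ) + 1 < G.M
  · right
    have h1 := enb_fold_succ i h
    have hle : i ≤ G.fold ((i : ℕ) + 1 : ℤ) := by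
      rw [Fin.le_def, h1]
      omega
    have h2 : c.blk1 i ≤ c.blk1 (G.fold ((i : ℕ) + 1 : ℤ)) := hc.mono hle
    have h3 : (c.blk1 i : ℕ) < c.blk1 (G.fold ((i : ℕ) + 1 : ℤ)) := by
      rcases lt_or_eq_of_le (Fin.le_def.1 h2) with h4 | h4
      · exact h4
      · exact absurd (Fin.ext h4).symm hne
    have h5 := (c.blk1 (G.fold ((i : ℕ) + 1 : ℤ))).2
    omega
  · have h' : (i : ℕ) + 1 = G.M := by omega
    rcases hG : G.bc with _ | _
    · exact Or.inl rfl
    · exact absurd (by rw [enb_fold_last_free hG i h']) hne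

theorem enc_isFace {c : Grid G} (hc : Whole c) (x : G.V) (d : Bool) (hne : c.blk (stp x d) ≠ c.blk x) :
    IsFace c (c.blk x, d) := by
  unfold IsFace
  cases d
  · rw [enc_stp_false] at hne
    unfold Grid.blk at hne ⊢
    have h2 : c.blk1 (G.fold ((x.2 : ℕ) + 1 : ℤ)) ≠ c.blk1 x.2 := fun h => hne (by simp only [h])
    simpa using enc_blk1_lt hc x.2 h2
  · rw [enc_stp_true] at hne
    unfold Grid.blk at hne ⊢
    have h2 : c.blk1 (G.fold ((x.1 : ℕ) + 1 : ℤ)) ≠ c.blk1 x.1 := fun h => hne (by simp only [h])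
    simpa using enc_blk1_lt hc x.1 h2

theorem enc_opn_cells (c : Grid G) (O : Finset c.I) : (Top.opn c O).cells = O := by
  classical
  unfold Top.opn Top.restr Top.full
  simp

theorem enc_opn_edge {c : Grid G} (hc : Whole c) (O : Finset c.I) (e : G.V × Bool) :
    (Top.opn c O).IsEdge e ↔ stp e.1 e.2 ≠ e.1 ∧ c.blk e.1 ∈ O ∧ c.blk (stp e.1 e.2) ∈ O := by
  classical
  unfold Top.IsEdge
  rw [enc_opn_cells]
  constructor
  · rintro ⟨h1, h2, h3, -⟩
    exact ⟨h1, h2, h3⟩
  · rintro ⟨h1, h2, h3⟩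
    refine ⟨h1, h2, h3, ?_⟩
    by_cases h : c.blk (stp e.1 e.2) = c.blk e.1
    · exact Or.inl h
    · right
      unfold Top.opn Top.restr Top.full
      simp only [Finset.mem_filter, Finset.mem_univ, true_and]
      refine ⟨enc_isFace hc e.1 e.2 h, h2, ?_⟩
      rw [← enb_blk_stp hc e.1 e.2 h]
      exact h3

theorem enc_cellsIn {c : Grid G} (hc : Whole c) (O : Finset c.I) : cellsIn c (c.sites O) = O := by
  classical
  unfold cellsIn
  ext i
  simp only [Finset.mem_filter, Finset.mem_univ, true_and]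
  constructor
  · intro h
    obtain ⟨j1, hj1⟩ := enb_blk1_surj hc i.1
    obtain ⟨j2, hj2⟩ := enb_blk1_surj hc i.2
    have h1 : ((j1, j2) : G.V) ∈ c.sites {i} := by
      unfold Grid.sites
      simp [Grid.blk, hj1, hj2]
    have h2 := h h1
    unfold Grid.sites at h2
    have h3 := (Finset.mem_filter.1 h2).2
    simpa [Grid.blk, hj1, hj2] using h3
  · intro h v hv
    unfold Grid.sites at hv ⊢
    have h1 := Finset.mem_singleton.1 (Finset.mem_filter.1 hv).2
    exact Finset.mem_filter.2 ⟨Finset.mem_univ _, h1 ▸ h⟩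

theorem enc_econn_zero {c : Grid G} (T : Top c) (e : T.graph.E) :
    T.econn (fun f => 2 * Real.pi * (((0 : Face c → ℤ) f : ℤ) : ℝ)) e = 0 := by
  unfold Top.econn
  split_ifs <;> simp

/-- the open energy of `RG` is the observation energy of the OPEN topology on the cells of `D` -/
theorem openE_eq (a : ℝ) {c : Grid G} (hc : Whole c) (O : Finset c.I) (y : c.I → ℝ) :
    openE a c (c.sites O) y = (Top.opn c O).Eobs a 0 y := by
  classical
  unfold openE Top.Eobs Top.En
  refine iInf_congr fun u => ?_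
  unfold Top.quad
  rw [enc_cellsIn hc, enc_opn_cells, enc_bondE]
  congr 2
  have h1 : ∑ e : (Top.opn c O).graph.E, (u (stp e.1.1 e.1.2) - u e.1.1
        + (Top.opn c O).econn (fun f => 2 * Real.pi * (((0 : Face c → ℤ) f : ℤ) : ℝ)) e) ^ 2
      = ∑ e ∈ Finset.univ.filter (Top.opn c O).IsEdge, (u (stp e.1 e.2) - u e.1) ^ 2 := by
    rw [Finset.sum_subtype (p := (Top.opn c O).IsEdge) (Finset.univ.filter (Top.opn c O).IsEdge)
      (fun x => by simp) (fun e : G.V × Bool => (u (stp e.1 e.2) - u e.1) ^ 2)]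
    refine Finset.sum_congr rfl fun e _ => ?_
    rw [enc_econn_zero, add_zero]
  rw [h1, Finset.sum_filter]
  refine Finset.sum_congr rfl fun e _ => ?_
  have hs : ∀ v : G.V, v ∈ c.sites O ↔ c.blk v ∈ O := fun v => by
    unfold Grid.sites
    simp
  simp only [enc_opn_edge hc, hs]
  by_cases h : stp e.1 e.2 = e.1
  · simp [h]
  · simp [h]

/-- **(en:energy-contraction) = the covariance contraction of L4.3**: the map from the Gaussian Hilbert coordinates of the accumulated pieces and the noise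
into the energy of ANY topology (only internal faces; both boundary conventions) has norm `≤ 1`. -/
theorem energy_contraction (a : ℝ) (ha : 0 < a) {c : Grid G} (hc : Whole c) (T : Top c) (hT : T.Ok) (u : ℕ) (hu : 1 ≤ u)
    (f : G.V → ℝ) (e : c.I → ℝ) :
    T.Eobs a 0 (fun i => avg c (fun x => Real.sqrt a * (Cless G u).mulVec f x) i + e i)
      ≤ f ⬝ᵥ (Cless G u).mulVec f + ∑ i, e i ^ 2 := by
  unfold Top.Eobs Top.En
  refine (ciInf_le ⟨0, by rintro _ ⟨v, rfl⟩; exact enb_quad_nonneg T a ha _ _ v⟩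
    (fun x => Real.sqrt a * (Cless G u).mulVec f x)).trans ?_
  unfold Top.quad
  have h1 : a⁻¹ * ∑ b : T.graph.E, (Real.sqrt a * (Cless G u).mulVec f (stp b.1.1 b.1.2)
        - Real.sqrt a * (Cless G u).mulVec f b.1.1
        + T.econn (fun f => 2 * Real.pi * (((0 : Face c → ℤ) f : ℤ) : ℝ)) b) ^ 2
      = ∑ b : T.graph.E, ((Cless G u).mulVec f (stp b.1.1 b.1.2) - (Cless G u).mulVec f b.1.1) ^ 2 := by
    rw [Finset.mul_sum]
    refine Finset.sum_congr rfl fun b _ => ?_
    rw [enc_econn_zero, add_zero, ← mul_sub, mul_pow, Real.sq_sqrt ha.le, ← mul_assoc, inv_mul_cancel₀ ha.ne',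
      one_mul]
  have h2 : ∑ i ∈ T.cells, (avg c (fun x => Real.sqrt a * (Cless G u).mulVec f x) i
        - (avg c (fun x => Real.sqrt a * (Cless G u).mulVec f x) i + e i)) ^ 2 ≤ ∑ i, e i ^ 2 := by
    have h3 : ∀ i, (avg c (fun x => Real.sqrt a * (Cless G u).mulVec f x) i
        - (avg c (fun x => Real.sqrt a * (Cless G u).mulVec f x) i + e i)) ^ 2 = e i ^ 2 := fun i => by ring
    simp only [h3]
    exact Finset.sum_le_sum_of_subset_of_nonneg (Finset.subset_univ _) fun _ _ _ => sq_nonneg _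
  rw [h1]
  exact add_le_add ((bond_le_lap T _).trans (low_cac u hu f)) h2

end

end Claimed.Agent.R285.F4a
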