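import Claimed.Agent.R285.F4a.Defs

/-!
# ROW 285, [F] s4.1: the cutoff `χ_s` (ent:cutoff-definition), (ent:cutoff-tails)   (owner helper251)
Contracts (statements fixed; verdicts and consumers in `R285/Read/F4a.lean`).
-/

set_option autoImplicit false

namespace Claimed.Agent.R285.F4a

open scoped BigOperators ENNReal NNReal
open MeasureTheory ProbabilityTheory Polynomial
open Claimed.Agent.R285 Claimed.Agent.R285.RG

noncomputable section

variable {G : Geom}

theorem chiL_gcont : Continuous fun t : ℝ => Real.exp (-t ^ 2 / 2) := by fun_prop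

theorem chiL_gint (a b : ℝ) : IntervalIntegrable (fun t : ℝ => Real.exp (-t ^ 2 / 2)) volume a b :=
  chiL_gcont.intervalIntegrable _ _

theorem chiL_num_eq (s z : ℝ) :
    ∫ t in (-s)..s, Real.exp (-(z - t) ^ 2 / 2) = ∫ u in (z - s)..(z + s), Real.exp (-u ^ 2 / 2) := by
  have := intervalIntegral.integral_comp_sub_left (fun u : ℝ => Real.exp (-u ^ 2 / 2)) z (a := -s) (b := s)
  simpa [sub_neg_eq_add] using this

theorem chiL_den_pos (s : ℝ) (hs : 0 < s) : 0 < ∫ t in (-s)..s, Real.exp (-t ^ 2 / 2) :=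
  intervalIntegral.intervalIntegral_pos_of_pos (chiL_gint _ _) (fun t => Real.exp_pos _) (by linarith)

theorem chiL_num_pos (s z : ℝ) (hs : 0 < s) : 0 < ∫ t in (-s)..s, Real.exp (-(z - t) ^ 2 / 2) :=
  intervalIntegral.intervalIntegral_pos_of_pos ((by fun_prop : Continuous fun t : ℝ => Real.exp (-(z - t) ^ 2 / 2)).intervalIntegrable _ _)
    (fun t => Real.exp_pos _) (by linarith)

/-- the defect `N - A(x)` -/
theorem chiL_diff (s x : ℝ) :
    (∫ t in (-s)..s, Real.exp (-t ^ 2 / 2)) - ∫ t in (-s)..s, Real.exp (-(x - t) ^ 2 / 2) =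
      (∫ u in (-s)..(x - s), Real.exp (-u ^ 2 / 2)) - ∫ u in (-s)..(x - s), Real.exp (-(u + 2 * s) ^ 2 / 2) := by
  rw [chiL_num_eq, intervalIntegral.integral_interval_sub_interval_comm (chiL_gint _ _) (chiL_gint _ _) (chiL_gint _ _)]
  congr 1
  have := intervalIntegral.integral_comp_add_right (fun u : ℝ => Real.exp (-u ^ 2 / 2)) (2 * s) (a := -s) (b := x - s)
  rw [this]
  congr 1 <;> ring

theorem chiL_even (s x : ℝ) : chi s (-x) = chi s x := by
  unfold chi
  congr 1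
  have := intervalIntegral.integral_comp_neg (fun t : ℝ => Real.exp (-(x - t) ^ 2 / 2)) (a := -s) (b := s)
  rw [neg_neg] at this
  rw [← this]
  congr 1
  funext t
  congr 2
  ring

theorem chiL_defect_nonneg (s x : ℝ) (hs : 0 < s) (hx : 0 ≤ x) :
    0 ≤ (∫ t in (-s)..s, Real.exp (-t ^ 2 / 2)) - ∫ t in (-s)..s, Real.exp (-(x - t) ^ 2 / 2) := by
  rw [chiL_diff, sub_nonneg]
  refine intervalIntegral.integral_mono_on (by linarith)
    ((by fun_prop : Continuous fun u : ℝ => Real.exp (-(u + 2 * s) ^ 2 / 2)).intervalIntegrable _ _) (chiL_gint _ _) ?_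
  intro u hu
  apply Real.exp_le_exp.2
  have h1 : -s ≤ u := hu.1
  nlinarith

theorem chiL_le_one_of_nonneg (s x : ℝ) (hs : 0 < s) (hx : 0 ≤ x) : chi s x ≤ 1 := by
  unfold chi
  rw [div_le_one (chiL_den_pos s hs)]
  linarith [chiL_defect_nonneg s x hs hx]

theorem chiL_le_one (s x : ℝ) (hs : 0 < s) : chi s x ≤ 1 := by
  rcases le_total 0 x with h | h
  · exact chiL_le_one_of_nonneg s x hs h
  · rw [← chiL_even]
    exact chiL_le_one_of_nonneg s (-x) hs (by linarith)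

theorem chiL_pos (s x : ℝ) (hs : 0 < s) : 0 < chi s x := div_pos (chiL_num_pos s x hs) (chiL_den_pos s hs)

theorem chiL_zero (s : ℝ) (hs : 0 < s) : chi s 0 = 1 := by
  unfold chi
  have : (fun t : ℝ => Real.exp (-(0 - t) ^ 2 / 2)) = fun t : ℝ => Real.exp (-t ^ 2 / 2) := by
    funext t
    congr 2
    ring
  rw [this]
  exact div_self (chiL_den_pos s hs).ne'

theorem chiL_real (s x : ℝ) : chiC s x = chi s x := by
  unfold chiC chiS chi
  rw [Complex.ofReal_div]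
  congr 1
  rw [← intervalIntegral.integral_ofReal]
  congr 1
  funext t
  push_cast
  ring_nf

/-- the normaliser is at least `1` for `s ≥ 1` -/
theorem chiL_den_ge (s : ℝ) (hs : 1 ≤ s) : 1 ≤ ∫ t in (-s)..s, Real.exp (-t ^ 2 / 2) := by
  have h1 : (∫ t in (-1 : ℝ)..1, Real.exp (-t ^ 2 / 2)) ≤ ∫ t in (-s)..s, Real.exp (-t ^ 2 / 2) := by
    refine intervalIntegral.integral_mono_interval (by linarith) (by norm_num) hs ?_ (chiL_gint _ _)
    exact Filter.Eventually.of_forall fun t => (Real.exp_pos _).le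
  have h2 : (∫ _t in (-1 : ℝ)..1, (1 / 2 : ℝ)) ≤ ∫ t in (-1 : ℝ)..1, Real.exp (-t ^ 2 / 2) := by
    refine intervalIntegral.integral_mono_on (by norm_num) intervalIntegrable_const (chiL_gint _ _) ?_
    intro t ht
    have h3 : -t ^ 2 / 2 + 1 ≤ Real.exp (-t ^ 2 / 2) := Real.add_one_le_exp _
    have h4 : t ^ 2 ≤ 1 := by nlinarith [ht.1, ht.2]
    linarith
  have h3 : (∫ _t in (-1 : ℝ)..1, (1 / 2 : ℝ)) = 1 := by
    rw [intervalIntegral.integral_const]
    norm_num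
  linarith

theorem chiL_inner_nonneg (s x : ℝ) (hs : 1 ≤ s) (hx : 0 ≤ x) (hx2 : x ≤ s / 2) :
    1 - chi s x ≤ 1 * Real.exp (-(1 / 16) * s ^ 2) := by
  have hN := chiL_den_ge s hs
  have hN0 : 0 < ∫ t in (-s)..s, Real.exp (-t ^ 2 / 2) := by linarith
  have e1 : 1 - chi s x = ((∫ t in (-s)..s, Real.exp (-t ^ 2 / 2)) -
      ∫ t in (-s)..s, Real.exp (-(x - t) ^ 2 / 2)) / ∫ t in (-s)..s, Real.exp (-t ^ 2 / 2) := by
    unfold chi
    rw [sub_div, div_self hN0.ne']
  have h0 := chiL_defect_nonneg s x (by linarith) hx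
  have h1 : 1 - chi s x ≤ (∫ t in (-s)..s, Real.exp (-t ^ 2 / 2)) -
      ∫ t in (-s)..s, Real.exp (-(x - t) ^ 2 / 2) := by
    rw [e1]
    exact div_le_self h0 hN
  have h2 : (∫ t in (-s)..s, Real.exp (-t ^ 2 / 2)) - ∫ t in (-s)..s, Real.exp (-(x - t) ^ 2 / 2)
      ≤ ∫ u in (-s)..(x - s), Real.exp (-u ^ 2 / 2) := by
    rw [chiL_diff]
    have : 0 ≤ ∫ u in (-s)..(x - s), Real.exp (-(u + 2 * s) ^ 2 / 2) :=
      intervalIntegral.integral_nonneg (by linarith) fun u _ => (Real.exp_pos _).le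
    linarith
  have h3 : (∫ u in (-s)..(x - s), Real.exp (-u ^ 2 / 2)) ≤ ∫ _u in (-s)..(x - s), Real.exp (-(s ^ 2 / 8)) := by
    refine intervalIntegral.integral_mono_on (by linarith) (chiL_gint _ _) intervalIntegrable_const ?_
    intro u hu
    apply Real.exp_le_exp.2
    have h4 : u ≤ -(s / 2) := by linarith [hu.2]
    nlinarith
  have h4 : (∫ _u in (-s)..(x - s), Real.exp (-(s ^ 2 / 8))) = x * Real.exp (-(s ^ 2 / 8)) := by
    rw [intervalIntegral.integral_const]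
    simp
  have h5 : x * Real.exp (-(s ^ 2 / 8)) ≤ Real.exp (s ^ 2 / 16) * Real.exp (-(s ^ 2 / 8)) := by
    refine mul_le_mul_of_nonneg_right ?_ (Real.exp_pos _).le
    have h6 : s ^ 2 / 16 + 1 ≤ Real.exp (s ^ 2 / 16) := Real.add_one_le_exp _
    nlinarith [sq_nonneg (s - 4)]
  have h6 : Real.exp (s ^ 2 / 16) * Real.exp (-(s ^ 2 / 8)) = 1 * Real.exp (-(1 / 16) * s ^ 2) := by
    rw [← Real.exp_add, one_mul]
    congr 1
    ring
  linarith

theorem chiL_outer_nonneg (s x : ℝ) (hs : 0 < s) (hx : s ≤ x) :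
    chi s x ≤ 1 * Real.exp (-(x - s) ^ 2 / 2) := by
  have hN0 := chiL_den_pos s hs
  have h1 : (∫ t in (-s)..s, Real.exp (-(x - t) ^ 2 / 2)) ≤
      ∫ t in (-s)..s, Real.exp (-(x - s) ^ 2 / 2) * Real.exp (-(s - t) ^ 2 / 2) := by
    refine intervalIntegral.integral_mono_on (by linarith)
      ((by fun_prop : Continuous fun t : ℝ => Real.exp (-(x - t) ^ 2 / 2)).intervalIntegrable _ _)
      ((by fun_prop : Continuous fun t : ℝ => Real.exp (-(x - s) ^ 2 / 2) * Real.exp (-(s - t) ^ 2 / 2)).intervalIntegrable _ _) ?_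
    intro t ht
    rw [← Real.exp_add]
    apply Real.exp_le_exp.2
    have h2 : 0 ≤ (x - s) * (s - t) := mul_nonneg (by linarith) (by linarith [ht.2])
    nlinarith
  rw [intervalIntegral.integral_const_mul] at h1
  have h2 : chi s s ≤ 1 := chiL_le_one s s hs
  unfold chi at h2 ⊢
  rw [div_le_one hN0] at h2
  rw [div_le_iff₀ hN0]
  have h3 : Real.exp (-(x - s) ^ 2 / 2) * (∫ t in (-s)..s, Real.exp (-(s - t) ^ 2 / 2)) ≤
      Real.exp (-(x - s) ^ 2 / 2) * ∫ t in (-s)..s, Real.exp (-t ^ 2 / 2) :=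
    mul_le_mul_of_nonneg_left h2 (Real.exp_pos _).le
  linarith

theorem chiL_tails (s x : ℝ) (hs : 1 ≤ s) :
    (|x| ≤ s / 2 → 1 - chi s x ≤ 1 * Real.exp (-(1 / 16) * s ^ 2)) ∧
      (s ≤ |x| → chi s x ≤ 1 * Real.exp (-(|x| - s) ^ 2 / 2)) := by
  have e : chi s x = chi s |x| := by
    rcases abs_cases x with ⟨h, _⟩ | ⟨h, _⟩
    · rw [h]
    · rw [h, chiL_even]
  rw [e]
  exact ⟨fun h => chiL_inner_nonneg s |x| hs (abs_nonneg x) h,
    fun h => chiL_outer_nonneg s |x| (by linarith) h⟩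


theorem chiL_hasDeriv (s : ℝ) (z0 : ℂ) :
    HasDerivAt (fun z : ℂ => ∫ t in (-s)..s, Complex.exp (-(z - t) ^ 2 / 2))
      (∫ t in (-s)..s, (-(z0 - t)) * Complex.exp (-(z0 - t) ^ 2 / 2)) z0 := by
  set R : ℝ := ‖z0‖ + 1 + |s| with hR
  have key := intervalIntegral.hasDerivAt_integral_of_dominated_loc_of_deriv_le
    (𝕜 := ℂ) (μ := volume) (a := -s) (b := s) (x₀ := z0) (s := Metric.ball z0 1)
    (F := fun (z : ℂ) (t : ℝ) => Complex.exp (-(z - t) ^ 2 / 2))
    (F' := fun (z : ℂ) (t : ℝ) => (-(z - t)) * Complex.exp (-(z - t) ^ 2 / 2))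
    (bound := fun _ => R * Real.exp (R ^ 2 / 2))
    (Metric.ball_mem_nhds z0 one_pos) ?_ ?_ ?_ ?_ ?_ ?_
  · exact key.2
  · refine Filter.Eventually.of_forall fun z => ?_
    exact (by fun_prop : Continuous fun t : ℝ => Complex.exp (-(z - t) ^ 2 / 2)).aestronglyMeasurable
  · exact (by fun_prop : Continuous fun t : ℝ => Complex.exp (-(z0 - t) ^ 2 / 2)).intervalIntegrable _ _
  · exact (by fun_prop : Continuous fun t : ℝ => (-(z0 - t)) * Complex.exp (-(z0 - t) ^ 2 / 2)).aestronglyMeasurable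
  · refine Filter.Eventually.of_forall fun t ht z hz => ?_
    have ht' : |t| ≤ |s| := by
      rcases le_total 0 s with h | h
      · rw [Set.uIoc_of_le (by linarith)] at ht
        rw [abs_of_nonneg h]
        exact abs_le.2 ⟨ht.1.le, ht.2⟩
      · rw [Set.uIoc_of_ge (by linarith)] at ht
        rw [abs_of_nonpos h]
        exact abs_le.2 ⟨by linarith [ht.1.le], ht.2⟩
    have hz' : ‖z‖ ≤ ‖z0‖ + 1 := by
      have h1 : ‖z - z0‖ < 1 := by simpa [dist_eq_norm] using hz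
      have h2 : ‖z‖ ≤ ‖z - z0‖ + ‖z0‖ := by
        simpa using norm_add_le (z - z0) z0
      linarith
    have hzt : ‖z - t‖ ≤ R := by
      have h1 : ‖z - t‖ ≤ ‖z‖ + ‖(t : ℂ)‖ := norm_sub_le _ _
      have h2 : ‖(t : ℂ)‖ = |t| := by simp
      rw [h2] at h1
      linarith
    have hR0 : 0 ≤ R := le_trans (norm_nonneg _) hzt
    rw [norm_mul, norm_neg]
    refine mul_le_mul hzt ?_ (norm_nonneg _) hR0
    refine le_trans (Complex.norm_exp_le_exp_norm _) (Real.exp_le_exp.2 ?_)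
    rw [norm_div, norm_neg, norm_pow]
    have : ‖(2 : ℂ)‖ = 2 := by simp
    rw [this]
    have : ‖z - t‖ ^ 2 ≤ R ^ 2 := pow_le_pow_left₀ (norm_nonneg _) hzt 2
    linarith
  · exact intervalIntegrable_const
  · refine Filter.Eventually.of_forall fun t _ z _ => ?_
    have h1 : HasDerivAt (fun z : ℂ => -(z - t) ^ 2 / 2) (-(z - t)) z := by
      have h0 : HasDerivAt (fun z : ℂ => z - (t : ℂ)) 1 z := (hasDerivAt_id z).sub_const _
      have h2 := ((h0.pow 2).neg).div_const 2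
      have e : (-(z - (t : ℂ))) = -(((2 : ℕ) : ℂ) * (z - ↑t) ^ (2 - 1) * 1) / 2 := by
        push_cast
        ring
      rw [e]
      exact h2
    have := h1.cexp
    rw [mul_comm] at this
    exact this


theorem chiL_differentiable (s : ℝ) : Differentiable ℂ (chiC s) := by
  intro z0
  have h := (chiL_hasDeriv s z0).differentiableAt
  exact h.div_const _

theorem chi_facts (s : ℝ) (hs : 0 < s) :
    (∀ x, 0 < chi s x ∧ chi s x ≤ 1) ∧ chi s 0 = 1 ∧ (∀ x, chi s (-x) = chi s x) ∧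
    Differentiable ℂ (chiC s) ∧ ∀ x : ℝ, chiC s x = chi s x :=
  ⟨fun x => ⟨chiL_pos s x hs, chiL_le_one s x hs⟩, chiL_zero s hs, chiL_even s,
    chiL_differentiable s, chiL_real s⟩

/-- (ent:cutoff-tails) -/
theorem chi_tails : ∃ C c : ℝ, 0 < c ∧ ∀ s : ℝ, 1 ≤ s → ∀ x : ℝ,
    (|x| ≤ s / 2 → 1 - chi s x ≤ C * Real.exp (-c * s ^ 2)) ∧
    (s ≤ |x| → chi s x ≤ C * Real.exp (-(|x| - s) ^ 2 / 2)) :=
  ⟨1, 1 / 16, by norm_num, fun s hs x => chiL_tails s x hs⟩

end

end Claimed.Agent.R285.F4a
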