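import Claimed.Agent.R285.F4a.Tilt

/-!
# ROW 285, F4a: integration over the observations   (architect helper251)   LEAF L-F4a-UNFOLD

The ONE measure-theoretic lemma behind `Pint_one`, `face_tilt_int`, `noisy_reference`: unfolding of the translation copies.
`Zobs b τ y = ∑_{h : V → ℤ} wt(h) exp(-|B(2πh) - y|²/2)`.  Write `h = h' + k 𝟙`, `h'(v₀) = 0`, `k ∈ ℤ` (bijection); `wt` does not see `k`; `B(2π(h' + k𝟙)) = B(2πh') + 2πk𝟙` (`Whole c`).
For `g ≥ 0` measurable with `Per c g`:  `∫_{fund} g(y) ∑_k exp(-|B(2πh') + 2πk𝟙 - y|²/2) dy = ∫_{ℝ^N} g(y) exp(-|B(2πh') - y|²/2) dy`  (the sets `fund + 2πk𝟙` tile `ℝ^N`; `lintegral` + `measure_preserving` translations).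
Everything in `ℝ≥0∞` (Tonelli only).  About 500 lines; may be split: (a) measurability, (b) reindexing of the sum, (c) tiling.
-/

set_option autoImplicit false

namespace Claimed.Agent.R285.F4a

open scoped BigOperators ENNReal NNReal
open MeasureTheory ProbabilityTheory Polynomial
open Claimed.Agent.R285 Claimed.Agent.R285.RG

noncomputable section

variable {G : Geom}

/-- the weight of a height on the full graph -/
def fwt (b : ℝ) (c : Grid G) (τ : Face c → ℤ) (h : (Top.full c).graph.V → ℤ) : ℝ :=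
  (Top.full c).graph.wt b ((Top.full c).econn τ) h

/-- the cell averages of the physical height `2π h` -/
def havg (c : Grid G) (h : (Top.full c).graph.V → ℤ) (i : c.I) : ℝ :=
  avg c (fun x => 2 * Real.pi * (h ⟨x, by simp [Top.full]⟩ : ℝ)) i

/-- the observation rows applied to the physical height -/
def unfB {c : Grid G} (T : Top c) (h : T.graph.V → ℤ) (o : T.law.O) : ℝ :=
  ∑ v, T.law.B o v * (2 * Real.pi * (h v : ℝ))

/-- one term of `Zobs` -/
theorem unf_W {c : Grid G} (T : Top c) (b : ℝ) (τ : Face c → ℤ) (y : c.I → ℝ) (h : T.graph.V → ℤ) :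
    (T.law.sys b).W (T.law.coordA b h + HLaw.Aff.amb (H := T.law) ⟨0, T.econn τ, fun i => y i.1⟩ b)
      = T.graph.wt b (T.econn τ) h * Real.exp (-(∑ o, (unfB T h o - y o.1) ^ 2) / 2) := by
  unfold LSys.W HGraph.wt
  congr 1
  · refine Finset.prod_congr rfl fun e _ => ?_
    show bes b ((h (T.graph.tgt e) - h (T.graph.src e)) +
      (((0 : T.graph.V → ℤ) (T.graph.tgt e) - (0 : T.graph.V → ℤ) (T.graph.src e)) + T.econn τ e)) = _
    simp
  · congr 3
    refine Finset.sum_congr rfl fun o _ => ?_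
    show ((∑ v, T.law.B o v * (2 * Real.pi * (h v : ℝ))) +
      ((∑ v, T.law.B o v * (2 * Real.pi * (((0 : T.graph.V → ℤ) v : ℤ) : ℝ))) + (- y o.1))) ^ 2 = _
    simp [unfB, sub_eq_add_neg]

theorem unf_Zobs {c : Grid G} (T : Top c) (b : ℝ) (τ : Face c → ℤ) (y : c.I → ℝ) :
    T.Zobs b τ y = ∑' h : T.graph.V → ℤ,
      T.graph.wt b (T.econn τ) h * Real.exp (-(∑ o, (unfB T h o - y o.1) ^ 2) / 2) := by
  unfold Top.Zobs HLaw.Z
  rw [← (AddSubgroup.topEquiv (G := T.graph.V → ℤ)).toEquiv.tsum_eq]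
  refine tsum_congr fun h => ?_
  rw [one_mul]
  exact unf_W T b τ y _

theorem unf_wt_nonneg (H : HGraph) (b : ℝ) (hb : 0 < b) (τ : H.E → ℤ) (h : H.V → ℤ) : 0 ≤ H.wt b τ h :=
  Finset.prod_nonneg fun _ _ => bes_nonneg b hb.le _

/-- the rows are the cell averages -/
theorem unf_row {c : Grid G} (T : Top c) (o : T.law.O) (u : G.V → ℝ) :
    ∑ v : T.graph.V, T.law.B o v * u v.1 = avg c u o.1 := by
  classical
  have h1 : ∑ v : T.graph.V, T.law.B o v * u v.1 =
      ∑ v ∈ Finset.univ.filter (fun v : G.V => c.blk v ∈ T.cells),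
        (if c.blk v = o.1 then ((c.sites {o.1}).card : ℝ)⁻¹ else 0) * u v := by
    rw [Finset.sum_subtype (Finset.univ.filter (fun v : G.V => c.blk v ∈ T.cells)) (p := fun v => c.blk v ∈ T.cells)
      (by simp)]
    rfl
  rw [h1]
  show _ = (∑ v ∈ c.sites {o.1}, u v) / ((c.sites {o.1}).card : ℝ)
  rw [div_eq_inv_mul, Finset.mul_sum]
  unfold Grid.sites
  rw [Finset.sum_filter, Finset.sum_filter]
  refine Finset.sum_congr rfl fun v _ => ?_
  by_cases hv : c.blk v = o.1
  · have h2 : c.blk v ∈ T.cells := hv ▸ o.2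
    simp [hv, o.2]
  · simp [hv]

theorem unf_sites_pos {c : Grid G} (hc : Whole c) (i : c.I) : 0 < (c.sites {i}).card := by
  classical
  have h1 := hc.size i.1
  have h2 := hc.size i.2
  have hp := hc.pos
  obtain ⟨a, ha⟩ := Finset.card_pos.1 (h1 ▸ hp)
  obtain ⟨a', ha'⟩ := Finset.card_pos.1 (h2 ▸ hp)
  refine Finset.card_pos.2 ⟨(a, a'), ?_⟩
  simp only [Grid.sites, Finset.mem_filter, Finset.mem_univ, true_and, Finset.mem_singleton] at ha ha' ⊢
  exact Prod.ext ha ha'

theorem unf_avg_add {c : Grid G} (hc : Whole c) (u : G.V → ℝ) (r : ℝ) (i : c.I) :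
    avg c (fun x => u x + r) i = avg c u i + r := by
  have h0 : ((c.sites {i}).card : ℝ) ≠ 0 := by exact_mod_cast (unf_sites_pos hc i).ne'
  show (∑ v ∈ c.sites {i}, (u v + r)) / ((c.sites {i}).card : ℝ) = (∑ v ∈ c.sites {i}, u v) / ((c.sites {i}).card : ℝ) + r
  rw [Finset.sum_add_distrib, Finset.sum_const, nsmul_eq_mul]
  field_simp

theorem unfB_add {c : Grid G} (hc : Whole c) (T : Top c) (h : T.graph.V → ℤ) (k : ℤ) (o : T.law.O) :
    unfB T (fun v => h v + k) o = unfB T h o + 2 * Real.pi * k := by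
  have h1 : ∑ v : T.graph.V, T.law.B o v * (1 : ℝ) = 1 := by
    have := unf_row T o (fun _ => (1 : ℝ))
    rw [this]
    have h2 := unf_avg_add hc (fun _ => (0 : ℝ)) 1 o.1
    simp only [zero_add] at h2
    rw [h2]
    show (∑ v ∈ c.sites {o.1}, (0 : ℝ)) / _ + 1 = 1
    simp
  unfold unfB
  have : ∀ v : T.graph.V, T.law.B o v * (2 * Real.pi * ((h v + k : ℤ) : ℝ)) =
      T.law.B o v * (2 * Real.pi * (h v : ℝ)) + (T.law.B o v * 1) * (2 * Real.pi * k) := fun v => by
    push_cast; ring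
  rw [Finset.sum_congr rfl fun v _ => this v, Finset.sum_add_distrib, ← Finset.sum_mul, h1, one_mul]

theorem unf_wt_add (H : HGraph) (b : ℝ) (τ : H.E → ℤ) (h : H.V → ℤ) (k : ℤ) :
    H.wt b τ (fun v => h v + k) = H.wt b τ h := by
  unfold HGraph.wt
  refine Finset.prod_congr rfl fun e _ => ?_
  congr 1
  ring

theorem unf_summable {c : Grid G} (hc : Whole c) (T : Top c) (b : ℝ) (hb : 0 < b) (τ : Face c → ℤ) (y : c.I → ℝ) :
    Summable fun h : T.graph.V → ℤ =>
      T.graph.wt b (T.econn τ) h * Real.exp (-(∑ o, (unfB T h o - y o.1) ^ 2) / 2) := by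
  have h1 := lsys_summable (T.law.sys b) (law_ok hc T b hb)
    (HLaw.Aff.amb (H := T.law) ⟨0, T.econn τ, fun i => y i.1⟩ b) 0
  have h2 := (Equiv.ofBijective _ (Rsd.coordL_bijective T.law (law_proper hc T) b)).summable_iff.2 h1
  have h3 := (AddSubgroup.topEquiv (G := T.graph.V → ℤ)).symm.toEquiv.summable_iff.2 h2
  refine h3.congr fun h => ?_
  rw [← unf_W T b τ y h]
  show Real.exp ((0 : (T.law.sys b).L →+ ℝ) _) * _ = _
  rw [AddMonoidHom.zero_apply, Real.exp_zero, one_mul]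
  rfl

theorem unf_full_sum (c : Grid G) (h : (Top.full c).graph.V → ℤ) (y : c.I → ℝ) :
    ∑ o, (unfB (Top.full c) h o - y o.1) ^ 2 = ∑ i, (havg c h i - y i) ^ 2 := by
  classical
  have h1 := Finset.sum_subtype (F := (Top.full c).law.fO) Finset.univ (p := fun i => i ∈ (Top.full c).cells)
    (by simp [Top.full]) (fun i => (havg c h i - y i) ^ 2)
  refine Eq.trans ?_ h1.symm
  refine Finset.sum_congr rfl fun o _ => ?_
  congr 2
  exact unf_row (Top.full c) o (fun x => 2 * Real.pi * (h ⟨x, by simp [Top.full]⟩ : ℝ))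

/-- `Zobs` in explicit form -/
theorem Zobs_full_eq (b : ℝ) (c : Grid G) (τ : Face c → ℤ) (y : c.I → ℝ) :
    (Top.full c).Zobs b τ y = ∑' h : (Top.full c).graph.V → ℤ, fwt b c τ h * Real.exp (-(∑ i, (havg c h i - y i) ^ 2) / 2) := by
  rw [unf_Zobs]
  refine tsum_congr fun h => ?_
  rw [unf_full_sum]
  rfl

theorem unf_full_summable {c : Grid G} (hc : Whole c) (b : ℝ) (hb : 0 < b) (τ : Face c → ℤ) (y : c.I → ℝ) :
    Summable fun h : (Top.full c).graph.V → ℤ => fwt b c τ h * Real.exp (-(∑ i, (havg c h i - y i) ^ 2) / 2) := by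
  refine (unf_summable hc (Top.full c) b hb τ y).congr fun h => ?_
  rw [unf_full_sum]
  rfl

theorem unf_havg_add {c : Grid G} (hc : Whole c) (h : (Top.full c).graph.V → ℤ) (k : ℤ) (i : c.I) :
    havg c (fun v => h v + k) i = havg c h i + 2 * Real.pi * k := by
  unfold havg
  rw [← unf_avg_add hc]
  congr 1
  funext x
  push_cast
  ring

theorem Zobs_measurable {c : Grid G} (T : Top c) (b : ℝ) (hb : 0 < b) (τ : Face c → ℤ) : Measurable (T.Zobs b τ) := by
  have h1 : T.Zobs b τ = fun y => (∑' h : T.graph.V → ℤ, ENNReal.ofReal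
      (T.graph.wt b (T.econn τ) h * Real.exp (-(∑ o, (unfB T h o - y o.1) ^ 2) / 2))).toReal := by
    funext y
    rw [unf_Zobs, ENNReal.tsum_toReal_eq (fun _ => ENNReal.ofReal_ne_top)]
    refine tsum_congr fun h => ?_
    rw [ENNReal.toReal_ofReal (mul_nonneg (unf_wt_nonneg _ b hb _ _) (Real.exp_pos _).le)]
  rw [h1]
  refine (Measurable.tsum fun h => ?_).ennreal_toReal
  refine ENNReal.measurable_ofReal.comp (measurable_const.mul (Real.measurable_exp.comp ?_))
  refine ((Finset.measurable_sum _ fun o _ => ?_).neg).div_const _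
  exact (measurable_const.sub (measurable_pi_apply o.1)).pow_const 2

theorem Zobs_per (b : ℝ) {c : Grid G} (hc : Whole c) (T : Top c) (τ : Face c → ℤ) : Per c (T.Zobs b τ) := by
  intro y
  rw [unf_Zobs, unf_Zobs, ← (Equiv.addRight (fun _ => (1 : ℤ)) : (T.graph.V → ℤ) ≃ (T.graph.V → ℤ)).tsum_eq]
  refine tsum_congr fun h => ?_
  show T.graph.wt b (T.econn τ) (fun v => h v + 1) *
    Real.exp (-(∑ o, (unfB T (fun v => h v + 1) o - (y o.1 + 2 * Real.pi)) ^ 2) / 2) = _
  rw [unf_wt_add]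
  congr 4
  refine Finset.sum_congr rfl fun o _ => ?_
  rw [unfB_add hc]
  congr 1
  push_cast
  ring

theorem unf_chi_measurable (s : ℝ) : Measurable (chi s) := by
  have h : Continuous fun z : ℝ => ∫ t in (-s)..s, Real.exp (-(z - t) ^ 2 / 2) :=
    intervalIntegral.continuous_parametric_intervalIntegral_of_continuous' (by
      show Continuous fun p : ℝ × ℝ => Real.exp (-(p.1 - p.2) ^ 2 / 2)
      fun_prop) _ _
  exact (h.measurable).div_const _

theorem Zhat_measurable {c : Grid G} (T : Top c) (b : ℝ) (hb : 0 < b) (τ : Face c → ℤ) : Measurable (T.Zhat b τ) := by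
  refine (Zobs_measurable T b hb τ).mul (Finset.measurable_prod _ fun f _ => ?_)
  refine (unf_chi_measurable _).comp ?_
  show Measurable fun y : c.I → ℝ => y (fnb c f) - y f.1 + 2 * Real.pi * τ f
  exact ((measurable_pi_apply (fnb c f)).sub (measurable_pi_apply f.1)).add_const _

theorem Zhat_per (b : ℝ) {c : Grid G} (hc : Whole c) (T : Top c) (τ : Face c → ℤ) : Per c (T.Zhat b τ) := by
  intro y
  unfold Top.Zhat
  rw [Zobs_per b hc T τ y]
  congr 1
  refine Finset.prod_congr rfl fun f _ => ?_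
  congr 1
  unfold wf
  ring

theorem unf_fund_meas (c : Grid G) (i0 : c.I) : MeasurableSet (fund c i0) :=
  measurable_pi_apply i0 measurableSet_Ico

/-- periodic functions are invariant under all integer translations -/
theorem unf_per_int {c : Grid G} {α : Type} (g : (c.I → ℝ) → α) (hper : ∀ y, g (fun i => y i + 2 * Real.pi) = g y)
    (k : ℤ) (y : c.I → ℝ) : g (fun i => y i + 2 * Real.pi * k) = g y := by
  induction k using Int.induction_on with
  | zero => simp
  | succ n ih =>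
    rw [← ih, ← hper (fun i => y i + 2 * Real.pi * (n : ℤ))]
    congr 1
    funext i
    push_cast
    ring
  | pred n ih =>
    rw [← ih, ← hper (fun i => y i + 2 * Real.pi * ((-(n : ℤ) - 1 : ℤ) : ℝ))]
    congr 1
    funext i
    push_cast
    ring

/-- exactly one translate of a point lies in the fundamental domain -/
theorem unf_tile_pt (c : Grid G) (i0 : c.I) (y : c.I → ℝ) :
    ∑' k : ℤ, (fund c i0).indicator (fun _ => (1 : ℝ≥0∞)) (fun i => y i + 2 * Real.pi * k) = 1 := by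
  have hpi : (0 : ℝ) < 2 * Real.pi := by positivity
  have key : ∀ k : ℤ, (fun i => y i + 2 * Real.pi * (k : ℝ)) ∈ fund c i0 ↔ k = -⌊y i0 / (2 * Real.pi)⌋ := by
    intro k
    have h1 : (fun i => y i + 2 * Real.pi * (k : ℝ)) ∈ fund c i0 ↔ y i0 / (2 * Real.pi) + k ∈ Set.Ico (0 : ℝ) 1 := by
      show y i0 + 2 * Real.pi * (k : ℝ) ∈ Set.Ico 0 (2 * Real.pi) ↔ _
      have e : y i0 + 2 * Real.pi * (k : ℝ) = (y i0 / (2 * Real.pi) + k) * (2 * Real.pi) := by
        field_simp
      rw [e, Set.mem_Ico, Set.mem_Ico]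
      constructor
      · rintro ⟨a1, a2⟩
        exact ⟨by by_contra hn; push Not at hn; nlinarith, by by_contra hn; push Not at hn; nlinarith⟩
      · rintro ⟨a1, a2⟩
        exact ⟨by positivity, by nlinarith⟩
    rw [h1, ← Int.floor_eq_zero_iff, Int.floor_add_intCast]
    constructor <;> intro h <;> omega
  rw [tsum_eq_single (-⌊y i0 / (2 * Real.pi)⌋)]
  · rw [Set.indicator_of_mem ((key _).2 rfl)]
  · intro k hk
    rw [Set.indicator_of_notMem fun hm => hk ((key k).1 hm)]

/-- **tiling** -/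
theorem unf_tile (c : Grid G) (i0 : c.I) (g Φ : (c.I → ℝ) → ℝ≥0∞) (hg : Measurable g) (hΦ : Measurable Φ)
    (hper : ∀ y, g (fun i => y i + 2 * Real.pi) = g y) :
    ∑' k : ℤ, ∫⁻ y in fund c i0, g y * Φ (fun i => y i - 2 * Real.pi * k) = ∫⁻ y, g y * Φ y := by
  have hshift : ∀ k : ℤ, Measurable fun y : c.I → ℝ => fun i => y i + 2 * Real.pi * (k : ℝ) := fun k =>
    measurable_pi_lambda _ fun i => (measurable_pi_apply i).add_const _
  have h1 : ∀ k : ℤ, ∫⁻ y in fund c i0, g y * Φ (fun i => y i - 2 * Real.pi * k) =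
      ∫⁻ y, (fund c i0).indicator (fun _ => (1 : ℝ≥0∞)) (fun i => y i + 2 * Real.pi * k) * (g y * Φ y) := by
    intro k
    rw [← lintegral_indicator (unf_fund_meas c i0),
      ← lintegral_add_right_eq_self _ (fun _ : c.I => 2 * Real.pi * (k : ℝ))]
    refine lintegral_congr fun y => ?_
    have e1 : (y + fun _ : c.I => 2 * Real.pi * (k : ℝ)) = fun i => y i + 2 * Real.pi * (k : ℝ) := rfl
    rw [e1]
    by_cases hm : (fun i => y i + 2 * Real.pi * (k : ℝ)) ∈ fund c i0
    · rw [Set.indicator_of_mem hm, Set.indicator_of_mem hm, one_mul, unf_per_int g hper]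
      congr 2
      funext i
      ring
    · rw [Set.indicator_of_notMem hm, Set.indicator_of_notMem hm, zero_mul]
  simp only [h1]
  rw [← lintegral_tsum fun k => ?_]
  · refine lintegral_congr fun y => ?_
    rw [ENNReal.tsum_mul_right, unf_tile_pt, one_mul]
  · exact (((measurable_const.indicator (unf_fund_meas c i0)).comp (hshift k)).mul (hg.mul hΦ)).aemeasurable

/-- splitting off the value at `v0` -/
def unfE {V : Type} (v0 : V) : {h : V → ℤ // h v0 = 0} × ℤ ≃ (V → ℤ) where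
  toFun p := fun v => p.1.1 v + p.2
  invFun h := (⟨fun v => h v - h v0, sub_self _⟩, h v0)
  left_inv p := by
    refine Prod.ext (Subtype.ext ?_) ?_
    · funext v
      show p.1.1 v + p.2 - (p.1.1 v0 + p.2) = p.1.1 v
      rw [p.1.2]; ring
    · show p.1.1 v0 + p.2 = p.2
      rw [p.1.2, zero_add]
  right_inv h := by
    funext v
    show h v - h v0 + h v0 = h v
    ring

theorem unf_eqns_cite : True := by
  have := @unfE.eq_1
  have := @unfB.eq_1
  have := @fwt.eq_1
  have := @havg.eq_1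
  trivial

theorem unf_phi_meas {N : Type} [Fintype N] (m : N → ℝ) :
    Measurable fun y : N → ℝ => ENNReal.ofReal (Real.exp (-(∑ i, (m i - y i) ^ 2) / 2)) := by
  refine ENNReal.measurable_ofReal.comp (Real.measurable_exp.comp ?_)
  refine ((Finset.measurable_sum _ fun i _ => ?_).neg).div_const _
  exact (measurable_const.sub (measurable_pi_apply i)).pow_const 2

/-- **unfolding** -/
theorem lintegral_fund_Zobs (b : ℝ) (hb : 0 < b) {c : Grid G} (hc : Whole c) (i0 : c.I) (v0 : (Top.full c).graph.V) (τ : Face c → ℤ)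
    (g : (c.I → ℝ) → ℝ≥0∞) (hg : Measurable g) (hper : ∀ y, g (fun i => y i + 2 * Real.pi) = g y) :
    ∫⁻ y in fund c i0, g y * ENNReal.ofReal ((Top.full c).Zobs b τ y)
      = ∑' h : {h : (Top.full c).graph.V → ℤ // h v0 = 0}, ENNReal.ofReal (fwt b c τ h.1) *
          ∫⁻ y, g y * ENNReal.ofReal (Real.exp (-(∑ i, (havg c h.1 i - y i) ^ 2) / 2)) := by
  have hw : ∀ h, 0 ≤ fwt b c τ h := fun h => unf_wt_nonneg _ b hb _ _
  have h1 : ∀ y, ENNReal.ofReal ((Top.full c).Zobs b τ y) =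
      ∑' h : {h : (Top.full c).graph.V → ℤ // h v0 = 0}, ∑' k : ℤ, ENNReal.ofReal (fwt b c τ h.1) *
        ENNReal.ofReal (Real.exp (-(∑ i, (havg c h.1 i - (y i - 2 * Real.pi * k)) ^ 2) / 2)) := by
    intro y
    rw [Zobs_full_eq, ENNReal.ofReal_tsum_of_nonneg (fun h => mul_nonneg (hw h) (Real.exp_pos _).le)
      (unf_full_summable hc b hb τ y), ← (unfE v0).tsum_eq, ENNReal.tsum_prod']
    refine tsum_congr fun h => tsum_congr fun k => ?_
    show ENNReal.ofReal (fwt b c τ (fun v => h.1 v + k) *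
      Real.exp (-(∑ i, (havg c (fun v => h.1 v + k) i - y i) ^ 2) / 2)) = _
    rw [ENNReal.ofReal_mul (hw _)]
    congr 1
    · congr 1
      exact unf_wt_add _ b _ h.1 k
    · congr 4
      refine Finset.sum_congr rfl fun i _ => ?_
      rw [unf_havg_add hc]
      ring
  simp only [h1]
  have hm : ∀ (h : {h : (Top.full c).graph.V → ℤ // h v0 = 0}) (k : ℤ), Measurable fun y : c.I → ℝ =>
      ENNReal.ofReal (Real.exp (-(∑ i, (havg c h.1 i - (y i - 2 * Real.pi * k)) ^ 2) / 2)) := fun h k =>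
    (unf_phi_meas (havg c h.1)).comp (measurable_pi_lambda _ fun i => (measurable_pi_apply i).sub_const _)
  have h2 : ∀ y, g y * ∑' h : {h : (Top.full c).graph.V → ℤ // h v0 = 0}, ∑' k : ℤ, ENNReal.ofReal (fwt b c τ h.1) *
        ENNReal.ofReal (Real.exp (-(∑ i, (havg c h.1 i - (y i - 2 * Real.pi * k)) ^ 2) / 2)) =
      ∑' h : {h : (Top.full c).graph.V → ℤ // h v0 = 0}, ∑' k : ℤ, ENNReal.ofReal (fwt b c τ h.1) *
        (g y * ENNReal.ofReal (Real.exp (-(∑ i, (havg c h.1 i - (y i - 2 * Real.pi * k)) ^ 2) / 2))) := by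
    intro y
    rw [← ENNReal.tsum_mul_left]
    refine tsum_congr fun h => ?_
    rw [← ENNReal.tsum_mul_left]
    refine tsum_congr fun k => ?_
    ring
  simp only [h2]
  have hm2 : ∀ (h : {h : (Top.full c).graph.V → ℤ // h v0 = 0}) (k : ℤ), Measurable fun y : c.I → ℝ =>
      g y * ENNReal.ofReal (Real.exp (-(∑ i, (havg c h.1 i - (y i - 2 * Real.pi * k)) ^ 2) / 2)) := fun h k =>
    hg.mul (hm h k)
  have hm3 : ∀ (h : {h : (Top.full c).graph.V → ℤ // h v0 = 0}) (k : ℤ), Measurable fun y : c.I → ℝ =>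
      ENNReal.ofReal (fwt b c τ h.1) *
        (g y * ENNReal.ofReal (Real.exp (-(∑ i, (havg c h.1 i - (y i - 2 * Real.pi * k)) ^ 2) / 2))) := fun h k =>
    measurable_const.mul (hm2 h k)
  have hm4 : ∀ (h : {h : (Top.full c).graph.V → ℤ // h v0 = 0}), Measurable fun y : c.I → ℝ =>
      ∑' k : ℤ, ENNReal.ofReal (fwt b c τ h.1) *
        (g y * ENNReal.ofReal (Real.exp (-(∑ i, (havg c h.1 i - (y i - 2 * Real.pi * k)) ^ 2) / 2))) := fun h =>
    Measurable.tsum fun k => hm3 h k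
  rw [lintegral_tsum fun h => (hm4 h).aemeasurable]
  refine tsum_congr fun h => ?_
  rw [lintegral_tsum fun k => (hm3 h k).aemeasurable]
  simp only [lintegral_const_mul _ (hm2 h _)]
  rw [ENNReal.tsum_mul_left]
  congr 1
  exact unf_tile c i0 g _ hg (unf_phi_meas (havg c h.1)) hper

theorem unf_gauss1 (m r : ℝ) :
    Integrable (fun t : ℝ => Real.exp (r * t) * Real.exp (-(m - t) ^ 2 / 2)) ∧
      ∫ t : ℝ, Real.exp (r * t) * Real.exp (-(m - t) ^ 2 / 2) = Real.sqrt (2 * Real.pi) * Real.exp (r * m + r ^ 2 / 2) := by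
  have e : (fun t : ℝ => Real.exp (r * t) * Real.exp (-(m - t) ^ 2 / 2)) =
      fun t => Real.exp (-(1 / 2) * (t - (m + r)) ^ 2) * Real.exp (r * m + r ^ 2 / 2) := by
    funext t
    rw [← Real.exp_add, ← Real.exp_add]
    congr 1
    ring
  rw [e]
  constructor
  · exact ((integrable_exp_neg_mul_sq (by norm_num : (0 : ℝ) < 1 / 2)).comp_sub_right (m + r)).mul_const _
  · rw [integral_mul_const, integral_sub_right_eq_self (fun t : ℝ => Real.exp (-(1 / 2) * t ^ 2)) (m + r),
      integral_gaussian]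
    congr 2
    ring

/-- the Gaussian integral with a linear tilt, in `ℝ^N` -/
theorem lintegral_gauss_tilt {N : Type} [Fintype N] (m r : N → ℝ) :
    ∫⁻ y : N → ℝ, ENNReal.ofReal (Real.exp (∑ i, r i * y i) * Real.exp (-(∑ i, (m i - y i) ^ 2) / 2))
      = ENNReal.ofReal ((2 * Real.pi) ^ ((Fintype.card N : ℝ) / 2) * Real.exp (∑ i, r i * m i + (∑ i, r i ^ 2) / 2)) := by
  have e : (fun y : N → ℝ => Real.exp (∑ i, r i * y i) * Real.exp (-(∑ i, (m i - y i) ^ 2) / 2)) =
      fun y => ∏ i, (Real.exp (r i * y i) * Real.exp (-(m i - y i) ^ 2 / 2)) := by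
    funext y
    rw [Finset.prod_mul_distrib, ← Real.exp_sum, ← Real.exp_sum]
    congr 2
    rw [← Finset.sum_neg_distrib, Finset.sum_div]
  have hint : Integrable (fun y : N → ℝ => ∏ i, (Real.exp (r i * y i) * Real.exp (-(m i - y i) ^ 2 / 2))) :=
    Integrable.fintype_prod (f := fun i t => Real.exp (r i * t) * Real.exp (-(m i - t) ^ 2 / 2))
      (μ := fun _ => volume) fun i => (unf_gauss1 (m i) (r i)).1
  have e' : ∀ y : N → ℝ, Real.exp (∑ i, r i * y i) * Real.exp (-(∑ i, (m i - y i) ^ 2) / 2) =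
      ∏ i, (Real.exp (r i * y i) * Real.exp (-(m i - y i) ^ 2 / 2)) := fun y => congrFun e y
  simp only [e']
  rw [← ofReal_integral_eq_lintegral_ofReal hint (Filter.Eventually.of_forall fun y =>
    Finset.prod_nonneg fun i _ => mul_nonneg (Real.exp_pos _).le (Real.exp_pos _).le)]
  congr 1
  rw [integral_fintype_prod_volume_eq_prod (fun i t => Real.exp (r i * t) * Real.exp (-(m i - t) ^ 2 / 2))]
  simp only [(unf_gauss1 _ _).2]
  rw [Finset.prod_mul_distrib, Finset.prod_const, ← Real.exp_sum, Finset.sum_add_distrib, Finset.sum_div]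
  congr 1
  rw [Finset.card_univ, Real.sqrt_eq_rpow, ← Real.rpow_natCast, ← Real.rpow_mul (by positivity)]
  congr 1
  ring

/-- `∫_{𝒴_G} Z_G^τ (y) dy = (2π)^{N_c/2} Z_G^τ`, bare sum modulo one common translation -/
theorem Pint_one (b : ℝ) (hb : 0 < b) {c : Grid G} (hc : Whole c) (i0 : c.I) (v0 : (Top.full c).graph.V) (τ : Face c → ℤ) :
    Pint b c i0 τ (fun _ => 1)
      = (2 * Real.pi) ^ ((Fintype.card c.I : ℝ) / 2) * (Top.full c).graph.Zs b {v0} ((Top.full c).econn τ) 0 fun _ => 1 := by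
  have hw : ∀ h, 0 ≤ fwt b c τ h := fun h => unf_wt_nonneg _ b hb _ _
  have hK : (0 : ℝ) ≤ (2 * Real.pi) ^ ((Fintype.card c.I : ℝ) / 2) := by positivity
  have e0 : Pint b c i0 τ (fun _ => 1) = ∫ y in fund c i0, (Top.full c).Zobs b τ y := by
    unfold Pint
    simp only [one_mul]
  rw [e0, integral_eq_lintegral_of_nonneg_ae
    (Filter.Eventually.of_forall fun y => (Zobs_pos hc _ b hb τ y).le)
    (Zobs_measurable _ b hb τ).aestronglyMeasurable]
  have h1 := lintegral_fund_Zobs b hb hc i0 v0 τ (fun _ => 1) measurable_const (fun _ => rfl)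
  simp only [one_mul] at h1
  rw [h1]
  have h2 : ∀ m : c.I → ℝ, ∫⁻ y : c.I → ℝ, ENNReal.ofReal (Real.exp (-(∑ i, (m i - y i) ^ 2) / 2)) =
      ENNReal.ofReal ((2 * Real.pi) ^ ((Fintype.card c.I : ℝ) / 2)) := by
    intro m
    have := lintegral_gauss_tilt m (fun _ => (0 : ℝ))
    simpa using this
  simp only [h2]
  rw [ENNReal.tsum_mul_right, ENNReal.toReal_mul, ENNReal.toReal_ofReal hK, mul_comm,
    ENNReal.tsum_toReal_eq fun _ => ENNReal.ofReal_ne_top]
  congr 1
  unfold HGraph.Zs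
  refine Eq.trans ?_ ((Equiv.subtypeEquivRight (p := fun h : (Top.full c).graph.V → ℤ => h v0 = 0)
    (q := fun h => ∀ v ∈ ({v0} : Set (Top.full c).graph.V), h v = 0) (fun h => by simp)).tsum_eq
    (fun h : (Top.full c).graph.Conf {v0} => ((fun _ => (1 : ℝ)) fun v => 2 * Real.pi * (h.1 v : ℝ)) *
      Real.exp (-((0 : ((Top.full c).graph.V → ℝ) → ℝ) fun v => 2 * Real.pi * (h.1 v : ℝ)) / 2) *
        (Top.full c).graph.wt b ((Top.full c).econn τ) h.1))
  refine tsum_congr fun h => ?_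
  rw [ENNReal.toReal_ofReal (hw _)]
  show fwt b c τ h.1 = 1 * Real.exp (-(0 : ℝ) / 2) * (Top.full c).graph.wt b ((Top.full c).econn τ) h.1
  simp [fwt]

end

end Claimed.Agent.R285.F4a
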