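import Claimed.Agent.R285.F4a.Flow
import Claimed.Agent.R285.F4a.EnB
import Claimed.Agent.R285.Base.Height

/-!
# ROW 285, F4a: the face tilt (ent:face-tilt)   (architect helper251)   LEAF L-F4a-TILT   (PROVED, helper31)

NO noise coordinates, NO chain subdivision.  `S' = T.law.sys b` (bonds + one Gaussian coordinate per present cell), `x = B(2πh) - y`.
1. `law_proper`, `law_ok`: a height with `∇h = 0` on the retained bonds and zero cell averages vanishes (every cell is connected by its own bonds).  So `Zobs = S'.w (amb)` (`HLaw.Z_eq_w`).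
2. complete the square: `exp(-|x|²/2) = exp(-|x + r|²/2) exp(r·x + |r|²/2)`, `r_o = ∑_f t_f (1[o = fnb c f] - 1[o = f.1])`.  By `cell_flow`: `r·x = 2π ∑_e q_e (∇h + τ)_e - ∑_f t_f w_f`, `q = ∑_f t_f Φ_f`.  Hence
   `exp(∑ t_f w_f) Zobs b τ y = exp(|r|²/2 + 2π q·τ) S'.wT α'' Y'`, `α'' = ⟨0, τ, y - r⟩.amb`, `Y' z = 2π ∑_e q_e z_e`.
3. `lsys_ratio_mono` with the FREE system `S` (`E` = the bonds, `O = Empty`, `L = ⊤`): `S'.wT α'' Y' / S'.w 0 ≤ S.wT (τ) Y / S.w 0 = exp(-2π q·τ) ∏_e exp(b (cosh(2π q_e) - 1))`  (`bes_mgf`; product of one-dimensional sums).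
4. `|q_e| ≤ C k₀`, `cosh x - 1 ≤ C_K x²` on `|x| ≤ K`, `∑ q_e² ≤ C ∑ t_f²`, `|r|² ≤ 8 ∑ t_f²`.
About 600 lines; may be split (1 | 2 | 3 | 4) among provers, tell helper251.
-/

set_option autoImplicit false

namespace Claimed.Agent.R285.F4a

open scoped BigOperators ENNReal NNReal
open MeasureTheory ProbabilityTheory Polynomial
open Claimed.Agent.R285 Claimed.Agent.R285.RG

noncomputable section

variable {G : Geom}

open Classical in
/-- extension by zero of a function on the retained sites -/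
def tlExt {c : Grid G} (T : Top c) (g : T.graph.V → ℝ) (v : G.V) : ℝ :=
  if h : c.blk v ∈ T.cells then g ⟨v, h⟩ else 0

theorem tlExt_coe {c : Grid G} (T : Top c) (g : T.graph.V → ℝ) (v : T.graph.V) : tlExt T g v.1 = g v := by
  unfold tlExt
  rw [dif_pos v.2]
  rfl

theorem tl_step {c : Grid G} (T : Top c) (g : T.graph.V → ℝ)
    (h1 : ∀ e, g (T.graph.tgt e) = g (T.graph.src e)) (v : G.V) (hv : c.blk v ∈ T.cells) (d : Bool)
    (hne : stp v d ≠ v) (hb : c.blk (stp v d) = c.blk v) : tlExt T g (stp v d) = tlExt T g v := by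
  have hv' : c.blk (stp v d) ∈ T.cells := hb ▸ hv
  have := h1 ⟨(v, d), ⟨hne, hv, hv', Or.inl hb⟩⟩
  unfold tlExt
  rw [dif_pos hv, dif_pos hv']
  exact this

theorem tl_row {c : Grid G} (hc : Whole c) (T : Top c) (g : T.graph.V → ℝ)
    (h1 : ∀ e, g (T.graph.tgt e) = g (T.graph.src e)) (k : ℕ) : ∀ (i : Fin G.M) (h : (i : ℕ) + k < G.M),
    c.blk1 ⟨i + k, h⟩ = c.blk1 i → ∀ y : Fin G.M, c.blk (i, y) ∈ T.cells →
      tlExt T g (⟨i + k, h⟩, y) = tlExt T g (i, y) := by
  induction k with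
  | zero => intro i h _ y _; rfl
  | succ k ih =>
    intro i h hb y hy
    have hk : (i : ℕ) + k < G.M := by omega
    have hb1 : c.blk1 ⟨i + k, hk⟩ = c.blk1 i := by
      apply le_antisymm
      · rw [← hb]
        exact hc.mono (Fin.le_def.2 (by simp))
      · exact hc.mono (Fin.le_def.2 (by simp))
    rw [← ih i hk hb1 y hy]
    have hst : stp ((⟨i + k, hk⟩ : Fin G.M), y) true = ((⟨i + (k + 1), h⟩ : Fin G.M), y) := by
      rw [stp_true]
      congr 1
      apply Fin.ext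
      have := enb_fold_succ (⟨i + k, hk⟩ : Fin G.M) (by simpa using (by omega : (i : ℕ) + k + 1 < G.M))
      simp only at this
      rw [this]
      simp only
      omega
    rw [← hst]
    apply tl_step T g h1
    · unfold Grid.blk at hy ⊢
      simp only at hy ⊢
      rw [hb1]; exact hy
    · rw [hst]
      intro h'
      have := congrArg (fun v : G.V => (v.1 : ℕ)) h'
      simp at this
    · rw [hst]
      unfold Grid.blk
      simp only
      rw [hb, hb1]

theorem tl_col {c : Grid G} (hc : Whole c) (T : Top c) (g : T.graph.V → ℝ)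
    (h1 : ∀ e, g (T.graph.tgt e) = g (T.graph.src e)) (k : ℕ) : ∀ (i : Fin G.M) (h : (i : ℕ) + k < G.M),
    c.blk1 ⟨i + k, h⟩ = c.blk1 i → ∀ x : Fin G.M, c.blk (x, i) ∈ T.cells →
      tlExt T g (x, ⟨i + k, h⟩) = tlExt T g (x, i) := by
  induction k with
  | zero => intro i h _ y _; rfl
  | succ k ih =>
    intro i h hb x hx
    have hk : (i : ℕ) + k < G.M := by omega
    have hb1 : c.blk1 ⟨i + k, hk⟩ = c.blk1 i := by
      apply le_antisymm
      · rw [← hb]
        exact hc.mono (Fin.le_def.2 (by simp))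
      · exact hc.mono (Fin.le_def.2 (by simp))
    rw [← ih i hk hb1 x hx]
    have hst : stp (x, (⟨i + k, hk⟩ : Fin G.M)) false = (x, (⟨i + (k + 1), h⟩ : Fin G.M)) := by
      rw [stp_false]
      congr 1
      apply Fin.ext
      have := enb_fold_succ (⟨i + k, hk⟩ : Fin G.M) (by simpa using (by omega : (i : ℕ) + k + 1 < G.M))
      simp only at this
      rw [this]
      simp only
      omega
    rw [← hst]
    apply tl_step T g h1
    · unfold Grid.blk at hx ⊢
      simp only at hx ⊢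
      rw [hb1]; exact hx
    · rw [hst]
      intro h'
      have := congrArg (fun v : G.V => (v.2 : ℕ)) h'
      simp at this
    · rw [hst]
      unfold Grid.blk
      simp only
      rw [hb, hb1]

theorem tl_row' {c : Grid G} (hc : Whole c) (T : Top c) (g : T.graph.V → ℝ)
    (h1 : ∀ e, g (T.graph.tgt e) = g (T.graph.src e)) (i j y : Fin G.M) (hb : c.blk1 i = c.blk1 j)
    (hy : c.blk (i, y) ∈ T.cells) : tlExt T g (i, y) = tlExt T g (j, y) := by
  rcases le_total i j with hij | hij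
  · have h : (i : ℕ) + ((j : ℕ) - i) < G.M := by have := j.2; have := Fin.le_def.1 hij; omega
    have e : (⟨i + ((j : ℕ) - i), h⟩ : Fin G.M) = j := Fin.ext (by have := Fin.le_def.1 hij; simp; omega)
    have := tl_row hc T g h1 ((j : ℕ) - i) i h (by rw [e, hb]) y hy
    rw [e] at this
    exact this.symm
  · have h : (j : ℕ) + ((i : ℕ) - j) < G.M := by have := i.2; have := Fin.le_def.1 hij; omega
    have e : (⟨j + ((i : ℕ) - j), h⟩ : Fin G.M) = i := Fin.ext (by have := Fin.le_def.1 hij; simp; omega)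
    have hy' : c.blk (j, y) ∈ T.cells := by
      unfold Grid.blk at hy ⊢
      simp only at hy ⊢
      rw [← hb]; exact hy
    have := tl_row hc T g h1 ((i : ℕ) - j) j h (by rw [e, hb]) y hy'
    rw [e] at this
    exact this

theorem tl_col' {c : Grid G} (hc : Whole c) (T : Top c) (g : T.graph.V → ℝ)
    (h1 : ∀ e, g (T.graph.tgt e) = g (T.graph.src e)) (i j x : Fin G.M) (hb : c.blk1 i = c.blk1 j)
    (hx : c.blk (x, i) ∈ T.cells) : tlExt T g (x, i) = tlExt T g (x, j) := by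
  rcases le_total i j with hij | hij
  · have h : (i : ℕ) + ((j : ℕ) - i) < G.M := by have := j.2; have := Fin.le_def.1 hij; omega
    have e : (⟨i + ((j : ℕ) - i), h⟩ : Fin G.M) = j := Fin.ext (by have := Fin.le_def.1 hij; simp; omega)
    have := tl_col hc T g h1 ((j : ℕ) - i) i h (by rw [e, hb]) x hx
    rw [e] at this
    exact this.symm
  · have h : (j : ℕ) + ((i : ℕ) - j) < G.M := by have := i.2; have := Fin.le_def.1 hij; omega
    have e : (⟨j + ((i : ℕ) - j), h⟩ : Fin G.M) = i := Fin.ext (by have := Fin.le_def.1 hij; simp; omega)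
    have hx' : c.blk (x, j) ∈ T.cells := by
      unfold Grid.blk at hx ⊢
      simp only at hx ⊢
      rw [← hb]; exact hx
    have := tl_col hc T g h1 ((i : ℕ) - j) j h (by rw [e, hb]) x hx'
    rw [e] at this
    exact this

/-- a function with vanishing gradient on the retained bonds is constant on every present cell -/
theorem tl_cell_const {c : Grid G} (hc : Whole c) (T : Top c) (g : T.graph.V → ℝ)
    (h1 : ∀ e, g (T.graph.tgt e) = g (T.graph.src e)) (v w : T.graph.V) (hvw : c.blk v.1 = c.blk w.1) :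
    g v = g w := by
  rw [← tlExt_coe T g v, ← tlExt_coe T g w]
  obtain ⟨⟨a, b⟩, hv⟩ := v
  obtain ⟨⟨a', b'⟩, hw⟩ := w
  simp only at hvw ⊢
  have e1 : c.blk1 a = c.blk1 a' := congrArg Prod.fst hvw
  have e2 : c.blk1 b = c.blk1 b' := congrArg Prod.snd hvw
  rw [tl_row' hc T g h1 a a' b e1 hv]
  apply tl_col' hc T g h1 b b' a' e2
  have : c.blk (a', b) = c.blk (a, b) := by
    unfold Grid.blk; simp only; rw [e1]
  rw [this]; exact hv

theorem tl_real_inj {c : Grid G} (hc : Whole c) (T : Top c) (g : T.graph.V → ℝ)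
    (h1 : ∀ e, g (T.graph.tgt e) = g (T.graph.src e)) (h2 : ∀ o : T.law.O, ∑ v, T.law.B o v * g v = 0) :
    g = 0 := by
  funext v₀
  have h3 := h2 ⟨c.blk v₀.1, v₀.2⟩
  have h4 : ∀ v : T.graph.V, T.law.B ⟨c.blk v₀.1, v₀.2⟩ v * g v = T.law.B ⟨c.blk v₀.1, v₀.2⟩ v * g v₀ := by
    intro v
    by_cases hv : c.blk v.1 = c.blk v₀.1
    · rw [tl_cell_const hc T g h1 v v₀ hv]
    · have : T.law.B ⟨c.blk v₀.1, v₀.2⟩ v = 0 := by
        simp only [Top.law]
        rw [if_neg hv]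
      rw [this, zero_mul, zero_mul]
  rw [Finset.sum_congr rfl (fun v _ => h4 v), ← Finset.sum_mul] at h3
  have hpos : 0 < ∑ v, T.law.B ⟨c.blk v₀.1, v₀.2⟩ v := by
    have hcard : 0 < ((c.sites {c.blk v₀.1}).card : ℝ) := by
      have : (c.sites {c.blk v₀.1}).Nonempty := ⟨v₀.1, by simp [Grid.sites]⟩
      exact_mod_cast Finset.card_pos.2 this
    refine Finset.sum_pos' (fun v _ => ?_) ⟨v₀, Finset.mem_univ _, ?_⟩
    · simp only [Top.law]
      split_ifs
      · positivity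
      · exact le_rfl
    · simp only [Top.law]
      rw [if_pos trivial]
      positivity
  rcases mul_eq_zero.1 h3 with h | h
  · exact absurd h hpos.ne'
  · exact h

/-- every constant is confined by an observation row -/
theorem law_proper {c : Grid G} (hc : Whole c) (T : Top c) : T.law.Proper := by
  intro h _ hh
  have h1 : ∀ e, h (T.graph.tgt e) - h (T.graph.src e) = 0 := fun e => congrFun (congrArg Prod.fst hh) e
  have h2 : ∀ o : T.law.O, ∑ v, T.law.B o v * (2 * Real.pi * (h v : ℝ)) = 0 :=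
    fun o => congrFun (congrArg Prod.snd hh) o
  have := tl_real_inj hc T (fun v => (h v : ℝ)) (fun e => by
    have := h1 e
    have h' : h (T.graph.tgt e) = h (T.graph.src e) := by omega
    simp only [h']) (fun o => by
    have := h2 o
    have e : ∑ v, T.law.B o v * (2 * Real.pi * (h v : ℝ)) = 2 * Real.pi * ∑ v, T.law.B o v * (h v : ℝ) := by
      rw [Finset.mul_sum]
      exact Finset.sum_congr rfl fun v _ => by ring
    rw [e] at this
    rcases mul_eq_zero.1 this with h' | h'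
    · exact absurd h' (by positivity)
    · exact h')
  funext v
  have := congrFun this v
  simpa using this

theorem law_ok {c : Grid G} (hc : Whole c) (T : Top c) (b : ℝ) (hb : 0 < b) : (T.law.sys b).Ok :=
  T.law.ok_of_real_injective b hb (fun g _ h1 h2 => tl_real_inj hc T g h1 h2)

theorem Zobs_eq_w {c : Grid G} (hc : Whole c) (T : Top c) (b : ℝ) (τ : Face c → ℤ) (y : c.I → ℝ) :
    T.Zobs b τ y = (T.law.sys b).w ((⟨0, T.econn τ, fun i => y i.1⟩ : T.law.Aff).amb b) :=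
  T.law.Z_eq_w (law_proper hc T) b _

theorem Zobs_pos {c : Grid G} (hc : Whole c) (T : Top c) (b : ℝ) (hb : 0 < b) (τ : Face c → ℤ) (y : c.I → ℝ) : 0 < T.Zobs b τ y := by
  rw [Zobs_eq_w hc]
  exact Rsd.cs_w_pos (law_ok hc T b hb) _


/-- the divergence of the face tilt -/
def rdiv {c : Grid G} (T : Top c) (t : Face c → ℝ) (o : c.I) : ℝ :=
  ∑ f ∈ T.faces, t f * ((if o = fnb c f then 1 else 0) - (if o = f.1 then 1 else 0))

theorem tl_inc_sq {ι κ : Type} [Fintype κ] [DecidableEq κ] (s : Finset ι) (φ : ι → κ) (t : ι → ℝ)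
    (h : ∀ o, ∑ f ∈ s, (if o = φ f then (1 : ℝ) else 0) ≤ 2) :
    ∑ o, (∑ f ∈ s, t f * (if o = φ f then 1 else 0)) ^ 2 ≤ 2 * ∑ f ∈ s, t f ^ 2 := by
  have h1 : ∀ o, (∑ f ∈ s, t f * (if o = φ f then (1 : ℝ) else 0)) ^ 2 ≤
      2 * ∑ f ∈ s, t f ^ 2 * (if o = φ f then (1 : ℝ) else 0) := by
    intro o
    have e1 : ∑ f ∈ s, t f * (if o = φ f then (1 : ℝ) else 0) =
        ∑ f ∈ s, (t f * (if o = φ f then (1 : ℝ) else 0)) * (if o = φ f then (1 : ℝ) else 0) := by
      refine Finset.sum_congr rfl fun f _ => ?_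
      split_ifs <;> simp
    rw [e1]
    refine (Finset.sum_mul_sq_le_sq_mul_sq s _ _).trans ?_
    have e2 : ∑ f ∈ s, (t f * (if o = φ f then (1 : ℝ) else 0)) ^ 2 =
        ∑ f ∈ s, t f ^ 2 * (if o = φ f then (1 : ℝ) else 0) := by
      refine Finset.sum_congr rfl fun f _ => ?_
      split_ifs <;> simp
    have e3 : ∑ f ∈ s, (if o = φ f then (1 : ℝ) else 0) ^ 2 = ∑ f ∈ s, (if o = φ f then (1 : ℝ) else 0) := by
      refine Finset.sum_congr rfl fun f _ => ?_
      split_ifs <;> simp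
    rw [e2, e3, mul_comm]
    have h0 : 0 ≤ ∑ f ∈ s, t f ^ 2 * (if o = φ f then (1 : ℝ) else 0) :=
      Finset.sum_nonneg fun f _ => by split_ifs <;> positivity
    exact mul_le_mul_of_nonneg_right (h o) h0
  calc ∑ o, (∑ f ∈ s, t f * (if o = φ f then 1 else 0)) ^ 2
      ≤ ∑ o, 2 * ∑ f ∈ s, t f ^ 2 * (if o = φ f then (1 : ℝ) else 0) := Finset.sum_le_sum fun o _ => h1 o
    _ = 2 * ∑ f ∈ s, t f ^ 2 := by
        rw [← Finset.mul_sum, Finset.sum_comm]
        congr 1
        refine Finset.sum_congr rfl fun f _ => ?_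
        rw [← Finset.mul_sum]
        simp

theorem tl_nx_injective {n : ℕ} : Function.Injective (nx : Fin n → Fin n) := by
  intro i j h
  have h1 : ((i : ℕ) + 1) % n = ((j : ℕ) + 1) % n := congrArg Fin.val h
  have hi := i.2
  have hj := j.2
  apply Fin.ext
  by_cases a : (i : ℕ) + 1 = n
  · by_cases b : (j : ℕ) + 1 = n
    · omega
    · rw [a, Nat.mod_self, Nat.mod_eq_of_lt (by omega)] at h1
      omega
  · by_cases b : (j : ℕ) + 1 = n
    · rw [b, Nat.mod_self, Nat.mod_eq_of_lt (by omega)] at h1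
      omega
    · rw [Nat.mod_eq_of_lt (by omega), Nat.mod_eq_of_lt (by omega)] at h1
      omega

theorem tl_fnb_injective (c : Grid G) (d : Bool) : Function.Injective fun i : c.I => fnb c (i, d) := by
  intro i j h
  cases d
  · simp only [fnb, Bool.false_eq_true, if_false] at h
    exact Prod.ext (Prod.mk.inj h).1 (tl_nx_injective (Prod.mk.inj h).2)
  · simp only [fnb, if_true] at h
    exact Prod.ext (tl_nx_injective (Prod.mk.inj h).1) (Prod.mk.inj h).2

theorem tl_count_src {c : Grid G} (T : Top c) (o : c.I) :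
    ∑ f ∈ T.faces, (if o = f.1 then (1 : ℝ) else 0) ≤ 2 := by
  calc ∑ f ∈ T.faces, (if o = f.1 then (1 : ℝ) else 0)
      ≤ ∑ f : Face c, (if o = f.1 then (1 : ℝ) else 0) :=
        Finset.sum_le_sum_of_subset_of_nonneg (Finset.subset_univ _) fun f _ _ => by split_ifs <;> norm_num
    _ = 2 := by
        rw [Fintype.sum_prod_type]
        have : ∀ x : c.I, ∑ d : Bool, (if o = ((x, d) : Face c).1 then (1 : ℝ) else 0) =
            2 * (if o = x then (1 : ℝ) else 0) := by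
          intro x
          rw [Fintype.sum_bool]
          ring
        rw [Finset.sum_congr rfl fun x _ => this x, ← Finset.mul_sum]
        simp

theorem tl_count_tgt {c : Grid G} (T : Top c) (o : c.I) :
    ∑ f ∈ T.faces, (if o = fnb c f then (1 : ℝ) else 0) ≤ 2 := by
  calc ∑ f ∈ T.faces, (if o = fnb c f then (1 : ℝ) else 0)
      ≤ ∑ f : Face c, (if o = fnb c f then (1 : ℝ) else 0) :=
        Finset.sum_le_sum_of_subset_of_nonneg (Finset.subset_univ _) fun f _ _ => by split_ifs <;> norm_num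
    _ = ∑ d : Bool, ∑ i : c.I, (if o = fnb c (i, d) then (1 : ℝ) else 0) := by
        rw [Fintype.sum_prod_type_right]
    _ ≤ ∑ d : Bool, (1 : ℝ) := by
        refine Finset.sum_le_sum fun d _ => ?_
        rw [Finset.sum_boole]
        have : (Finset.univ.filter fun i : c.I => o = fnb c (i, d)).card ≤ 1 := by
          rw [Finset.card_le_one]
          intro i hi j hj
          exact tl_fnb_injective c d ((Finset.mem_filter.1 hi).2.symm.trans (Finset.mem_filter.1 hj).2)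
        exact_mod_cast this
    _ = 2 := by simp

theorem rdiv_sq_le {c : Grid G} (T : Top c) (t : Face c → ℝ) : ∑ o, rdiv T t o ^ 2 ≤ 8 * ∑ f ∈ T.faces, t f ^ 2 := by
  have h1 := tl_inc_sq T.faces (fun f => fnb c f) t (tl_count_tgt T)
  have h2 := tl_inc_sq T.faces (fun f : Face c => f.1) t (tl_count_src T)
  have h3 : ∀ o, rdiv T t o ^ 2 ≤ 2 * (∑ f ∈ T.faces, t f * (if o = fnb c f then 1 else 0)) ^ 2 +
      2 * (∑ f ∈ T.faces, t f * (if o = f.1 then 1 else 0)) ^ 2 := by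
    intro o
    have e : rdiv T t o = (∑ f ∈ T.faces, t f * (if o = fnb c f then 1 else 0)) -
        ∑ f ∈ T.faces, t f * (if o = f.1 then 1 else 0) := by
      unfold rdiv
      rw [← Finset.sum_sub_distrib]
      exact Finset.sum_congr rfl fun f _ => by ring
    rw [e]
    nlinarith [sq_nonneg ((∑ f ∈ T.faces, t f * (if o = fnb c f then (1 : ℝ) else 0)) +
        ∑ f ∈ T.faces, t f * (if o = f.1 then (1 : ℝ) else 0))]
  calc ∑ o, rdiv T t o ^ 2 ≤ ∑ o, (2 * (∑ f ∈ T.faces, t f * (if o = fnb c f then 1 else 0)) ^ 2 +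
      2 * (∑ f ∈ T.faces, t f * (if o = f.1 then 1 else 0)) ^ 2) := Finset.sum_le_sum fun o _ => h3 o
    _ = 2 * ∑ o, (∑ f ∈ T.faces, t f * (if o = fnb c f then 1 else 0)) ^ 2 +
      2 * ∑ o, (∑ f ∈ T.faces, t f * (if o = f.1 then 1 else 0)) ^ 2 := by
        rw [Finset.sum_add_distrib, Finset.mul_sum, Finset.mul_sum]
    _ ≤ _ := by linarith

theorem cosh_sub_one_le (K : ℝ) : ∃ C : ℝ, ∀ x : ℝ, |x| ≤ K → Real.cosh x - 1 ≤ C * x ^ 2 := by
  refine ⟨Real.exp (K ^ 2 / 2) / 2 , fun x hx => ?_⟩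
  have h1 := Real.cosh_le_exp_half_sq x
  have h2 : Real.exp (x ^ 2 / 2) - 1 ≤ x ^ 2 / 2 * Real.exp (x ^ 2 / 2) := by
    have h3 := Real.add_one_le_exp (-(x ^ 2 / 2))
    have h4 : Real.exp (-(x ^ 2 / 2)) * Real.exp (x ^ 2 / 2) = 1 := by
      rw [← Real.exp_add]; simp
    have h5 := Real.exp_pos (x ^ 2 / 2)
    nlinarith
  have h6 : x ^ 2 ≤ K ^ 2 := by
    rw [← sq_abs x]
    exact pow_le_pow_left₀ (abs_nonneg x) hx 2
  have h7 : Real.exp (x ^ 2 / 2) ≤ Real.exp (K ^ 2 / 2) := Real.exp_le_exp.2 (by linarith)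
  have h8 : x ^ 2 / 2 * Real.exp (x ^ 2 / 2) ≤ x ^ 2 / 2 * Real.exp (K ^ 2 / 2) :=
    mul_le_mul_of_nonneg_left h7 (by positivity)
  linarith


/-- gauge change with a tilt -/
theorem tl_wT_gauge (S : LSys) (α : S.Amb) (g : S.L) (Y : S.L →+ ℝ) :
    S.wT (α + g) Y = Real.exp (-Y g) * S.wT α Y := by
  rw [Rsd.cs_wT_eq, Rsd.cs_wT_eq, ← tsum_mul_left,
    ← (Equiv.addRight g).tsum_eq (fun z : S.L => Real.exp (-Y g) * (Real.exp (Y z) * S.W ((z : S.Amb) + α)))]
  refine tsum_congr fun z => ?_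
  simp only [Equiv.coe_addRight, map_add, AddSubgroup.coe_add]
  rw [← mul_assoc, ← Real.exp_add]
  congr 2
  · ring
  · abel

theorem tl_avg {c : Grid G} (T : Top c) (g : T.graph.V → ℝ) (i : c.I) (hi : i ∈ T.cells) :
    ∑ v, T.law.B ⟨i, hi⟩ v * g v = avg c (tlExt T g) i := by
  classical
  have e1 : ∀ v : T.graph.V, T.law.B ⟨i, hi⟩ v * g v =
      (fun v : G.V => (if c.blk v = i then ((c.sites {i}).card : ℝ)⁻¹ else 0) * tlExt T g v) v.1 := by
    intro v
    simp only [Top.law]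
    rw [tlExt_coe]
  rw [Finset.sum_congr rfl fun v _ => e1 v]
  have e2 := Finset.sum_subtype (F := T.graph.fV) (Finset.univ.filter fun v : G.V => c.blk v ∈ T.cells)
    (p := fun v : G.V => c.blk v ∈ T.cells)
    (fun x => by simp) (fun v : G.V => (if c.blk v = i then ((c.sites {i}).card : ℝ)⁻¹ else 0) * tlExt T g v)
  refine e2.symm.trans ?_
  simp only [avg, cellAvg, Grid.sites, Finset.mem_singleton]
  rw [div_eq_inv_mul, Finset.mul_sum, Finset.sum_filter, Finset.sum_filter]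
  refine Finset.sum_congr rfl fun v _ => ?_
  by_cases hv : c.blk v = i
  · rw [if_pos hv, if_pos hv, if_pos (hv ▸ hi)]
  · rw [if_neg hv, if_neg hv]
    simp

theorem tl_econn_real {c : Grid G} (T : Top c) (τ : Face c → ℤ) (e : T.graph.E) :
    T.econn (fun f => 2 * Real.pi * (τ f : ℝ)) e = 2 * Real.pi * ((T.econn τ e : ℤ) : ℝ) := by
  unfold Top.econn
  split_ifs <;> simp

theorem tl_rdiv_sum {c : Grid G} (T : Top c) (hT : T.Ok) (t : Face c → ℝ) (X : c.I → ℝ) :
    ∑ o : T.law.O, rdiv T t o.1 * X o.1 = ∑ f ∈ T.faces, t f * (X (fnb c f) - X f.1) := by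
  have e0 : ∑ o : T.law.O, rdiv T t o.1 * X o.1 = ∑ i ∈ T.cells, rdiv T t i * X i :=
    Finset.sum_coe_sort T.cells (fun i => rdiv T t i * X i)
  rw [e0]
  unfold rdiv
  simp only [Finset.sum_mul]
  rw [Finset.sum_comm]
  refine Finset.sum_congr rfl fun f hf => ?_
  obtain ⟨-, h1, h2⟩ := hT f hf
  have e1 : ∀ i : c.I, t f * ((if i = fnb c f then 1 else 0) - (if i = f.1 then 1 else 0)) * X i =
      t f * ((if i = fnb c f then X i else 0) - (if i = f.1 then X i else 0)) := by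
    intro i
    split_ifs <;> ring
  rw [Finset.sum_congr rfl fun i _ => e1 i, ← Finset.mul_sum, Finset.sum_sub_distrib,
    Finset.sum_ite_eq' T.cells (fnb c f) X, Finset.sum_ite_eq' T.cells f.1 X, if_pos h1, if_pos h2]

theorem tl_key {c : Grid G} (T : Top c) (hT : T.Ok) (τ : Face c → ℤ) (y : c.I → ℝ)
    (t : Face c → ℝ) (q : T.graph.E → ℝ)
    (hq : ∀ (u : G.V → ℝ) (w : Face c → ℝ), ∑ f ∈ T.faces, t f * (avg c u (fnb c f) - avg c u f.1 + w f)
      = ∑ e, q e * (u (stp e.1.1 e.1.2) - u e.1.1 + T.econn w e)) (h : T.graph.V → ℤ) :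
    ∑ o : T.law.O, rdiv T t o.1 * ((∑ v, T.law.B o v * (2 * Real.pi * (h v : ℝ))) - y o.1) =
      (∑ e, 2 * Real.pi * q e * ((h (T.graph.tgt e) - h (T.graph.src e) + T.econn τ e : ℤ) : ℝ)) -
        ∑ f ∈ T.faces, t f * wf c τ y f := by
  set g : T.graph.V → ℝ := fun v => 2 * Real.pi * (h v : ℝ) with hg
  have e1 : ∀ o : T.law.O, rdiv T t o.1 * ((∑ v, T.law.B o v * g v) - y o.1) =
      rdiv T t o.1 * (fun i => avg c (tlExt T g) i - y i) o.1 := by
    intro o
    obtain ⟨i, hi⟩ := o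
    simp only
    rw [tl_avg T g i hi]
  rw [Finset.sum_congr rfl fun o _ => e1 o]
  refine (tl_rdiv_sum T hT t (fun i => avg c (tlExt T g) i - y i)).trans ?_
  have h1 := hq (tlExt T g) (fun f => 2 * Real.pi * (τ f : ℝ))
  have e2 : ∀ e : T.graph.E, q e * (tlExt T g (stp e.1.1 e.1.2) - tlExt T g e.1.1 +
      T.econn (fun f => 2 * Real.pi * (τ f : ℝ)) e) =
      2 * Real.pi * q e * ((h (T.graph.tgt e) - h (T.graph.src e) + T.econn τ e : ℤ) : ℝ) := by
    intro e
    have a1 : tlExt T g (stp e.1.1 e.1.2) = g (T.graph.tgt e) := tlExt_coe T g (T.graph.tgt e)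
    have a2 : tlExt T g e.1.1 = g (T.graph.src e) := tlExt_coe T g (T.graph.src e)
    rw [a1, a2, tl_econn_real, hg]
    push_cast
    ring
  rw [Finset.sum_congr rfl fun e _ => e2 e] at h1
  rw [← h1, ← Finset.sum_sub_distrib]
  refine Finset.sum_congr rfl fun f _ => ?_
  unfold wf
  ring

theorem tl_W_id {c : Grid G} (T : Top c) (hT : T.Ok) (b : ℝ) (τ : Face c → ℤ) (y : c.I → ℝ)
    (t : Face c → ℝ) (q : T.graph.E → ℝ)
    (hq : ∀ (u : G.V → ℝ) (w : Face c → ℝ), ∑ f ∈ T.faces, t f * (avg c u (fnb c f) - avg c u f.1 + w f)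
      = ∑ e, q e * (u (stp e.1.1 e.1.2) - u e.1.1 + T.econn w e)) (h : T.graph.V → ℤ) :
    Real.exp (∑ f ∈ T.faces, t f * wf c τ y f) *
        (T.law.sys b).W (T.law.coordA b h + (show (T.law.sys b).Amb from (T.econn τ, fun o => - y o.1))) =
      Real.exp ((∑ o : T.law.O, rdiv T t o.1 ^ 2) / 2 + ∑ e, 2 * Real.pi * q e * ((T.econn τ e : ℤ) : ℝ)) *
        (Real.exp (∑ e, 2 * Real.pi * q e * ((h (T.graph.tgt e) - h (T.graph.src e) : ℤ) : ℝ)) *
          (T.law.sys b).W (T.law.coordA b h +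
            (show (T.law.sys b).Amb from (T.econn τ, fun o => - y o.1 + rdiv T t o.1)))) := by
  have key := tl_key T hT τ y t q hq h
  set x : T.law.O → ℝ := fun o => (∑ v, T.law.B o v * (2 * Real.pi * (h v : ℝ))) - y o.1 with hx
  have w1 : (T.law.sys b).W (T.law.coordA b h + (show (T.law.sys b).Amb from (T.econn τ, fun o => - y o.1))) =
      (∏ e : T.graph.E, bes b (h (T.graph.tgt e) - h (T.graph.src e) + T.econn τ e)) *
        Real.exp (-(∑ o : T.law.O, x o ^ 2) / 2) := by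
    unfold LSys.W
    congr 1
  have w2 : (T.law.sys b).W (T.law.coordA b h +
      (show (T.law.sys b).Amb from (T.econn τ, fun o => - y o.1 + rdiv T t o.1))) =
      (∏ e : T.graph.E, bes b (h (T.graph.tgt e) - h (T.graph.src e) + T.econn τ e)) *
        Real.exp (-(∑ o : T.law.O, (x o + rdiv T t o.1) ^ 2) / 2) := by
    unfold LSys.W
    congr 1
    congr 3
    refine Finset.sum_congr rfl fun o _ => ?_
    rw [hx]
    simp only [sub_eq_add_neg, add_assoc]
    rfl
  rw [w1, w2]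
  have e1 : ∑ o : T.law.O, (x o + rdiv T t o.1) ^ 2 =
      ∑ o : T.law.O, x o ^ 2 + 2 * ∑ o : T.law.O, rdiv T t o.1 * x o + ∑ o : T.law.O, rdiv T t o.1 ^ 2 := by
    rw [Finset.mul_sum, ← Finset.sum_add_distrib, ← Finset.sum_add_distrib]
    exact Finset.sum_congr rfl fun o _ => by ring
  have e2 : ∑ e, 2 * Real.pi * q e * ((h (T.graph.tgt e) - h (T.graph.src e) + T.econn τ e : ℤ) : ℝ) =
      ∑ e, 2 * Real.pi * q e * ((h (T.graph.tgt e) - h (T.graph.src e) : ℤ) : ℝ) +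
        ∑ e, 2 * Real.pi * q e * ((T.econn τ e : ℤ) : ℝ) := by
    rw [← Finset.sum_add_distrib]
    exact Finset.sum_congr rfl fun e _ => by push_cast; ring
  rw [e2] at key
  set P := ∏ e : T.graph.E, bes b (h (T.graph.tgt e) - h (T.graph.src e) + T.econn τ e)
  calc Real.exp (∑ f ∈ T.faces, t f * wf c τ y f) * (P * Real.exp (-(∑ o : T.law.O, x o ^ 2) / 2))
      = P * (Real.exp (∑ f ∈ T.faces, t f * wf c τ y f) * Real.exp (-(∑ o : T.law.O, x o ^ 2) / 2)) := by ring
    _ = P * (Real.exp ((∑ o : T.law.O, rdiv T t o.1 ^ 2) / 2 + ∑ e, 2 * Real.pi * q e * ((T.econn τ e : ℤ) : ℝ)) *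
        (Real.exp (∑ e, 2 * Real.pi * q e * ((h (T.graph.tgt e) - h (T.graph.src e) : ℤ) : ℝ)) *
          Real.exp (-(∑ o : T.law.O, (x o + rdiv T t o.1) ^ 2) / 2))) := by
        congr 1
        rw [← Real.exp_add, ← Real.exp_add, ← Real.exp_add]
        congr 1
        rw [e1]
        linarith
    _ = _ := by ring

theorem tl_amb {c : Grid G} (T : Top c) (b : ℝ) (τ : Face c → ℤ) (y : c.I → ℝ) :
    (⟨0, T.econn τ, fun i => y i.1⟩ : T.law.Aff).amb b =
      (show (T.law.sys b).Amb from (T.econn τ, fun o => - y o.1)) := by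
  unfold HLaw.Aff.amb
  rw [map_zero, zero_add]

theorem tl_amb_zero {c : Grid G} (T : Top c) (b : ℝ) :
    (⟨0, T.econn 0, fun i => (0 : c.I → ℝ) i.1⟩ : T.law.Aff).amb b = 0 := by
  rw [tl_amb]
  refine Prod.ext (funext fun e => ?_) (funext fun o => ?_)
  · show T.econn (0 : Face c → ℤ) e = 0
    unfold Top.econn
    split_ifs <;> rfl
  · show -(0 : ℝ) = 0
    simp

/-- steps 2 + 3: the exact inequality before the numerical bounds; `q` any flow representing the tilt -/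
theorem face_tilt_exact {c : Grid G} (hc : Whole c) (T : Top c) (hT : T.Ok) (b : ℝ) (hb : 0 < b) (τ : Face c → ℤ) (y : c.I → ℝ)
    (t : Face c → ℝ) (q : T.graph.E → ℝ)
    (hq : ∀ (u : G.V → ℝ) (w : Face c → ℝ), ∑ f ∈ T.faces, t f * (avg c u (fnb c f) - avg c u f.1 + w f)
      = ∑ e, q e * (u (stp e.1.1 e.1.2) - u e.1.1 + T.econn w e)) :
    Real.exp (∑ f ∈ T.faces, t f * wf c τ y f) * (T.Zobs b τ y / T.Zobs b 0 0)
      ≤ Real.exp ((∑ o, rdiv T t o ^ 2) / 2 + ∑ e, b * (Real.cosh (2 * Real.pi * q e) - 1)) := by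
  have hOk : (T.law.sys b).Ok := law_ok hc T b hb
  have hw0 : 0 < (T.law.sys b).w 0 := Rsd.cs_w_pos hOk 0
  rw [Zobs_eq_w hc, Zobs_eq_w hc, tl_amb, tl_amb_zero]
  set tq : (T.law.sys b).E → ℝ := fun e => 2 * Real.pi * q e with htq
  set α'' : (T.law.sys b).Amb := (T.econn τ, fun o => - y o.1 + rdiv T t o.1) with hα''
  set Y := Rsd.flowStat (T.law.sys b) tq with hY
  set r := Rsd.freeRef (T.law.sys b) with hr
  -- step 2
  have step2 : Real.exp (∑ f ∈ T.faces, t f * wf c τ y f) *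
      (T.law.sys b).w (show (T.law.sys b).Amb from (T.econn τ, fun o => - y o.1)) =
      Real.exp ((∑ o : T.law.O, rdiv T t o.1 ^ 2) / 2 + ∑ e, 2 * Real.pi * q e * ((T.econn τ e : ℤ) : ℝ)) *
        (T.law.sys b).wT α'' (Y.comp r.psi) := by
    rw [Rsd.cs_w_eq, Rsd.cs_wT_eq, ← tsum_mul_left, ← tsum_mul_left]
    refine tsum_congr fun z => ?_
    obtain ⟨h, -, hz⟩ := AddSubgroup.mem_map.1 z.2
    have hz' : (z : (T.law.sys b).Amb) = T.law.coordA b h := hz.symm
    have hYz : (Y.comp r.psi) z = ∑ e, 2 * Real.pi * q e * ((h (T.graph.tgt e) - h (T.graph.src e) : ℤ) : ℝ) := by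
      show ∑ e : (T.law.sys b).E, tq e * ((((z : (T.law.sys b).Amb).1 e : ℤ)) : ℝ) = _
      rw [hz']
      rfl
    rw [hYz, hz']
    exact tl_W_id T hT b τ y t q hq h
  -- step 3
  have step3 := Rsd.lsys_ratio_mono r (Rsd.freeSys_ok _ hOk.1) hOk α'' Y
  rw [Rsd.free_w _ hOk.1, div_one] at step3
  have hg : (Rsd.freeSys (T.law.sys b)).wT (r.res α'') Y =
      Real.exp (-(∑ e, 2 * Real.pi * q e * ((T.econn τ e : ℤ) : ℝ))) *
        Real.exp (∑ e, b * (Real.cosh (2 * Real.pi * q e) - 1)) := by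
    have := tl_wT_gauge (Rsd.freeSys (T.law.sys b)) 0 ⟨r.res α'', AddSubgroup.mem_top _⟩ Y
    rw [zero_add, Rsd.free_wT _ hOk.1] at this
    exact this
  rw [hg] at step3
  have hR : ∑ o : T.law.O, rdiv T t o.1 ^ 2 ≤ ∑ o, rdiv T t o ^ 2 := by
    have e0 : ∑ o : T.law.O, rdiv T t o.1 ^ 2 = ∑ i ∈ T.cells, rdiv T t i ^ 2 :=
      Finset.sum_coe_sort T.cells (fun i => rdiv T t i ^ 2)
    rw [e0]
    exact Finset.sum_le_sum_of_subset_of_nonneg (Finset.subset_univ _) fun i _ _ => sq_nonneg _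
  rw [← mul_div_assoc, step2, mul_div_assoc]
  calc Real.exp ((∑ o : T.law.O, rdiv T t o.1 ^ 2) / 2 + ∑ e, 2 * Real.pi * q e * ((T.econn τ e : ℤ) : ℝ)) *
        ((T.law.sys b).wT α'' (Y.comp r.psi) / (T.law.sys b).w 0)
      ≤ Real.exp ((∑ o : T.law.O, rdiv T t o.1 ^ 2) / 2 + ∑ e, 2 * Real.pi * q e * ((T.econn τ e : ℤ) : ℝ)) *
        (Real.exp (-(∑ e, 2 * Real.pi * q e * ((T.econn τ e : ℤ) : ℝ))) *
        Real.exp (∑ e, b * (Real.cosh (2 * Real.pi * q e) - 1))) :=
        mul_le_mul_of_nonneg_left step3 (Real.exp_pos _).le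
    _ = Real.exp ((∑ o : T.law.O, rdiv T t o.1 ^ 2) / 2 + ∑ e, b * (Real.cosh (2 * Real.pi * q e) - 1)) := by
        rw [← Real.exp_add, ← Real.exp_add]
        congr 1
        ring
    _ ≤ _ := by
        apply Real.exp_le_exp.2
        linarith

/-- **(ent:face-tilt)**: tilted affine comparison at a prescribed continuous observation, then release to independent primary increments. -/
theorem face_tilt (b1 k0 : ℝ) : ∃ C : ℝ, ∀ (G : Geom) (c : Grid G), Whole c → ∀ T : Top c, T.Ok → ∀ b : ℝ, 0 < b → b ≤ b1 →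
    ∀ (τ : Face c → ℤ) (y : c.I → ℝ) (t : Face c → ℝ), (∀ f ∈ T.faces, |t f| ≤ k0 * c.m) →
      Real.exp (∑ f ∈ T.faces, t f * wf c τ y f) * (T.Zobs b τ y / T.Zobs b 0 0) ≤ Real.exp (C * ∑ f ∈ T.faces, t f ^ 2) := by
  obtain ⟨C₀, hC₀⟩ := cell_flow
  obtain ⟨Ck, hCk⟩ := cosh_sub_one_le (2 * Real.pi * (|C₀| * |k0|))
  refine ⟨4 + |b1| * |Ck| * (2 * Real.pi) ^ 2 * |C₀|, fun G c hc T hT b hb hb1 τ y t ht => ?_⟩
  obtain ⟨Φ, hΦ1, -, hΦ3⟩ := hC₀ G c hc T hT
  obtain ⟨hsup, hl2⟩ := hΦ3 t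
  have hm : (0 : ℝ) < c.m := by exact_mod_cast hc.pos
  set q : T.graph.E → ℝ := fun e => ∑ f ∈ T.faces, t f * Φ f e with hq_def
  have hq : ∀ (u : G.V → ℝ) (w : Face c → ℝ), ∑ f ∈ T.faces, t f * (avg c u (fnb c f) - avg c u f.1 + w f)
      = ∑ e, q e * (u (stp e.1.1 e.1.2) - u e.1.1 + T.econn w e) := by
    intro u w
    simp only [hq_def, Finset.sum_mul]
    rw [Finset.sum_comm]
    refine Finset.sum_congr rfl fun f hf => ?_
    rw [hΦ1 f hf u w, Finset.mul_sum]
    exact Finset.sum_congr rfl fun e _ => by ring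
  refine (face_tilt_exact hc T hT b hb τ y t q hq).trans (Real.exp_le_exp.2 ?_)
  have hS : 0 ≤ ∑ f ∈ T.faces, t f ^ 2 := Finset.sum_nonneg fun f _ => sq_nonneg _
  have h1 := rdiv_sq_le T t
  have hqe : ∀ e, |q e| ≤ |C₀| * |k0| := by
    intro e
    have := hsup e (|k0| * c.m) (by positivity) (fun f hf => (ht f hf).trans (by
      exact mul_le_mul_of_nonneg_right (le_abs_self k0) hm.le))
    refine this.trans ?_
    rw [← mul_assoc, mul_div_assoc, div_self hm.ne', mul_one]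
    exact mul_le_mul_of_nonneg_right (le_abs_self C₀) (abs_nonneg _)
  have h2 : ∀ e, b * (Real.cosh (2 * Real.pi * q e) - 1) ≤ |b1| * |Ck| * (2 * Real.pi) ^ 2 * q e ^ 2 := by
    intro e
    have a1 : |2 * Real.pi * q e| ≤ 2 * Real.pi * (|C₀| * |k0|) := by
      rw [abs_mul, abs_of_pos (by positivity : (0 : ℝ) < 2 * Real.pi)]
      exact mul_le_mul_of_nonneg_left (hqe e) (by positivity)
    have a2 := hCk _ a1
    have a3 : 0 ≤ Real.cosh (2 * Real.pi * q e) - 1 := by linarith [Real.one_le_cosh (2 * Real.pi * q e)]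
    have a4 : Ck * (2 * Real.pi * q e) ^ 2 ≤ |Ck| * (2 * Real.pi * q e) ^ 2 :=
      mul_le_mul_of_nonneg_right (le_abs_self Ck) (sq_nonneg _)
    calc b * (Real.cosh (2 * Real.pi * q e) - 1) ≤ |b1| * (Real.cosh (2 * Real.pi * q e) - 1) :=
          mul_le_mul_of_nonneg_right (hb1.trans (le_abs_self b1)) a3
      _ ≤ |b1| * (|Ck| * (2 * Real.pi * q e) ^ 2) :=
          mul_le_mul_of_nonneg_left (a2.trans a4) (abs_nonneg _)
      _ = _ := by ring
  have h3 : ∑ e, b * (Real.cosh (2 * Real.pi * q e) - 1) ≤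
      |b1| * |Ck| * (2 * Real.pi) ^ 2 * (|C₀| * ∑ f ∈ T.faces, t f ^ 2) := by
    calc ∑ e, b * (Real.cosh (2 * Real.pi * q e) - 1) ≤ ∑ e, |b1| * |Ck| * (2 * Real.pi) ^ 2 * q e ^ 2 :=
          Finset.sum_le_sum fun e _ => h2 e
      _ = |b1| * |Ck| * (2 * Real.pi) ^ 2 * ∑ e, q e ^ 2 := by rw [Finset.mul_sum]
      _ ≤ _ := by
          refine mul_le_mul_of_nonneg_left ?_ (by positivity)
          exact hl2.trans (mul_le_mul_of_nonneg_right (le_abs_self C₀) hS)
  nlinarith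


end

end Claimed.Agent.R285.F4a
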