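import Claimed.Agent.R285.F4a.Defs

/-!
# ROW 285, F4a: combinatorics of the unit connection   (architect helper251)   LEAF L-F4a-UNIT-B: PROVED (helper226)

* `unit_lift`: if some bond of the rectangle has `tauE = 1` then `y0 < n ≤ y1`, `n ≤ x1`, hence `n ≤ x0` (source-free): take `k v = 1[n ≤ v.2]`; otherwise `k = 0`.  For `G.bc = BC.free`: `stp v true = (v.1 + 1, v.2)` unless `v.1 + 1 = M` (then `stp v = v`).
* `econn_tauU`: `Whole c` gives `c.blk1 t = t / s`; `c.n = 2 n / s`, `c.n / 2 = n / s`; a vertical bond `(x, y) → (x, y+1)` crosses a face iff `s ∣ y + 1`.   About 250 lines.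
-/

set_option autoImplicit false

namespace Claimed.Agent.R285.F4a

open scoped BigOperators ENNReal NNReal
open MeasureTheory ProbabilityTheory Polynomial
open Claimed.Agent.R285 Claimed.Agent.R285.RG

noncomputable section

variable {G : Geom}

/-! ## the folding map and the unit steps (proved, helper226) -/

theorem fold_free_val (hG : G.bc = BC.free) (x : ℤ) :
    ((G.fold x : ℕ) : ℤ) = if x % (2 * G.M) < G.M then x % (2 * G.M) else 2 * G.M - 1 - x % (2 * G.M) := by
  obtain ⟨bc, M, hM⟩ := G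
  simp only at hG
  subst hG
  have h0 : (0 : ℤ) < 2 * M := by omega
  have h1 := Int.emod_nonneg x h0.ne'
  have h2 := Int.emod_lt_of_pos x h0
  simp only [Geom.fold]
  split_ifs <;> omega

theorem fold_per_val (hG : G.bc = BC.per) (x : ℤ) : ((G.fold x : ℕ) : ℤ) = x % G.M := by
  obtain ⟨bc, M, hM⟩ := G
  simp only at hG
  subst hG
  have h0 : (0 : ℤ) < M := by omega
  have h1 := Int.emod_nonneg x h0.ne'
  simp only [Geom.fold]
  omega

theorem fold_free_pos (hG : G.bc = BC.free) (i : ℕ) (hi : i < G.M) (k : ℤ) : G.fold ((i : ℤ) + 2 * G.M * k) = ⟨i, hi⟩ := by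
  apply Fin.ext
  have h := fold_free_val hG ((i : ℤ) + 2 * G.M * k)
  have e : ((i : ℤ) + 2 * G.M * k) % (2 * G.M) = i := by
    rw [Int.add_mul_emod_self_left]
    exact Int.emod_eq_of_lt (by positivity) (by omega)
  rw [e, if_pos (by exact_mod_cast hi)] at h
  exact_mod_cast h

theorem fold_free_neg (hG : G.bc = BC.free) (i : ℕ) (hi : i < G.M) (k : ℤ) : G.fold (-1 - (i : ℤ) + 2 * G.M * k) = ⟨i, hi⟩ := by
  apply Fin.ext
  have h := fold_free_val hG (-1 - (i : ℤ) + 2 * G.M * k)
  have e : (-1 - (i : ℤ) + 2 * G.M * k) % (2 * G.M) = 2 * G.M - 1 - i := by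
    have : (-1 - (i : ℤ) + 2 * G.M * k) = (2 * G.M - 1 - i) + 2 * G.M * (k - 1) := by ring
    rw [this, Int.add_mul_emod_self_left]
    exact Int.emod_eq_of_lt (by omega) (by omega)
  rw [e, if_neg (by omega)] at h
  simp only
  omega

theorem fold_free_cases (hG : G.bc = BC.free) (x : ℤ) :
    (∃ k : ℤ, x = ((G.fold x : ℕ) : ℤ) + 2 * G.M * k) ∨ (∃ k : ℤ, x = -1 - ((G.fold x : ℕ) : ℤ) + 2 * G.M * k) := by
  have h := fold_free_val hG x
  have e := Int.emod_add_mul_ediv x (2 * G.M)
  split_ifs at h with hc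
  · left; exact ⟨x / (2 * G.M), by rw [h]; exact e.symm⟩
  · right; refine ⟨x / (2 * G.M) + 1, ?_⟩
    rw [h]
    linarith

theorem fold_coe (i : Fin G.M) : G.fold ((i : ℕ) : ℤ) = i := by
  rcases hG : G.bc with _ | _
  · apply Fin.ext
    have h := fold_per_val hG ((i : ℕ) : ℤ)
    rw [Int.emod_eq_of_lt (by positivity) (by exact_mod_cast i.2)] at h
    exact_mod_cast h
  · have := fold_free_pos hG i i.2 0
    simpa using this

theorem pi_iota (v : G.V) : G.π (G.ι v) = v := by
  simp [Geom.π, Geom.ι, fold_coe]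

theorem stp_true (v : G.V) : stp v true = (G.fold ((v.1 : ℕ) + 1), v.2) := by
  simp [stp, bdir, Geom.π, Geom.ι, fold_coe]

theorem stp_false (v : G.V) : stp v false = (v.1, G.fold ((v.2 : ℕ) + 1)) := by
  simp [stp, bdir, Geom.π, Geom.ι, fold_coe]

/-- the folded successor on the free square -/
theorem fold_succ_free (hG : G.bc = BC.free) (i : Fin G.M) :
    ((i : ℕ) + 1 < G.M → ((G.fold ((i : ℕ) + 1) : Fin G.M) : ℕ) = i + 1) ∧ ((i : ℕ) + 1 = G.M → G.fold ((i : ℕ) + 1) = i) := by
  constructor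
  · intro h
    have := fold_free_pos hG (i + 1) h 0
    simp only [mul_zero, add_zero, Nat.cast_add, Nat.cast_one] at this
    rw [this]
  · intro h
    have := fold_free_neg hG i i.2 1
    have e : (-1 - ((i : ℕ) : ℤ) + 2 * G.M * 1) = ((i : ℕ) : ℤ) + 1 := by
      have : (G.M : ℤ) = (i : ℕ) + 1 := by exact_mod_cast h.symm
      rw [this]; ring
    rw [e] at this
    rw [this]

theorem stp_free (hG : G.bc = BC.free) (v : G.V) :
    ((v.1 : ℕ) + 1 < G.M → ((stp v true).1 : ℕ) = v.1 + 1 ∧ (stp v true).2 = v.2) ∧ ((v.1 : ℕ) + 1 = G.M → stp v true = v) ∧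
    ((v.2 : ℕ) + 1 < G.M → ((stp v false).2 : ℕ) = v.2 + 1 ∧ (stp v false).1 = v.1) ∧ ((v.2 : ℕ) + 1 = G.M → stp v false = v) := by
  refine ⟨fun h => ?_, fun h => ?_, fun h => ?_, fun h => ?_⟩
  · rw [stp_true]; exact ⟨(fold_succ_free hG v.1).1 h, rfl⟩
  · rw [stp_true, (fold_succ_free hG v.1).2 h]
  · rw [stp_false]; exact ⟨(fold_succ_free hG v.2).1 h, rfl⟩
  · rw [stp_false, (fold_succ_free hG v.2).2 h]

theorem stp_per (hG : G.bc = BC.per) (v : G.V) :
    ((stp v true).1 : ℕ) = ((v.1 : ℕ) + 1) % G.M ∧ (stp v true).2 = v.2 ∧ ((stp v false).2 : ℕ) = ((v.2 : ℕ) + 1) % G.M ∧ (stp v false).1 = v.1 := by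
  refine ⟨?_, ?_, ?_, ?_⟩
  · rw [stp_true]
    have := fold_per_val hG ((v.1 : ℕ) + 1)
    simp only
    exact_mod_cast this
  · rw [stp_true]
  · rw [stp_false]
    have := fold_per_val hG ((v.2 : ℕ) + 1)
    simp only
    exact_mod_cast this
  · rw [stp_false]

/-- on the free square a non-degenerate bond is a unit step of the canonical lift -/
theorem iota_stp_free (hG : G.bc = BC.free) (v : G.V) (d : Bool) (h : stp v d ≠ v) : G.ι (stp v d) = G.ι v + bdir d := by
  obtain ⟨h1, h2, h3, h4⟩ := stp_free hG v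
  cases d
  · have hlt : (v.2 : ℕ) + 1 < G.M := by
      rcases Nat.lt_or_ge ((v.2 : ℕ) + 1) G.M with hh | hh
      · exact hh
      · exact absurd (h4 (by have := v.2.2; omega)) h
    obtain ⟨e1, e2⟩ := h3 hlt
    simp [Geom.ι, bdir, e1, e2]
  · have hlt : (v.1 : ℕ) + 1 < G.M := by
      rcases Nat.lt_or_ge ((v.1 : ℕ) + 1) G.M with hh | hh
      · exact hh
      · exact absurd (h2 (by have := v.1.2; omega)) h
    obtain ⟨e1, e2⟩ := h1 hlt
    simp [Geom.ι, bdir, e1, e2]

/-! ## whole grids -/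

theorem whole_card {c : Grid G} (hc : Whole c) : G.M = c.n * c.m := by
  have h := Finset.card_eq_sum_card_fiberwise (f := c.blk1) (s := Finset.univ) (t := Finset.univ) (fun _ _ => Finset.mem_univ _)
  simp only [Finset.card_univ, Fintype.card_fin, hc.size, Finset.sum_const, smul_eq_mul] at h
  exact h

/-- the sites below a block -/
theorem whole_card_lt {c : Grid G} (hc : Whole c) (b : Fin c.n) :
    (Finset.univ.filter fun i => c.blk1 i < b).card = (b : ℕ) * c.m := by
  have h := Finset.card_eq_sum_card_fiberwise (f := c.blk1) (s := Finset.univ.filter fun i => c.blk1 i < b) (t := Finset.Iio b)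
    (fun i hi => by simpa using hi)
  rw [h]
  have : ∀ b' ∈ Finset.Iio b, ((Finset.univ.filter fun i => c.blk1 i < b).filter fun i => c.blk1 i = b').card = c.m := by
    intro b' hb'
    rw [← hc.size b']
    congr 1
    ext i
    simp only [Finset.mem_filter, Finset.mem_univ, true_and]
    constructor
    · exact fun h => h.2
    · intro h; exact ⟨by rw [h]; exact Finset.mem_Iio.1 hb', h⟩
  rw [Finset.sum_congr rfl this]
  simp

/-- `Whole` grids are the standard ones -/
theorem whole_blk1 {c : Grid G} (hc : Whole c) (t : Fin G.M) : ((c.blk1 t : Fin c.n) : ℕ) = (t : ℕ) / c.m := by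
  symm
  apply Nat.div_eq_of_lt_le
  · -- `b m ≤ t`
    rw [← whole_card_lt hc (c.blk1 t)]
    have hsub : (Finset.univ.filter fun i => c.blk1 i < c.blk1 t) ⊆ Finset.Iio t := by
      intro i hi
      simp only [Finset.mem_filter, Finset.mem_univ, true_and] at hi
      rw [Finset.mem_Iio]
      by_contra h
      exact absurd (hc.mono (not_lt.1 h)) (not_le.2 hi)
    have := Finset.card_le_card hsub
    simpa using this
  · -- `t < (b + 1) m`
    have h1 : (Finset.univ.filter fun i => c.blk1 i < c.blk1 t).card + (Finset.univ.filter fun i => c.blk1 i = c.blk1 t).card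
        = (Finset.univ.filter fun i => c.blk1 i ≤ c.blk1 t).card := by
      rw [← Finset.card_union_of_disjoint]
      · congr 1
        ext i
        simp only [Finset.mem_union, Finset.mem_filter, Finset.mem_univ, true_and]
        exact le_iff_lt_or_eq.symm
      · rw [Finset.disjoint_filter]
        intro i _ h1 h2
        exact absurd h2 h1.ne
    rw [whole_card_lt hc, hc.size] at h1
    have hsub : Finset.Iic t ⊆ Finset.univ.filter fun i => c.blk1 i ≤ c.blk1 t := by
      intro i hi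
      simp only [Finset.mem_filter, Finset.mem_univ, true_and]
      exact hc.mono (Finset.mem_Iic.1 hi)
    have := Finset.card_le_card hsub
    rw [Fin.card_Iic, ← h1] at this
    have e : ((c.blk1 t : ℕ) + 1) * c.m = (c.blk1 t : ℕ) * c.m + c.m := by ring
    omega

theorem whole_sites_card {c : Grid G} (hc : Whole c) (i : c.I) : (c.sites {i}).card = c.m ^ 2 := by
  have : c.sites {i} = (Finset.univ.filter fun a => c.blk1 a = i.1) ×ˢ (Finset.univ.filter fun a => c.blk1 a = i.2) := by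
    ext v
    simp only [Grid.sites, Grid.blk, Finset.mem_filter, Finset.mem_univ, true_and, Finset.mem_singleton, Finset.mem_product]
    exact Prod.ext_iff
  rw [this, Finset.card_product, hc.size, hc.size, sq]

/-- **Lemma 4.2**, the lift on a source-free rectangle: there the connection is an integral gradient, so `λ = (v + 2π k)/α` has `∇λ = η_n/α`;
another gauge changes `λ` by a multiple of `ω = 2π/α`. -/
theorem unit_lift (n : ℕ) (hG : G.bc = BC.free) (hM : G.M = 2 * n) (x0 x1 y0 y1 : ℕ)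
    (hfree : ¬ (x0 + 1 ≤ n ∧ n ≤ x1 ∧ y0 + 1 ≤ n ∧ n ≤ y1)) :
    ∃ k : G.V → ℤ, ∀ e : G.V × Bool, stp e.1 e.2 ≠ e.1 →
      (x0 ≤ (e.1.1 : ℕ) ∧ ((stp e.1 e.2).1 : ℕ) ≤ x1 ∧ y0 ≤ (e.1.2 : ℕ) ∧ ((stp e.1 e.2).2 : ℕ) ≤ y1) →
      tauE n e = k (stp e.1 e.2) - k e.1 := by
  -- description of a non-degenerate bond
  have hstep : ∀ e : G.V × Bool, stp e.1 e.2 ≠ e.1 →
      (e.2 = true ∧ ((stp e.1 e.2).1 : ℕ) = e.1.1 + 1 ∧ ((stp e.1 e.2).2 : ℕ) = e.1.2) ∨
      (e.2 = false ∧ ((stp e.1 e.2).1 : ℕ) = e.1.1 ∧ ((stp e.1 e.2).2 : ℕ) = e.1.2 + 1) := by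
    rintro ⟨v, d⟩ he
    obtain ⟨h1, h2, h3, h4⟩ := stp_free hG v
    simp only at he ⊢
    cases d
    · right
      have hlt : (v.2 : ℕ) + 1 < G.M := by
        rcases Nat.lt_or_ge ((v.2 : ℕ) + 1) G.M with hh | hh
        · exact hh
        · exact absurd (h4 (by have := v.2.2; omega)) he
      obtain ⟨e1, e2⟩ := h3 hlt
      exact ⟨rfl, by rw [e2], e1⟩
    · left
      have hlt : (v.1 : ℕ) + 1 < G.M := by
        rcases Nat.lt_or_ge ((v.1 : ℕ) + 1) G.M with hh | hh
        · exact hh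
        · exact absurd (h2 (by have := v.1.2; omega)) he
      obtain ⟨e1, e2⟩ := h1 hlt
      exact ⟨rfl, e1, by rw [e2]⟩
  by_cases hright : n ≤ x0
  · refine ⟨fun v => if n ≤ (v.2 : ℕ) then 1 else 0, ?_⟩
    rintro ⟨v, d⟩ he hr
    rcases hstep (v, d) he with ⟨hd, e1, e2⟩ | ⟨hd, e1, e2⟩
    · simp only at hd e1 e2 hr ⊢
      subst hd
      simp only [tauE, e2]
      simp
    · simp only at hd e1 e2 hr ⊢
      subst hd
      simp only [tauE, e2, true_and]
      by_cases h1 : (v.2 : ℕ) + 1 = n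
      · have h2 : n ≤ (v.1 : ℕ) := by omega
        have h3 : n ≤ (v.2 : ℕ) + 1 := by omega
        have h4 : ¬ n ≤ (v.2 : ℕ) := by omega
        simp [h1, h2, h4]
      · by_cases h4 : n ≤ (v.2 : ℕ)
        · have h3 : n ≤ (v.2 : ℕ) + 1 := by omega
          simp [h1, h3, h4]
        · have h3 : ¬ n ≤ (v.2 : ℕ) + 1 := by omega
          simp [h1, h3, h4]
  · refine ⟨fun _ => 0, ?_⟩
    rintro ⟨v, d⟩ he hr
    rcases hstep (v, d) he with ⟨hd, e1, e2⟩ | ⟨hd, e1, e2⟩
    · simp only at hd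
      simp [tauE, hd]
    · simp only at hd e1 e2 hr
      have : ¬ ((v.2 : ℕ) + 1 = n ∧ n ≤ (v.1 : ℕ)) := by
        rintro ⟨h1, h2⟩
        apply hfree
        omega
      simp [tauE, hd, this]

/-- the face connection `tauU` induces `tauE` on the bonds of the aligned full graph -/
theorem econn_tauU (n : ℕ) (hG : G.bc = BC.free) (hM : G.M = 2 * n) {c : Grid G} (hc : Whole c) (hal : c.m ∣ n)
    (e : (Top.full c).graph.E) : (Top.full c).econn (tauU c) e = tauE n e.1 := by
  obtain ⟨⟨v, d⟩, he⟩ := e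
  obtain ⟨q, hq⟩ := hal
  have hs := hc.pos
  have hn2 : c.n = 2 * q := by
    have h := whole_card hc
    rw [hM, hq] at h
    have : c.m * (2 * q) = c.m * c.n := by rw [mul_comm c.m c.n, ← h]; ring
    exact (Nat.eq_of_mul_eq_mul_left hs this).symm
  have hhalf : c.n / 2 = q := by omega
  simp only [Top.econn]
  cases d
  · -- vertical bond
    obtain ⟨-, -, h3, h4⟩ := stp_free hG v
    have hne : stp v false ≠ v := he.1
    have hlt : (v.2 : ℕ) + 1 < G.M := by
      rcases Nat.lt_or_ge ((v.2 : ℕ) + 1) G.M with hh | hh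
      · exact hh
      · exact absurd (h4 (by have := v.2.2; omega)) hne
    obtain ⟨e1, e2⟩ := h3 hlt
    have b1 : ((c.blk1 (stp v false).2 : Fin c.n) : ℕ) = ((v.2 : ℕ) + 1) / c.m := by rw [whole_blk1 hc, e1]
    have b2 : ((c.blk1 v.2 : Fin c.n) : ℕ) = (v.2 : ℕ) / c.m := whole_blk1 hc _
    have b3 : ((c.blk1 v.1 : Fin c.n) : ℕ) = (v.1 : ℕ) / c.m := whole_blk1 hc _
    have hblk : c.blk (stp v false) = c.blk v ↔ ((v.2 : ℕ) + 1) / c.m = (v.2 : ℕ) / c.m := by
      simp only [Grid.blk, e2, Prod.mk.injEq, true_and]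
      rw [← b1, ← b2]
      exact Fin.ext_iff
    have key : ∀ y : ℕ, (y + 1 = c.m * q → (y + 1) / c.m ≠ y / c.m ∧ y / c.m + 1 = q) ∧
        ((y + 1) / c.m ≠ y / c.m → y / c.m + 1 = q → y + 1 = c.m * q) := by
      intro y
      constructor
      · intro h
        have h1 : (y + 1) / c.m = q := by rw [h]; exact Nat.mul_div_cancel_left q hs
        have h2 : y / c.m < q := by
          rw [Nat.div_lt_iff_lt_mul hs]; rw [mul_comm]; omega
        have h3 : q ≤ y / c.m + 1 := by
          rw [← h1]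
          have : (y + 1) / c.m ≤ (y + c.m) / c.m := Nat.div_le_div_right (by omega)
          rwa [Nat.add_div_right _ hs] at this
        omega
      · intro h1 h2
        have h3 := Nat.succ_div (a := y) (b := c.m)
        split_ifs at h3 with hdvd
        · obtain ⟨j, hj⟩ := hdvd
          have h4 : (y + 1) / c.m = j := by rw [hj]; exact Nat.mul_div_cancel_left j hs
          rw [hj]; congr 1; omega
        · omega
    by_cases hb : c.blk (stp v false) = c.blk v
    · rw [if_pos hb]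
      have : ¬ ((v.2 : ℕ) + 1 = n ∧ n ≤ (v.1 : ℕ)) := by
        rintro ⟨h1, -⟩
        exact ((key v.2).1 (by rw [h1, hq])).1 (hblk.1 hb)
      simp [tauE, this]
    · rw [if_neg hb]
      simp only [tauU, tauE, Grid.blk, true_and, hhalf, b2, b3]
      have hb' := fun h => hb (hblk.2 h)
      have i1 : ((v.2 : ℕ) / c.m + 1 = q ∧ q ≤ (v.1 : ℕ) / c.m) ↔ ((v.2 : ℕ) + 1 = n ∧ n ≤ (v.1 : ℕ)) := by
        rw [Nat.le_div_iff_mul_le hs, hq, mul_comm q c.m]
        constructor
        · rintro ⟨h1, h2⟩; exact ⟨(key v.2).2 hb' h1, h2⟩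
        · rintro ⟨h1, h2⟩; exact ⟨((key v.2).1 h1).2, h2⟩
      simp only [i1]
  · -- horizontal bond
    have : tauE n (v, true) = 0 := by simp [tauE]
    rw [this]
    split_ifs
    · rfl
    · simp [tauU]

end

end Claimed.Agent.R285.F4a
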