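import Claimed.Agent.R285.Face.Main

/-!
# ROW 285, [F] Lemma 4.5: face energy and changes at cuts   (owner helper251)
Contracts (statements fixed; verdicts and consumers in `R285/Read/F4a.lean`).  WIRED to the proofs in `R285/Face/Main.lean` (package PK-FACE).
-/

set_option autoImplicit false

namespace Claimed.Agent.R285.F4a

open scoped BigOperators ENNReal NNReal
open MeasureTheory ProbabilityTheory Polynomial
open Claimed.Agent.R285 Claimed.Agent.R285.RG

noncomputable section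

variable {G : Geom}

/-- (ent:cell-coercivity): cell Poincaré -/
theorem cell_coercivity (a : ℝ) (ha : 0 < a) : ∃ C : ℝ, ∀ (G : Geom) (c : Grid G), Whole c → ∀ (i : c.I) (ξ : G.V → ℝ),
    ((c.m : ℝ) ^ 2)⁻¹ * ∑ x ∈ c.sites {i}, ξ x ^ 2 ≤ C * (a⁻¹ * bondE (c.sites {i}) ξ + avg c ξ i ^ 2) :=
  cell_coercivity_pf a ha

/-- **Lemma 4.5.**  `C, cc, n1` depend only on `a`. -/
theorem face_localization (a : ℝ) (ha : 0 < a) : ∃ (C cc : ℝ) (n1 : ℕ) (Ds : ℕ → ℝ), 0 < cc ∧ FaceLoc a C cc n1 Ds :=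
  face_localization_pf a ha

/-- **(ent:guarded-face-error)**: a FORMAL consequence of (ent:face-matrix-bounds) (weighted geometric mean `2/5, 2/5, 1/5`), same `D_s`.
`G₀, G₁` arbitrary (before / after), patches `P_i = G_i|_O`; `K_Δ = disc G₀ G₁`, `A_Δ` = the cells outside `O` and their neighbours. -/
theorem guarded_face_error (a C cc : ℝ) (n1 : ℕ) (Ds : ℕ → ℝ) (hcc : 0 < cc) (h : FaceLoc a C cc n1 Ds) : ∃ (C' cc' : ℝ), 0 < cc' ∧
    ∀ (G : Geom) (c : Grid G), Whole c → n1 ≤ c.n → ∀ G0 G1 : Top c, G0.Ok → G1.Ok →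
      ∀ (O : Finset c.I) (r : ℕ), (∀ i ∈ G0.disc G1, ∀ j, j ∉ O → r ≤ c.idist i j) →
      ∀ (f f' : Face c) (D : ℕ), (∀ i ∈ G0.disc G1, D ≤ c.idist i f.1 ∧ D ≤ c.idist i f'.1) →
        |(G0.Hm a (Ds c.m) f f' - G1.Hm a (Ds c.m) f f') - ((G0.restr O).Hm a (Ds c.m) f f' - (G1.restr O).Hm a (Ds c.m) f f')|
          ≤ C' * Real.exp (-cc' * r - cc' * c.idist f.1 f'.1 - cc' * D) :=
  guarded_face_error_pf a C cc n1 Ds hcc h

/-- **(ent:face-energy-upper)**, every integral face connection: one `log (2 + s)` per full junction carrying circulation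
(none in the centred sector; the centre junction, if it is full in `T`, in the restriction of the aligned unit sector: `sig_tauU`). -/
theorem face_energy_upper (a : ℝ) (ha : 0 < a) : ∃ (C : ℝ) (n1 : ℕ), ∀ (G : Geom) (c : Grid G), Whole c → n1 ≤ c.n →
    ∀ T : Top c, T.Ok → ∀ (τ : Face c → ℤ) (y : c.I → ℝ),
      T.Eobs a τ y ≤ C * ∑ f ∈ T.faces, wf c τ y f ^ 2
        + C * Real.log (2 + c.m) * ∑ z ∈ T.V4, ((τ (z, true) + τ (fnb c (z, true), false) - τ (fnb c (z, false), true) - τ (z, false) : ℤ) : ℝ) ^ 2 :=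
  face_energy_upper_pf a ha

end

end Claimed.Agent.R285.F4a
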