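import Claimed.Agent.R285.Defs
import Claimed.Agent.R285.Base.RG
import Claimed.Agent.R285.Base.HeightDefs

/-!
# ROW 285, [F] Section 4 (first half): DEFINITIONS (owner helper251).  Nothing is sorried here.
Verdicts, explanations and the list of contracts: `R285/Read/F4a.lean`.  The contracts live in the sibling files `R285/F4a/*.lean`.
-/

set_option autoImplicit false

namespace Claimed.Agent.R285.F4a

open scoped BigOperators ENNReal NNReal
open MeasureTheory ProbabilityTheory Polynomial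
open Claimed.Agent.R285 Claimed.Agent.R285.RG

noncomputable section

variable {G : Geom}

/-- the positive unit step; `d = true`: first coordinate, `d = false`: second coordinate (the convention of `Top.square`) -/
def bdir (d : Bool) : ℤ × ℤ := if d then (1, 0) else (0, 1)

/-- the neighbour of a site in the positive direction `d` (at a free wall: the site itself) -/
def stp (v : G.V) (d : Bool) : G.V := G.π (G.ι v + bdir d)

/-- the observation grid consists of WHOLE cells of side `s = c.m` (both boundary conventions) -/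
structure Whole (c : Grid G) : Prop where
  pos : 0 < c.m
  mono : Monotone c.blk1
  size : ∀ b : Fin c.n, (Finset.univ.filter fun i => c.blk1 i = b).card = c.m
  /-- at least two cells per side: a face never joins a cell to itself -/
  two : 2 ≤ c.n

/-- cyclic successor -/
def nx {n : ℕ} (i : Fin n) : Fin n := ⟨(i.1 + 1) % n, Nat.mod_lt _ i.pos⟩

/-- oriented cell faces: `(i, d)` is the face from the cell `i` to the cell `i + e_d` -/
abbrev Face (c : Grid G) : Type := c.I × Bool

/-- the target cell of a face -/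
def fnb (c : Grid G) (f : Face c) : c.I := if f.2 then (nx f.1.1, f.1.2) else (f.1.1, nx f.1.2)

/-- the faces of the uncut inclusion `U` (torus: all; free square: no face through a wall) -/
def IsFace (c : Grid G) (f : Face c) : Prop :=
  G.bc = BC.per ∨ (if f.2 then (f.1.1 : ℕ) + 1 < c.n else (f.1.2 : ℕ) + 1 < c.n)

/-- **a cut topology**: present cells and retained faces inside the common uncut inclusion `U = (G, c)`.
Every present face is wholly retained or wholly cut, every present observation row is retained. -/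
structure Top (c : Grid G) where
  cells : Finset c.I
  faces : Finset (Face c)

namespace Top

variable {c : Grid G} (T : Top c)

/-- well-formed -/
def Ok : Prop := ∀ f ∈ T.faces, IsFace c f ∧ f.1 ∈ T.cells ∧ fnb c f ∈ T.cells

/-- retained primary bonds: inside a present cell, or across a retained face -/
def IsEdge (e : G.V × Bool) : Prop :=
  stp e.1 e.2 ≠ e.1 ∧ c.blk e.1 ∈ T.cells ∧ c.blk (stp e.1 e.2) ∈ T.cells ∧
    (c.blk (stp e.1 e.2) = c.blk e.1 ∨ (c.blk e.1, e.2) ∈ T.faces)

open Classical in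
/-- the retained primary graph -/
def graph : HGraph where
  V := {v : G.V // c.blk v ∈ T.cells}
  E := {e : G.V × Bool // T.IsEdge e}
  src e := ⟨e.1.1, e.2.2.1⟩
  tgt e := ⟨stp e.1.1 e.1.2, e.2.2.2.1⟩

/-- a connection which is constant on the crossing bonds of every face and vanishes inside the cells -/
def econn {α : Type} [Zero α] (w : Face c → α) (e : T.graph.E) : α :=
  if c.blk (stp e.1.1 e.1.2) = c.blk e.1.1 then 0 else w (c.blk e.1.1, e.1.2)

open Classical in
/-- the full topology -/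
def full (c : Grid G) : Top c := ⟨Finset.univ, Finset.univ.filter (IsFace c)⟩

open Classical in
/-- the patch restriction `T|_O` (inherits all earlier cuts; new free wall at the boundary of `O`) -/
def restr (O : Finset c.I) : Top c := ⟨T.cells ∩ O, T.faces.filter fun f => f.1 ∈ O ∧ fnb c f ∈ O⟩

/-- cutting faces -/
def cut (E : Finset (Face c)) : Top c := ⟨T.cells, T.faces \ E⟩

/-- the OPEN topology on a set of cells: all bonds with both endpoints in the union, every observation row -/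
def opn (c : Grid G) (O : Finset c.I) : Top c := (full c).restr O

open Classical in
/-- cells where two topologies differ -/
def disc (T' : Top c) : Finset c.I :=
  Finset.univ.filter fun i => ¬ (i ∈ T.cells ↔ i ∈ T'.cells) ∨
    ∃ f : Face c, (f.1 = i ∨ fnb c f = i) ∧ ¬ (f ∈ T.faces ↔ f ∈ T'.faces)

end Top

/-- cell averages `B_s u` (`= RG.cellAvg`) -/
abbrev avg (c : Grid G) (u : G.V → ℝ) (i : c.I) : ℝ := cellAvg c u i

/-- face data of an observation: `w_f = y_j - y_i + 2π τ_f` -/
def wf (c : Grid G) (τ : Face c → ℤ) (y : c.I → ℝ) (f : Face c) : ℝ := y (fnb c f) - y f.1 + 2 * Real.pi * τ f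

namespace Top

variable {c : Grid G} (T : Top c)

/-- `a⁻¹ ‖∇^w u‖² + ‖B_s u - y‖²` -/
def quad (a : ℝ) (w : Face c → ℝ) (y : c.I → ℝ) (u : G.V → ℝ) : ℝ :=
  a⁻¹ * ∑ e : T.graph.E, (u (stp e.1.1 e.1.2) - u e.1.1 + T.econn w e) ^ 2 + ∑ i ∈ T.cells, (avg c u i - y i) ^ 2

/-- the minimum of `quad`; every free component constant is varied -/
def En (a : ℝ) (w : Face c → ℝ) (y : c.I → ℝ) : ℝ := ⨅ u : G.V → ℝ, T.quad a w y u

/-- (eq:observation-energy) `E_G^τ (y)` -/
def Eobs (a : ℝ) (τ : Face c → ℤ) (y : c.I → ℝ) : ℝ := T.En a (fun f => 2 * Real.pi * τ f) y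

/-- the face energy `𝒬_G (w)` of Section 4.4 -/
def Qf (a : ℝ) (w : Face c → ℝ) : ℝ := T.En a w 0

/-- the height law with every retained observation row, no pin (all translation copies are summed) -/
def law : HLaw T.graph where
  Λ := ⊤
  O := {i : c.I // i ∈ T.cells}
  B := fun i v => if c.blk v.1 = i.1 then ((c.sites {i.1}).card : ℝ)⁻¹ else 0

/-- `Z_G^τ (y)` : the penalty `exp (-‖B_s h - y‖²/2)` is included -/
def Zobs (b : ℝ) (τ : Face c → ℤ) (y : c.I → ℝ) : ℝ :=
  T.law.Z b ⟨0, T.econn τ, fun i => y i.1⟩ fun _ => 1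

end Top

/-- the cutoff `χ_s` on the real line (ent:cutoff-definition) -/
def chi (s z : ℝ) : ℝ := (∫ t in (-s)..s, Real.exp (-(z - t) ^ 2 / 2)) / ∫ t in (-s)..s, Real.exp (-t ^ 2 / 2)

/-- the cutoff `χ_s` as an entire function (`= RG.chiS`) -/
abbrev chiC (s : ℝ) (z : ℂ) : ℂ := chiS s z

/-- `\widehat Z_G^τ (y)`: a cut removes its cutoff factor along with its bonds -/
def Top.Zhat {c : Grid G} (T : Top c) (b : ℝ) (τ : Face c → ℤ) (y : c.I → ℝ) : ℝ :=
  T.Zobs b τ y * ∏ f ∈ T.faces, chi c.m (wf c τ y f)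

variable (G)

/-- `C_{<u}` (ent:reference-split) `= RG.low` of the family `Fam.entry = (1, 64)`; `A = RG.lap G`, `𝖯_u = Qs 64 u` -/
abbrev Cless (u : ℕ) : Matrix G.V G.V ℝ := low G Fam.entry u
/-- `Γ_u`, the shell from `u` to `L u` -/
abbrev Gam (L u : ℕ) : Matrix G.V G.V ℝ := shell G Fam.entry u (L * u)
/-- `C_{≥u} = A⁺ 𝖯_u` on nonconstant modes: characterised, not constructed -/
abbrev IsGe (u : ℕ) (Γ : Matrix G.V G.V ℝ) : Prop := IsTerminal G Fam.entry u Γ

variable {G}

/-- independent standard observation noises -/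
def noise (c : Grid G) : Measure (c.I → ℝ) := Measure.pi fun _ => gaussianReal 0 1

/-- `η = ∇ v + 2π τ` on the retained bonds -/
def Top.eta {c : Grid G} (T : Top c) (τ : Face c → ℤ) (v : G.V → ℝ) (e : T.graph.E) : ℝ :=
  v (stp e.1.1 e.1.2) - v e.1.1 + 2 * Real.pi * (T.econn τ e : ℤ)

/-- co-closed, including at the free boundary -/
def Top.CoClosed {c : Grid G} (T : Top c) (η : T.graph.E → ℝ) : Prop :=
  ∀ f : G.V → ℝ, ∑ e : T.graph.E, η e * (f (stp e.1.1 e.1.2) - f e.1.1) = 0

/-- (ent:averaged-interaction) `𝓗^τ_{𝒢,m} (ψ)` on the connected full graph `𝒢 = (G, c)`; `v = 0` in the centred sector -/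
def Hav (b a : ℝ) (c : Grid G) (m : ℕ) (τ : Face c → ℤ) (v ψ : G.V → ℝ) : ℝ :=
  ∫ ζ, ∫ e, Real.exp ((Top.full c).Eobs a τ (fun i => avg c (fun x => v x + Real.sqrt a * (ψ x + ζ x)) i + e i) / 2)
      * (Top.full c).Zhat b τ (fun i => avg c (fun x => v x + Real.sqrt a * (ψ x + ζ x)) i + e i)
      / (Top.full c).Zobs b 0 0 ∂(noise c) ∂(gauss G (Cless G m))

/-- a fundamental domain of `𝒴_G = ℝ^{N_c} / 2π ℤ 𝟙` -/
def fund (c : Grid G) (i0 : c.I) : Set (c.I → ℝ) := {y | y i0 ∈ Set.Ico 0 (2 * Real.pi)}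

/-- `𝒫_G^τ (F)` -/
def Pint (b : ℝ) (c : Grid G) (i0 : c.I) (τ : Face c → ℤ) (F : (c.I → ℝ) → ℝ) : ℝ :=
  ∫ y in fund c i0, F y * (Top.full c).Zobs b τ y

/-- `\widehat{𝒫}_G^τ (F)` -/
def Phat (b : ℝ) (c : Grid G) (i0 : c.I) (τ : Face c → ℤ) (F : (c.I → ℝ) → ℝ) : ℝ :=
  ∫ y in fund c i0, F y * (Top.full c).Zhat b τ y

/-- functions on the quotient -/
def Per (c : Grid G) (F : (c.I → ℝ) → ℝ) : Prop := ∀ y, F (fun i => y i + 2 * Real.pi) = F y

/-- integration against the remaining covariance `C_{≥m}` and the uniform common mean -/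
def outer (a : ℝ) (Γ : Matrix G.V G.V ℝ) (H : (G.V → ℝ) → ℝ) : ℝ :=
  ∫ θ in (0 : ℝ)..(2 * Real.pi / Real.sqrt a), ∫ ψ, H (fun x => ψ x + θ) ∂(gauss G Γ)

/-- the aligned unit connection of the free square with `c.n` even: one circulation `2π` at the centre, supported on the faces crossing
the straight path from the centre to the right wall (the convention of `Top.centerMag`) -/
def tauU (c : Grid G) : Face c → ℤ := fun f =>
  if f.2 = false ∧ (f.1.2 : ℕ) + 1 = c.n / 2 ∧ c.n / 2 ≤ (f.1.1 : ℕ) then 1 else 0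

section
variable {𝔸 : Type} [CommRing 𝔸]
open Classical in
/-- `[x] 𝒵 (K + x J)`: exactly one labelled component -/
def ZA1 (g : Grid G) (R : ℕ) (K J : Finset g.I → 𝔸) : 𝔸 :=
  ∑ V : Finset g.I, ∑ X ∈ g.comps R V, J X * ∏ X' ∈ (g.comps R V).erase X, K X'
end

/-- the algebraic target (ent:ordinary-subset) -/
def TargetOrd (b a : ℝ) (c g : Grid G) (cG : ℝ) (K : Act g) : Prop :=
  0 < cG ∧ ∀ ψ, (Hav b a c g.m 0 0 ψ : ℂ) = cG * ZA g RR K (toC ψ)

/-- the algebraic target (ent:labelled-subset), with the SAME scalar -/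
def TargetLab (b a : ℝ) (c g : Grid G) (cG : ℝ) (v : G.V → ℝ) (K J : Act g) : Prop :=
  ∀ ψ, (Hav b a c g.m (tauU c) v ψ : ℂ) = cG * ZA1 g RR K J (toC ψ)

/-- the unit connection on primary bonds `(v, d)` (the convention of `Top.centerMag`) -/
def tauE (n : ℕ) (e : G.V × Bool) : ℤ := if e.2 = false ∧ (e.1.2 : ℕ) + 1 = n ∧ n ≤ (e.1.1 : ℕ) then 1 else 0

/-- `η_n = ∇ v + 2π τ` as a function of all pairs `(v, d)`; zero through a free wall -/
def etaE (n : ℕ) (v : G.V → ℝ) (e : G.V × Bool) : ℝ := v (stp e.1 e.2) - v e.1 + 2 * Real.pi * tauE n e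

/-- the plane connection in centred coordinates -/
def etaP (v : ℤ × ℤ → ℝ) (x : ℤ × ℤ) (d : Bool) : ℝ :=
  v (x + bdir d) - v x + 2 * Real.pi * (if d = false ∧ x.2 + 1 = 0 ∧ 0 ≤ x.1 then 1 else 0)

/-- **the reflected stencil of a bond field**: the lifted bond `(x, x + e_d)` is folded to a bond traversed forwards, backwards, or to a point -/
def elift (η : G.V × Bool → ℝ) (x : ℤ × ℤ) (d : Bool) : ℝ :=
  if G.π (x + bdir d) = G.π x then 0
  else if G.π (x + bdir d) = stp (G.π x) d then η (G.π x, d) else - η (G.π (x + bdir d), d)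

/-- distance to the centre -/
def cdist (n : ℕ) (x : ℤ × ℤ) : ℝ := max |(x.1 : ℝ) - n| |(x.2 : ℝ) - n|

/-- the oriented sum of the four faces around the junction whose lower left cell is `z` -/
def sig (c : Grid G) (z : c.I) (w : Face c → ℝ) : ℝ :=
  w (z, true) + w (fnb c (z, true), false) - w (fnb c (z, false), true) - w (z, false)

open Classical in
/-- the full junctions `𝒱₄ (G)` -/
def Top.V4 {c : Grid G} (T : Top c) : Finset c.I :=
  Finset.univ.filter fun z => (z, true) ∈ T.faces ∧ (fnb c (z, true), false) ∈ T.faces ∧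
    (fnb c (z, false), true) ∈ T.faces ∧ (z, false) ∈ T.faces

open Classical in
/-- the matrix of the quadratic form `𝒬_G`, by polarisation; absent entries vanish -/
def Top.Qmat {c : Grid G} (T : Top c) (a : ℝ) (f f' : Face c) : ℝ :=
  (T.Qf a (Pi.single f 1 + Pi.single f' 1) - T.Qf a (Pi.single f 1) - T.Qf a (Pi.single f' 1)) / 2

open Classical in
/-- `H_G`, DEFINED by (ent:face-decomposition) -/
def Top.Hm {c : Grid G} (T : Top c) (a Ds : ℝ) (f f' : Face c) : ℝ :=
  T.Qmat a f f' - Ds * ∑ z ∈ T.V4, sig c z (Pi.single f 1) * sig c z (Pi.single f' 1)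

/-- the conclusions of Lemma 4.5 with named constants; `Ds s = D_s` depends only on `(a, s)`; `n1` = clearance of the periodic charts -/
def FaceLoc (a C cc : ℝ) (n1 : ℕ) (Ds : ℕ → ℝ) : Prop :=
  ∀ s : ℕ, 1 ≤ s → 0 ≤ Ds s ∧ Ds s ≤ C * Real.log (2 + s) ∧
    ∀ (G : Geom) (c : Grid G), Whole c → c.m = s → n1 ≤ c.n → ∀ T : Top c, T.Ok →
      -- the trial bound
      (∀ w : Face c → ℝ, T.Qf a w ≤ Ds s * ∑ z ∈ T.V4, sig c z w ^ 2 + C * ∑ f ∈ T.faces, w f ^ 2) ∧
      -- (ent:face-matrix-bounds), first line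
      (∀ f f', |T.Hm a (Ds s) f f'| ≤ C * Real.exp (-cc * c.idist f.1 f'.1)) ∧
      -- (ent:face-matrix-bounds), second line; `D ≤ d ({f, f'}, 𝒟)`
      (∀ T' : Top c, T'.Ok → ∀ (f f' : Face c) (D : ℕ), (∀ i ∈ T.disc T', D ≤ c.idist i f.1 ∧ D ≤ c.idist i f'.1) →
        |T.Hm a (Ds s) f f' - T'.Hm a (Ds s) f f'| ≤ C * min (Real.exp (-cc * c.idist f.1 f'.1)) (Real.exp (-cc * D)))

end

end Claimed.Agent.R285.F4a
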