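import Claimed.Agent.R285.F4a.Map

/-!
# ROW 285, [F] s4.2 / s6: THE LABELLED LOCAL MAP      (post BP-F4a-P41 #15249, helper241)          NO `sorry` IN THIS FILE

Replaces `local_exact_labelled` of `F4a/Map.lean` v1, in the form of `Obs/PairPlan.lean` s4 / `Obs/PairDefs.lean` (helper271, helper79): the label is the coefficient of `s` along `K + s J`, `d + s ḋ`.
* `labD d dd s = ⟨d.F + s • dd.F, d.a + s • dd.a⟩` (`= F6.Pr.dLin`, rfl),  `labFam P Γ r R K J d dd s = Kprime P r R (conv Γ) (K + s • J) (labD d dd s)` (`= F6.Pr.famT`, rfl),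
  `labJ P Γ r R K J d dd Y w = deriv (fun s => labFam .. s Y w) 0` (`= (F6.Pr.next ..).JT`, rfl).
* `LabHyp p col r R n0 cst P Γ Vf Vc K J d dd` = standing hypotheses: `0 < p.A`, `max 5 Vf.sep ≤ R`, `RegStable`, `K`, `J` admissible of FINITE norm (no smallness), `d.Ok`, `ḋ` small labels + local.
EXPORTS (any covariance, both boundary conventions):
 (a) `lab_hasDerivAt` : `HasDerivAt (fun s => labFam .. s Y w) (labJ .. Y w) 0` for `w ∈ strip p.h0 P.g' Y`;
 (b) `lab_ok`         : `Act.Ok p col R (labJ ..)` (period, locality, analyticity; the collar does not grow);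
 (c) `lab_exact`      : `conv Γ (ZA1 K J) z = ∏ (1 + a) * ((∑_b ȧ b / (1 + a b)) * ZA K' z + ZA1 K' J' z)` for `z ∈ strip p.h0 P.g' univ`      = [F] (obs:dual-number-map);
 (d) `StepGain.label` : `‖J' - Klin (J, ḋ)‖ ≤ Cnl ε (‖J‖ + ‖ḋ‖)` if `‖K‖ ≤ ε < ε₀`, `‖d‖ ≤ Cd ε`;  abstract forms `lab_bound_of`, `actNorm_deriv_le` (lower semicontinuity of the norm along difference quotients).
TOOLS: `conv_hasDerivAt` (differentiation under the Gaussian integral in a complex parameter, with the formula for the derivative), `conv_prod_hasDerivAt`, `conv_ZA_hasDerivAt`, `ZA_hasDerivAt`,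
`clsJet` = instance of the closure principle `Scal.FamCls`: families whose VALUE and DERIVATIVE at `s = 0` are `LocalFn` (so no joint holomorphy in `(s, z)` is needed), `localFn_congr`, `conv_add_smul`, `Klin_apply`, `Klin_lab`
(`Klin` is affine along the family inside the strips), `size_smul_le`, `labD_size_le`.
-/

set_option autoImplicit false

namespace Claimed.Agent.R285.F4a

open scoped BigOperators ENNReal NNReal Topology
open MeasureTheory ProbabilityTheory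
open Claimed.Agent.R285 Claimed.Agent.R285.RG Claimed.Agent.R285.B4

noncomputable section

variable {G : Geom}

/-! ## 0. The derivative of `conv Γ (F s) z` in a complex parameter -/

/-- **differentiation under the Gaussian integral**: a family which is uniformly bounded in the norm and pointwise holomorphic in `s` (as in `Scal.conv_hol_param`), with pointwise derivative `F'` at `s0` -/
theorem conv_hasDerivAt (U : Set ℂ) (hU : IsOpen U) (p : Par) (g : Grid G) (V : Extra g) (X : Finset g.I) (Γ : Matrix G.V G.V ℝ)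
    (F : ℂ → Fn G) (hF : ∀ s ∈ U, Hol p.h0 g X (F s)) (M : ℝ≥0∞) (hM : M ≠ ⊤) (hbd : ∀ s ∈ U, fnSize p g V X (F s) ≤ M)
    (hint : ∀ φ : G.V → ℝ, ∫⁻ ζ, ENNReal.ofReal (Wt g p.δ p.κ V X (φ + ζ)) ∂(gauss G Γ) ≠ ⊤)
    (hs : ∀ z ∈ strip p.h0 g X, DifferentiableOn ℂ (fun s => F s z) U) {s0 : ℂ} (hs0 : s0 ∈ U) (F' : Fn G)
    (hF' : Hol p.h0 g X F') (hd : ∀ z ∈ strip p.h0 g X, HasDerivAt (fun s => F s z) (F' z) s0)
    {z : G.V → ℂ} (hz : z ∈ strip p.h0 g X) : HasDerivAt (fun s => conv Γ (F s) z) (conv Γ F' z) s0 := by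
  simp only [Scal.conv_apply]
  set b' : (G.V → ℝ) → ℝ≥0∞ := fun ζ => ⨆ s : U, ‖F s.1 (z + toC ζ)‖ₑ with hb'
  have hlsc : LowerSemicontinuous b' :=
    lowerSemicontinuous_iSup fun s => (Hol.continuous_comp_shift (hF s.1 s.2) hz).enorm.lowerSemicontinuous
  have hle : ∀ ζ, b' ζ ≤ M * ENNReal.ofReal (Wt g p.δ p.κ V X ((fun v => (z v).re) + ζ)) := fun ζ =>
    iSup_le fun s => (Scal.enorm_strip_le p g V X (F s.1) hz ζ).trans (mul_le_mul' (hbd s.1 s.2) le_rfl)
  have hfinb : ∀ ζ, b' ζ ≠ ⊤ := fun ζ => ne_top_of_le_ne_top (ENNReal.mul_ne_top hM ENNReal.ofReal_ne_top) (hle ζ)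
  have hintb : ∫⁻ ζ, b' ζ ∂(gauss G Γ) ≠ ⊤ := by
    refine ne_top_of_le_ne_top ?_ (lintegral_mono hle)
    rw [lintegral_const_mul' _ _ hM]
    exact ENNReal.mul_ne_top hM (hint _)
  have hbI : Integrable (fun ζ => (b' ζ).toReal) (gauss G Γ) :=
    integrable_toReal_of_lintegral_ne_top hlsc.measurable.aemeasurable hintb
  have hnb : ∀ s ∈ U, ∀ ζ, ‖F s (z + toC ζ)‖ ≤ (b' ζ).toReal := by
    intro s hsU ζ
    have h1 : ‖F s (z + toC ζ)‖ₑ ≤ b' ζ := le_iSup (fun s : U => ‖F s.1 (z + toC ζ)‖ₑ) ⟨s, hsU⟩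
    have h2 := ENNReal.toReal_mono (hfinb ζ) h1
    simpa using h2
  obtain ⟨r, hr, hball⟩ := Metric.isOpen_iff.1 hU s0 hs0
  have hsub : ∀ x ∈ Metric.ball s0 (r / 2), Metric.closedBall x (r / 2) ⊆ U := by
    intro x hx y hy
    apply hball
    rw [Metric.mem_ball] at hx ⊢
    rw [Metric.mem_closedBall] at hy
    calc dist y s0 ≤ dist y x + dist x s0 := dist_triangle _ _ _
      _ < r / 2 + r / 2 := add_lt_add_of_le_of_lt hy hx
      _ = r := by ring
  have key := hasDerivAt_integral_of_dominated_loc_of_deriv_le (𝕜 := ℂ) (μ := gauss G Γ)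
    (F := fun s ζ => F s (z + toC ζ)) (F' := fun s ζ => deriv (fun s => F s (z + toC ζ)) s) (x₀ := s0)
    (bound := fun ζ => (b' ζ).toReal / (r / 2)) (s := Metric.ball s0 (r / 2)) (Metric.ball_mem_nhds _ (by positivity))
    (Filter.eventually_of_mem (hU.mem_nhds hs0) fun s hsU => (Hol.continuous_comp_shift (hF s hsU) hz).aestronglyMeasurable)
    (hbI.mono' (Hol.continuous_comp_shift (hF s0 hs0) hz).aestronglyMeasurable (Filter.Eventually.of_forall fun ζ => hnb s0 hs0 ζ))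
    (by
      have e : (fun ζ => deriv (fun s => F s (z + toC ζ)) s0) = fun ζ => F' (z + toC ζ) :=
        funext fun ζ => (hd _ (Hol.strip_add_toC hz ζ)).deriv
      rw [e]
      exact (Hol.continuous_comp_shift hF' hz).aestronglyMeasurable)
    (Filter.Eventually.of_forall fun ζ x hx =>
      Complex.norm_deriv_le_of_forall_mem_sphere_norm_le (by positivity)
        ((hs _ (Hol.strip_add_toC hz ζ)).diffContOnCl_ball (hsub x hx))
        fun y hy => hnb y (hsub x hx (Metric.sphere_subset_closedBall hy)) ζ)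
    (hbI.div_const _)
    (Filter.Eventually.of_forall fun ζ x hx =>
      ((hs _ (Hol.strip_add_toC hz ζ) x (hsub x hx (Metric.mem_closedBall_self (by positivity)))).differentiableAt
        (hU.mem_nhds (hsub x hx (Metric.mem_closedBall_self (by positivity))))).hasDerivAt)
  have e : ∫ ζ, deriv (fun s => F s (z + toC ζ)) s0 ∂(gauss G Γ) = ∫ ζ, F' (z + toC ζ) ∂(gauss G Γ) :=
    integral_congr_ae (Filter.Eventually.of_forall fun ζ => (hd _ (Hol.strip_add_toC hz ζ)).deriv)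
  rw [← e]
  exact key.2

/-! ## 1. The first-order coefficient of a product over components -/

section comps

variable {p : Par} {col : ℕ} {g : Grid G} {V : Extra g} {R : ℕ} {K J : Act g}

open Classical in
/-- the coefficient of `s` in `∏_{X ∈ Comp_R W} (K X + s J X)`; `ZA1 g R K J = ∑_W prod1 g R K J W` -/
def prod1 (g : Grid G) (R : ℕ) (K J : Act g) (W : Finset g.I) : Fn G :=
  ∑ X ∈ g.comps R W, J X * ∏ X' ∈ (g.comps R W).erase X, K X'

theorem ZA1_eq (g : Grid G) (R : ℕ) (K J : Act g) : ZA1 g R K J = ∑ W : Finset g.I, prod1 g R K J W := rfl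

open Classical in
theorem mul_prod_erase_eq (C : Finset (Finset g.I)) (K J : Act g) {X : Finset g.I} (hX : X ∈ C) :
    J X * ∏ X' ∈ C.erase X, K X' = ∏ X' ∈ C, Function.update K X (J X) X' := by
  rw [← Finset.mul_prod_erase C _ hX, Function.update_self]
  congr 1
  exact Finset.prod_congr rfl fun X' hX' => (Function.update_of_ne (Finset.ne_of_mem_erase hX') _ _).symm

theorem update_cases {Q : Finset g.I → Fn G → Prop} (hK : ∀ X, Q X (K X)) (hJ : ∀ X, Q X (J X)) (X X' : Finset g.I) :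
    Q X' (Function.update K X (J X) X') := by
  classical
  by_cases h : X' = X
  · subst h
    rw [Function.update_self]
    exact hJ X'
  · rw [Function.update_of_ne h]
    exact hK X'

theorem fnSize_sum_ne_top {ι : Type} (s : Finset ι) (X : Finset g.I) (F : ι → Fn G) (h : ∀ i ∈ s, fnSize p g V X (F i) ≠ ⊤) :
    fnSize p g V X (∑ i ∈ s, F i) ≠ ⊤ := by
  classical
  induction s using Finset.induction_on with
  | empty => simp [Scal.fnSize_zero]
  | insert a s ha ih =>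
    rw [Finset.sum_insert ha]
    exact ne_top_of_le_ne_top (ENNReal.add_ne_top.2 ⟨h a (Finset.mem_insert_self _ _), ih fun i hi => h i (Finset.mem_insert_of_mem hi)⟩)
      (Scal.fnSize_add_le p g V X _ _)

theorem localFn_prod1 (hK : ∀ X, LocalFn p col g X (K X)) (hJ : ∀ X, LocalFn p col g X (J X)) (W : Finset g.I) :
    LocalFn p col g W (prod1 g R K J W) := by
  unfold prod1
  refine Scal.localFn_sum _ _ fun X hX => ?_
  rw [mul_prod_erase_eq _ K J hX]
  exact Scal.localFn_prod_comps (fun X' => update_cases (Q := fun X F => LocalFn p col g X F) hK hJ X X') W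

theorem hol_prod1 (hK : ∀ X, Hol p.h0 g X (K X)) (hJ : ∀ X, Hol p.h0 g X (J X)) (W : Finset g.I) :
    Hol p.h0 g W (prod1 g R K J W) := by
  unfold prod1 Hol
  refine DifferentiableOn.fun_sum (u := g.comps R W) (A := fun X => J X * ∏ X' ∈ (g.comps R W).erase X, K X') ?_ |>.congr ?_
  · intro X hX
    rw [mul_prod_erase_eq _ K J hX]
    exact Scal.hol_prod_comps (fun X' => update_cases (Q := fun X F => Hol p.h0 g X F) hK hJ X X') W
  · intro z _
    rw [Finset.sum_apply]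

theorem fnSize_prod1_ne_top (hg : g.Ok) (hR : max 5 V.sep ≤ R) (hK : ∀ X, fnSize p g V X (K X) ≠ ⊤)
    (hJ : ∀ X, fnSize p g V X (J X) ≠ ⊤) (W : Finset g.I) : fnSize p g V W (prod1 g R K J W) ≠ ⊤ := by
  unfold prod1
  refine fnSize_sum_ne_top _ _ _ fun X hX => ?_
  rw [mul_prod_erase_eq _ K J hX]
  exact Scal.fnSize_prod_comps_ne_top hg hR (fun X' => update_cases (Q := fun X F => fnSize p g V X F ≠ ⊤) hK hJ X X') W

/-- pointwise derivative of the product -/
theorem prod_hasDerivAt (K J : Act g) (W : Finset g.I) (w : G.V → ℂ) :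
    HasDerivAt (fun s : ℂ => (∏ X ∈ g.comps R W, (K + s • J) X) w) (prod1 g R K J W w) 0 := by
  classical
  have h := HasDerivAt.fun_finsetProd (u := g.comps R W) (f := fun X (s : ℂ) => K X w + s * J X w) (f' := fun X => J X w) (x := 0)
    (fun X _ => by simpa using ((hasDerivAt_id (0 : ℂ)).mul_const (J X w)).const_add (K X w))
  have e1 : (fun s : ℂ => (∏ X ∈ g.comps R W, (K + s • J) X) w) = fun s : ℂ => ∏ X ∈ g.comps R W, (K X w + s * J X w) := by
    funext s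
    simp [Finset.prod_apply]
  have e2 : prod1 g R K J W w = ∑ X ∈ g.comps R W, (∏ X' ∈ (g.comps R W).erase X, (K X' w + 0 * J X' w)) • J X w := by
    unfold prod1
    simp only [Finset.sum_apply, Pi.mul_apply, Finset.prod_apply, zero_mul, add_zero, smul_eq_mul]
    exact Finset.sum_congr rfl fun X _ => by rw [mul_comm]
  rw [e1, e2]
  exact h

/-- **Lemma A**: the derivative at `s = 0` of the integrated product -/
theorem conv_prod_hasDerivAt (hg : g.Ok) (hR : max 5 V.sep ≤ R) (Γ : Matrix G.V G.V ℝ) (hK : ∀ X, Hol p.h0 g X (K X))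
    (hJ : ∀ X, Hol p.h0 g X (J X)) (hKf : ∀ X, fnSize p g V X (K X) ≠ ⊤) (hJf : ∀ X, fnSize p g V X (J X) ≠ ⊤) (W : Finset g.I)
    (hint : ∀ φ : G.V → ℝ, ∫⁻ ζ, ENNReal.ofReal (Wt g p.δ p.κ V W (φ + ζ)) ∂(gauss G Γ) ≠ ⊤)
    {z : G.V → ℂ} (hz : z ∈ strip p.h0 g W) :
    HasDerivAt (fun s : ℂ => conv Γ (∏ X ∈ g.comps R W, (K + s • J) X) z) (conv Γ (prod1 g R K J W) z) 0 := by
  refine conv_hasDerivAt (Metric.ball 0 1) Metric.isOpen_ball p g V W Γ (fun s => ∏ X ∈ g.comps R W, (K + s • J) X)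
    (fun s _ => Scal.hol_prod_comps (fun X => (hK X).add ((hJ X).const_smul s)) W)
    (∏ X ∈ g.comps R W, (fnSize p g V X (K X) + fnSize p g V X (J X)))
    (ENNReal.prod_ne_top fun X _ => ENNReal.add_ne_top.2 ⟨hKf X, hJf X⟩) (fun s hs => ?_) hint (fun w _ => ?_)
    (Metric.mem_ball_self one_pos) _ (hol_prod1 hK hJ W) (fun w _ => prod_hasDerivAt K J W w) hz
  · refine (Scal.fnSize_prod_comps_le p g hg V hR W (K + s • J)).trans (Finset.prod_le_prod' fun X _ => ?_)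
    refine (Scal.fnSize_add_le p g V X (K X) ((s • J) X)).trans (add_le_add le_rfl ?_)
    refine (Scal.fnSize_smul_le p g V X s (J X)).trans ?_
    have h1 : (‖s‖₊ : ℝ≥0∞) ≤ 1 := by
      have : ‖s‖₊ ≤ 1 := by
        rw [← NNReal.coe_le_coe]
        simpa using (mem_ball_zero_iff.1 hs).le
      exact_mod_cast this
    calc (‖s‖₊ : ℝ≥0∞) * fnSize p g V X (J X) ≤ 1 * fnSize p g V X (J X) := mul_le_mul' h1 le_rfl
      _ = _ := one_mul _
  · simp only [Finset.prod_apply, Pi.add_apply, Pi.smul_apply, smul_eq_mul]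
    exact Scal.differentiableOn_fun_prod _ _ _ fun X _ => by fun_prop

end comps

/-! ## 2. The class of 1-jets: an instance of the closure principle `Scal.FamCls` -/

/-- `LocalFn` only depends on the values in the strip -/
theorem localFn_congr {p : Par} {col : ℕ} {g : Grid G} {X : Finset g.I} {F F' : Fn G} (h : LocalFn p col g X F)
    (e : ∀ z ∈ strip p.h0 g X, F' z = F z) : LocalFn p col g X F' where
  hol := h.hol.congr e
  loc := fun z hz z' hz' hzz => by rw [e z hz, e z' hz']; exact h.loc z hz z' hz' hzz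
  per := fun z hz => by rw [e z hz, e _ (Hol.strip_add_real hz p.ω)]; exact h.per z hz

/-- families `s ↦ x s` whose value AND derivative at `s = 0` are local functions on the support -/
def clsJet (p : Par) (col : ℕ) (g' : Grid G) : Scal.FamCls ℂ (Fn G) g' where
  mem := fun X x => LocalFn p col g' X (x 0) ∧ ∃ x1 : Fn G, LocalFn p col g' X x1 ∧
    ∀ z ∈ strip p.h0 g' X, HasDerivAt (fun s => x s z) (x1 z) 0
  sc := fun c => DifferentiableAt ℂ c 0
  mono := fun h ⟨h0, x1, h1, hd⟩ =>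
    ⟨Scal.localFn_mono h h0, x1, Scal.localFn_mono h h1, fun z hz => hd z (Scal.strip_anti _ g' h hz)⟩
  zero := fun X => ⟨Scal.localFn_zero p col g' X, 0, Scal.localFn_zero p col g' X, fun _ _ => hasDerivAt_const _ _⟩
  one := fun X => ⟨Scal.localFn_one p col g' X, 0, Scal.localFn_zero p col g' X, fun _ _ => hasDerivAt_const _ _⟩
  add := fun ⟨hx0, x1, hx1, hxd⟩ ⟨hy0, y1, hy1, hyd⟩ =>
    ⟨Scal.localFn_add hx0 hy0, x1 + y1, Scal.localFn_add hx1 hy1, fun z hz => (hxd z hz).add (hyd z hz)⟩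
  sub := fun ⟨hx0, x1, hx1, hxd⟩ ⟨hy0, y1, hy1, hyd⟩ =>
    ⟨Scal.localFn_sub hx0 hy0, x1 - y1, Scal.localFn_sub hx1 hy1, fun z hz => (hxd z hz).sub (hyd z hz)⟩
  mul := fun {_ x y} ⟨hx0, x1, hx1, hxd⟩ ⟨hy0, y1, hy1, hyd⟩ =>
    ⟨Scal.localFn_mul hx0 hy0, x1 * y 0 + x 0 * y1, Scal.localFn_add (Scal.localFn_mul hx1 hy0) (Scal.localFn_mul hx0 hy1),
      fun z hz => (hxd z hz).mul (hyd z hz)⟩
  smul := fun {_ c x} hc ⟨hx0, x1, hx1, hxd⟩ =>
    ⟨Scal.localFn_smul (c 0) hx0, c 0 • x1 + deriv c 0 • x 0, Scal.localFn_add (Scal.localFn_smul _ hx1) (Scal.localFn_smul _ hx0),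
      fun z hz => hc.hasDerivAt.smul (hxd z hz)⟩
  sc_one := differentiableAt_const 1
  sc_mul := fun hc hc' => hc.mul hc'

/-! ## 3. The labelled step: definitions, differentiability, admissibility -/

/-- the affine family of designated data `d + s ḋ` (`= F6.Pr.dLin`) -/
def labD {g' : Grid G} (d dd : Desig g' (Fn G)) (s : ℂ) : Desig g' (Fn G) := ⟨d.F + s • dd.F, d.a + s • dd.a⟩

section step

variable {D0 ℓ : ℕ} (P : Pair G D0 ℓ) (Γ : Matrix G.V G.V ℝ)

/-- `s ↦ K' (K + s J, d + s ḋ)` (`= F6.Pr.famT`) -/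
def labFam (r R : ℕ) (K J : Act P.g) (d dd : Desig P.g' (Fn G)) (s : ℂ) : Act P.g' :=
  Kprime P r R (conv Γ) (K + s • J) (labD d dd s)

/-- **the new labelled activity** `J' = ∂_s K' (K + s J, d + s ḋ) |_{s = 0}` (`= (F6.Pr.next ..).JT`) -/
def labJ (r R : ℕ) (K J : Act P.g) (d dd : Desig P.g' (Fn G)) : Act P.g' :=
  fun Y w => deriv (fun s : ℂ => labFam P Γ r R K J d dd s Y w) 0

theorem labFam_zero (r R : ℕ) (K J : Act P.g) (d dd : Desig P.g' (Fn G)) :
    labFam P Γ r R K J d dd 0 = Kprime P r R (conv Γ) K d := by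
  unfold labFam labD
  simp

variable {P Γ}

/-- the standing hypotheses of the labelled step -/
structure LabHyp (p : Par) (col r R n0 : ℕ) (cst : ℝ≥0) (P : Pair G D0 ℓ) (Γ : Matrix G.V G.V ℝ) (Vf : Extra P.g) (Vc : Extra P.g')
    (K J : Act P.g) (d dd : Desig P.g' (Fn G)) : Prop where
  hA : 0 < p.A
  hR : max 5 Vf.sep ≤ R
  reg : RegStable R n0 cst p.δ p.κ P Vf Vc Γ
  K_ok : Act.Ok p col R K
  K_fin : actNorm p P.g Vf K ≠ ⊤
  J_ok : Act.Ok p col R J
  J_fin : actNorm p P.g Vf J ≠ ⊤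
  d_ok : d.Ok p col r
  dd_small : dd.Small r P.g'
  dd_fn : ∀ Y b, LocalFn p col P.g' {b} (dd.F Y b)

variable {p : Par} {col r R n0 : ℕ} {cst : ℝ≥0} {Vf : Extra P.g} {Vc : Extra P.g'} {K J : Act P.g} {d dd : Desig P.g' (Fn G)}

/-- the family `s ↦ K' (K + s J, d + s ḋ) (Y)` is a 1-jet of local functions -/
theorem lab_jet (H : LabHyp p col r R n0 cst P Γ Vf Vc K J d dd) (Y : Finset P.g'.I) :
    (clsJet p col P.g').mem Y fun s => labFam P Γ r R K J d dd s Y := by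
  have hKf := Scal.fnSize_ne_top p H.hA P.g Vf K H.K_fin
  have hJf := Scal.fnSize_ne_top p H.hA P.g Vf J H.J_fin
  have hint := fun (V : Finset P.g.I) => Scal.lintegral_Wt_ne_top (p := p) ENNReal.coe_ne_top H.reg V
  refine (clsJet p col P.g').kprime r R (fun _ => conv Γ) (fun s => K + s • J) (fun s => labD d dd s) (fun V => ?_)
    (fun Y b => ?_) (fun b => ?_) Y
  · refine ⟨?_, conv Γ (prod1 P.g R K J V), ?_, fun z hz => ?_⟩
    · have e : K + (0 : ℂ) • J = K := by simp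
      show LocalFn p col P.g' (P.N.cl V) (conv Γ (∏ X ∈ P.g.comps R V, (K + (0 : ℂ) • J) X))
      rw [e]
      exact Scal.localFn_conv_prod P Γ Vf Vc p col R n0 cst H.hR K H.K_ok.fn hKf H.reg V
    · exact Scal.localFn_coarse P (Finset.Subset.refl _) (Scal.localFn_conv Vf Γ (localFn_prod1 H.K_ok.fn H.J_ok.fn V)
        (fnSize_prod1_ne_top P.ok H.hR hKf hJf V) (hint V))
    · exact conv_prod_hasDerivAt P.ok H.hR Γ (fun X => (H.K_ok.fn X).hol) (fun X => (H.J_ok.fn X).hol) hKf hJf V (hint V)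
        (Scal.strip_coarse _ P (Finset.Subset.refl _) hz)
  · refine ⟨Scal.localFn_add (H.d_ok.fn Y b) (Scal.localFn_smul 0 (H.dd_fn Y b)), dd.F Y b, H.dd_fn Y b, fun z _ => ?_⟩
    show HasDerivAt (fun s : ℂ => d.F Y b z + s * dd.F Y b z) (dd.F Y b z) 0
    simpa using ((hasDerivAt_id (0 : ℂ)).mul_const (dd.F Y b z)).const_add (d.F Y b z)
  · show DifferentiableAt ℂ (fun s : ℂ => (1 + (d.a b + s * dd.a b))⁻¹ - 1) 0
    have hne : (1 + (d.a b + (0 : ℂ) * dd.a b)) ≠ 0 := by simpa using H.d_ok.ne b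
    have h1 : DifferentiableAt ℂ (fun s : ℂ => 1 + (d.a b + s * dd.a b)) 0 := by fun_prop
    exact (h1.inv hne).sub (differentiableAt_const 1)

/-- **(a)** the family is differentiable at `s = 0`, pointwise in the strips, with derivative `J'` -/
theorem lab_hasDerivAt (H : LabHyp p col r R n0 cst P Γ Vf Vc K J d dd) (Y : Finset P.g'.I) {w : G.V → ℂ}
    (hw : w ∈ strip p.h0 P.g' Y) : HasDerivAt (fun s : ℂ => labFam P Γ r R K J d dd s Y w) (labJ P Γ r R K J d dd Y w) 0 := by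
  obtain ⟨_, x1, _, hd⟩ := lab_jet H Y
  exact (hd w hw).differentiableAt.hasDerivAt

/-- **(b)** the new labelled activity is admissible: period, locality (the collar does not grow), analyticity -/
theorem lab_ok (H : LabHyp p col r R n0 cst P Γ Vf Vc K J d dd) : Act.Ok p col R (labJ P Γ r R K J d dd) where
  fn := fun Y => by
    obtain ⟨_, x1, h1, hd⟩ := lab_jet H Y
    exact localFn_congr h1 fun z hz => (hd z hz).deriv
  poly := fun Y hY => by
    funext w
    have e : (fun s : ℂ => labFam P Γ r R K J d dd s Y w) = fun _ => 0 := by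
      funext s
      unfold labFam Kprime Kext
      rw [if_neg hY]
      rfl
    show deriv (fun s : ℂ => labFam P Γ r R K J d dd s Y w) 0 = 0
    rw [e]
    exact deriv_const _ _

/-! ## 4. The exact labelled identity -/

/-- the derivative of the subset partition functional along a pointwise differentiable family -/
theorem ZA_hasDerivAt {g : Grid G} (R : ℕ) (x : ℂ → Act g) (x1 : Act g) (z : G.V → ℂ)
    (h : ∀ Y, HasDerivAt (fun s => x s Y z) (x1 Y z) 0) : HasDerivAt (fun s => ZA g R (x s) z) (ZA1 g R (x 0) x1 z) 0 := by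
  classical
  have e1 : (fun s => ZA g R (x s) z) = fun s => ∑ V : Finset g.I, ∏ Y ∈ g.comps R V, x s Y z := by
    funext s
    simp only [ZA, Finset.sum_apply, Finset.prod_apply]
  have e2 : ZA1 g R (x 0) x1 z = ∑ V : Finset g.I, ∑ Y ∈ g.comps R V, (∏ Y' ∈ (g.comps R V).erase Y, x 0 Y' z) • x1 Y z := by
    simp only [ZA1, Finset.sum_apply, Pi.mul_apply, Finset.prod_apply, smul_eq_mul]
    exact Finset.sum_congr rfl fun V _ => Finset.sum_congr rfl fun Y _ => by rw [mul_comm]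
  rw [e1, e2]
  exact HasDerivAt.fun_sum fun V _ => HasDerivAt.fun_finsetProd fun Y _ => h Y

/-- the derivative of `conv Γ (𝒵 (K + s J))` -/
theorem conv_ZA_hasDerivAt (H : LabHyp p col r R n0 cst P Γ Vf Vc K J d dd) {z : G.V → ℂ} (hz : z ∈ strip p.h0 P.g Finset.univ) :
    HasDerivAt (fun s : ℂ => conv Γ (ZA P.g R (K + s • J)) z) (conv Γ (ZA1 P.g R K J) z) 0 := by
  have hKf := Scal.fnSize_ne_top p H.hA P.g Vf K H.K_fin
  have hJf := Scal.fnSize_ne_top p H.hA P.g Vf J H.J_fin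
  have hint := fun (V : Finset P.g.I) => Scal.lintegral_Wt_ne_top (p := p) ENNReal.coe_ne_top H.reg V
  have hzW : ∀ W : Finset P.g.I, z ∈ strip p.h0 P.g W := fun W => Scal.strip_anti _ P.g (Finset.subset_univ W) hz
  have e1 : (fun s : ℂ => conv Γ (ZA P.g R (K + s • J)) z)
      = fun s : ℂ => ∑ W : Finset P.g.I, conv Γ (∏ X ∈ P.g.comps R W, (K + s • J) X) z := by
    funext s
    refine Scal.conv_ZA_strip P.ok H.hR Γ (fun X => ((H.K_ok.fn X).hol).add (((H.J_ok.fn X).hol).const_smul s)) (fun X => ?_) hint hz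
    exact ne_top_of_le_ne_top (ENNReal.add_ne_top.2 ⟨hKf X, ENNReal.mul_ne_top ENNReal.coe_ne_top (hJf X)⟩)
      ((Scal.fnSize_add_le p P.g Vf X (K X) ((s • J) X)).trans (add_le_add le_rfl (Scal.fnSize_smul_le p P.g Vf X s (J X))))
  have e2 : conv Γ (ZA1 P.g R K J) z = ∑ W : Finset P.g.I, conv Γ (prod1 P.g R K J W) z := by
    simp only [Scal.conv_apply, ZA1_eq, Finset.sum_apply]
    exact integral_finsetSum _ fun W _ => Scal.integrable_strip p P.g Vf W Γ _
      (hol_prod1 (fun X => (H.K_ok.fn X).hol) (fun X => (H.J_ok.fn X).hol) W) (fnSize_prod1_ne_top P.ok H.hR hKf hJf W) (hint W) (hzW W)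
  rw [e1, e2]
  exact HasDerivAt.fun_sum fun W _ => conv_prod_hasDerivAt P.ok H.hR Γ (fun X => (H.K_ok.fn X).hol) (fun X => (H.J_ok.fn X).hol)
    hKf hJf W (hint W) (hzW W)

/-- the perturbed data are admissible for small `s` -/
theorem labD_ok (H : LabHyp p col r R n0 cst P Γ Vf Vc K J d dd) : ∀ᶠ s : ℂ in 𝓝 0, (labD d dd s).Ok p col r := by
  have h1 : ∀ b : P.g'.I, ∀ᶠ s : ℂ in 𝓝 0, 1 + (d.a b + s * dd.a b) ≠ 0 := by
    intro b
    have hc : ContinuousAt (fun s : ℂ => 1 + (d.a b + s * dd.a b)) 0 := by fun_prop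
    exact hc.eventually_ne (by simpa using H.d_ok.ne b)
  filter_upwards [Filter.eventually_all.2 h1] with s hs
  exact
    { small := fun Y b hYb => by
        show d.F Y b + s • dd.F Y b = 0
        rw [H.d_ok.small Y b hYb, H.dd_small Y b hYb, smul_zero, add_zero]
      fn := fun Y b => Scal.localFn_add (H.d_ok.fn Y b) (Scal.localFn_smul s (H.dd_fn Y b))
      ne := hs }

theorem lab_K_ok (H : LabHyp p col r R n0 cst P Γ Vf Vc K J d dd) (s : ℂ) :
    Act.Ok p col R (K + s • J) ∧ actNorm p P.g Vf (K + s • J) ≠ ⊤ :=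
  ⟨Scal.actOk_add H.K_ok (Scal.actOk_smul s H.J_ok),
    ne_top_of_le_ne_top (ENNReal.add_ne_top.2 ⟨H.K_fin, ENNReal.mul_ne_top ENNReal.coe_ne_top H.J_fin⟩)
      ((Scal.actNorm_add_le p P.g Vf K (s • J)).trans (add_le_add le_rfl (Scal.actNorm_smul_le p P.g Vf s J)))⟩

/-- **(c) the labelled version of (eq:exact-local-map)** = [F] (obs:dual-number-map): the coefficient of `s` in the exact map for `K + s J`, `d + s ḋ`, at all complex fields of the smallest strip -/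
theorem lab_exact (H : LabHyp p col r R n0 cst P Γ Vf Vc K J d dd) (ρ : ℕ) (hρ : ρ + 1 < r) (hrR : r + 2 < R)
    (hcol : 2 * col < P.g'.m) (hL : R ≤ 2 ^ ℓ) (hΓ : Γ.PosSemidef) (hr : FinRange Γ (ρ * P.g'.m))
    {z : G.V → ℂ} (hz : z ∈ strip p.h0 P.g' Finset.univ) :
    conv Γ (ZA1 P.g R K J) z = (∏ b : P.g'.I, (1 + d.a b)) *
      ((∑ b : P.g'.I, dd.a b / (1 + d.a b)) * ZA P.g' R (Kprime P r R (conv Γ) K d) z
        + ZA1 P.g' R (Kprime P r R (conv Γ) K d) (labJ P Γ r R K J d dd) z) := by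
  classical
  have h1 := conv_ZA_hasDerivAt H (Scal.strip_coarse _ P (Finset.subset_univ _) hz)
  have hA : HasDerivAt (fun s : ℂ => ∏ b : P.g'.I, (1 + (labD d dd s).a b))
      (∑ b : P.g'.I, (∏ b' ∈ Finset.univ.erase b, (1 + (labD d dd 0).a b')) • dd.a b) 0 :=
    HasDerivAt.fun_finsetProd fun b _ => by
      show HasDerivAt (fun s : ℂ => 1 + (d.a b + s * dd.a b)) (dd.a b) 0
      simpa using (((hasDerivAt_id (0 : ℂ)).mul_const (dd.a b)).const_add (d.a b)).const_add 1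
  have hB := ZA_hasDerivAt R (fun s => labFam P Γ r R K J d dd s) (labJ P Γ r R K J d dd) z
    fun Y => lab_hasDerivAt H Y (Scal.strip_anti _ P.g' (Finset.subset_univ Y) hz)
  have h2 := hA.mul hB
  have hev : (fun s : ℂ => conv Γ (ZA P.g R (K + s • J)) z)
      =ᶠ[𝓝 0] fun s : ℂ => (∏ b : P.g'.I, (1 + (labD d dd s).a b)) * ZA P.g' R (labFam P Γ r R K J d dd s) z := by
    filter_upwards [labD_ok H] with s hs
    exact Scal.exact_map_strip P Γ Vf Vc p H.hA ρ col r R n0 cst hρ hrR hcol hL H.hR hΓ hr (K + s • J) (lab_K_ok H s).1 (lab_K_ok H s).2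
      H.reg (labD d dd s) hs z hz
  have h3 := (h2.congr_of_eventuallyEq hev).unique h1
  rw [← h3]
  have e0 : ∀ b, (labD d dd 0).a b = d.a b := fun b => by simp [labD]
  simp only [e0, labFam_zero, smul_eq_mul]
  have e1 : ∑ b : P.g'.I, (∏ b' ∈ Finset.univ.erase b, (1 + d.a b')) * dd.a b
      = (∏ b : P.g'.I, (1 + d.a b)) * ∑ b : P.g'.I, dd.a b / (1 + d.a b) := by
    rw [Finset.mul_sum]
    refine Finset.sum_congr rfl fun b _ => ?_
    rw [← Finset.mul_prod_erase Finset.univ (fun b => 1 + d.a b) (Finset.mem_univ b)]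
    have := H.d_ok.ne b
    field_simp
  rw [e1]
  ring

/-! ## 5. The norm of the new labelled activity -/

/-- **lower semicontinuity of the norm along difference quotients** -/
theorem actNorm_deriv_le {g : Grid G} (p : Par) (V : Extra g) (x : ℂ → Act g) (x1 : Act g) (B : ℝ≥0∞)
    (hd : ∀ Y, ∀ w ∈ strip p.h0 g Y, HasDerivAt (fun s => x s Y w) (x1 Y w) 0)
    (hB : ∀ᶠ s : ℂ in 𝓝[≠] 0, actNorm p g V (x s - x 0) ≤ B * ‖s‖₊) : actNorm p g V x1 ≤ B := by
  rw [Scal.actNorm_le_iff']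
  intro X φ f hf
  have hw : toC φ + f ∈ strip p.h0 g X := Hol.toC_add_mem_strip φ hf
  have h1 := (hd X _ hw).tendsto_slope_zero
  have h2 : Filter.Tendsto (fun t : ℂ => ENNReal.ofReal (p.A ^ X.card) *
      (‖t⁻¹ • (x (0 + t) X (toC φ + f) - x 0 X (toC φ + f))‖₊ : ℝ≥0∞)) (𝓝[≠] 0)
      (𝓝 (ENNReal.ofReal (p.A ^ X.card) * (‖x1 X (toC φ + f)‖₊ : ℝ≥0∞))) :=
    ENNReal.Tendsto.const_mul (ENNReal.tendsto_coe.2 h1.nnnorm) (Or.inr ENNReal.ofReal_ne_top)
  refine le_of_tendsto h2 ?_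
  filter_upwards [hB, self_mem_nhdsWithin] with t ht ht0
  have ht0' : ‖t‖₊ ≠ 0 := by simpa using ht0
  have h3 := (Scal.actNorm_le_iff' p g V (x t - x 0) _).1 ht X φ f hf
  rw [zero_add, nnnorm_smul, nnnorm_inv, ENNReal.coe_mul]
  calc ENNReal.ofReal (p.A ^ X.card) * (((‖t‖₊⁻¹ : ℝ≥0) : ℝ≥0∞) * (‖x t X (toC φ + f) - x 0 X (toC φ + f)‖₊ : ℝ≥0∞))
      = ((‖t‖₊⁻¹ : ℝ≥0) : ℝ≥0∞) * (ENNReal.ofReal (p.A ^ X.card) * (‖(x t - x 0) X (toC φ + f)‖₊ : ℝ≥0∞)) := by
        rw [Pi.sub_apply, Pi.sub_apply]; ring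
    _ ≤ ((‖t‖₊⁻¹ : ℝ≥0) : ℝ≥0∞) * (B * ‖t‖₊ * ENNReal.ofReal (Wt g p.δ p.κ V X φ)) := mul_le_mul' le_rfl h3
    _ = B * ENNReal.ofReal (Wt g p.δ p.κ V X φ) * (((‖t‖₊⁻¹ * ‖t‖₊ : ℝ≥0)) : ℝ≥0∞) := by rw [ENNReal.coe_mul]; ring
    _ = B * ENNReal.ofReal (Wt g p.δ p.κ V X φ) := by rw [inv_mul_cancel₀ ht0', ENNReal.coe_one, mul_one]

theorem conv_add_smul {p : Par} {g : Grid G} (V : Extra g) {X : Finset g.I} (Γ : Matrix G.V G.V ℝ) {F F' : Fn G}
    (hF : Hol p.h0 g X F) (hF' : Hol p.h0 g X F') (hfin : fnSize p g V X F ≠ ⊤) (hfin' : fnSize p g V X F' ≠ ⊤)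
    (hint : ∀ φ : G.V → ℝ, ∫⁻ ζ, ENNReal.ofReal (Wt g p.δ p.κ V X (φ + ζ)) ∂(gauss G Γ) ≠ ⊤) (s : ℂ)
    {z : G.V → ℂ} (hz : z ∈ strip p.h0 g X) : conv Γ (F + s • F') z = conv Γ F z + s * conv Γ F' z := by
  simp only [Scal.conv_apply, Pi.add_apply, Pi.smul_apply, smul_eq_mul]
  rw [integral_add (Scal.integrable_strip p g V X Γ F hF hfin hint hz)
    ((Scal.integrable_strip p g V X Γ F' hF' hfin' hint hz).const_mul s), integral_const_mul]

open Classical in
theorem Klin_apply (R : ℕ) (E : Fn G → Fn G) (K : Act P.g) (d : Desig P.g' (Fn G)) {Y : Finset P.g'.I} (hY : P.g'.Conn R Y)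
    (w : G.V → ℂ) : Klin P R E K d Y w
      = (∑ X ∈ Finset.univ.filter (fun X : Finset P.g.I => P.g.Conn R X ∧ P.N.cl X = Y), E (K X) w) - (∑ b ∈ Y, d.F Y b w)
        + ∑ b ∈ Y, if Y = {b} then (∑ Y' : Finset P.g'.I, if b ∈ Y' then d.F Y' b w else 0) - d.a b else 0 := by
  unfold Klin
  rw [if_pos hY]
  simp only [Pi.add_apply, Pi.sub_apply, Finset.sum_apply]
  congr 1
  refine Finset.sum_congr rfl fun b _ => ?_
  split_ifs with h
  · simp only [Pi.sub_apply, Finset.sum_apply, Pi.smul_apply, Pi.one_apply, smul_eq_mul, mul_one]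
    congr 1
    refine Finset.sum_congr rfl fun Y' _ => ?_
    split_ifs <;> rfl
  · rfl

/-- the linear part is affine along the family, inside the strips -/
theorem Klin_lab (H : LabHyp p col r R n0 cst P Γ Vf Vc K J d dd) (s : ℂ) (Y : Finset P.g'.I) {w : G.V → ℂ}
    (hw : w ∈ strip p.h0 P.g' Y) : Klin P R (conv Γ) (K + s • J) (labD d dd s) Y w
      = Klin P R (conv Γ) K d Y w + s * Klin P R (conv Γ) J dd Y w := by
  classical
  by_cases hY : P.g'.Conn R Y
  · have hKf := Scal.fnSize_ne_top p H.hA P.g Vf K H.K_fin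
    have hJf := Scal.fnSize_ne_top p H.hA P.g Vf J H.J_fin
    have c1 : ∀ X ∈ Finset.univ.filter (fun X : Finset P.g.I => P.g.Conn R X ∧ P.N.cl X = Y),
        conv Γ ((K + s • J) X) w = conv Γ (K X) w + s * conv Γ (J X) w := by
      intro X hX
      have hcl : P.N.cl X = Y := (Finset.mem_filter.1 hX).2.2
      exact conv_add_smul Vf Γ (H.K_ok.fn X).hol (H.J_ok.fn X).hol (hKf X) (hJf X)
        (Scal.lintegral_Wt_ne_top (p := p) ENNReal.coe_ne_top H.reg X) s (Scal.strip_coarse _ P (by rw [hcl]) hw)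
    have c3 : ∀ b : P.g'.I, (if Y = {b} then (∑ Y' : Finset P.g'.I, if b ∈ Y' then (labD d dd s).F Y' b w else 0) - (labD d dd s).a b else 0)
        = (if Y = {b} then (∑ Y' : Finset P.g'.I, if b ∈ Y' then d.F Y' b w else 0) - d.a b else 0)
          + s * (if Y = {b} then (∑ Y' : Finset P.g'.I, if b ∈ Y' then dd.F Y' b w else 0) - dd.a b else 0) := by
      intro b
      split_ifs with h
      · have e : (∑ Y' : Finset P.g'.I, if b ∈ Y' then (labD d dd s).F Y' b w else 0)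
            = (∑ Y' : Finset P.g'.I, if b ∈ Y' then d.F Y' b w else 0) + s * ∑ Y' : Finset P.g'.I, if b ∈ Y' then dd.F Y' b w else 0 := by
          rw [Finset.mul_sum, ← Finset.sum_add_distrib]
          refine Finset.sum_congr rfl fun Y' _ => ?_
          split_ifs
          · rfl
          · simp
        rw [e]
        show _ - (d.a b + s * dd.a b) = _
        ring
      · simp
    have c2 : ∀ b : P.g'.I, (labD d dd s).F Y b w = d.F Y b w + s * dd.F Y b w := fun b => rfl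
    rw [Klin_apply R _ _ _ hY, Klin_apply R _ _ _ hY, Klin_apply R _ _ _ hY, Finset.sum_congr rfl c1,
      Finset.sum_congr rfl fun b _ => c3 b, Finset.sum_congr rfl fun b _ => c2 b]
    simp only [Finset.sum_add_distrib, ← Finset.mul_sum]
    ring
  · unfold Klin
    simp [if_neg hY]

/-- the nonlinear part along the family -/
def labN (P : Pair G D0 ℓ) (Γ : Matrix G.V G.V ℝ) (r R : ℕ) (K J : Act P.g) (d dd : Desig P.g' (Fn G)) (s : ℂ) : Act P.g' :=
  labFam P Γ r R K J d dd s - Klin P R (conv Γ) (K + s • J) (labD d dd s)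

theorem labD_zero {g' : Grid G} (d dd : Desig g' (Fn G)) : labD d dd 0 = d := by simp [labD]

theorem labN_zero (r R : ℕ) (K J : Act P.g) (d dd : Desig P.g' (Fn G)) :
    labN P Γ r R K J d dd 0 = Kprime P r R (conv Γ) K d - Klin P R (conv Γ) K d := by
  unfold labN
  rw [labFam_zero, labD_zero, zero_smul, add_zero]

theorem labN_hasDerivAt (H : LabHyp p col r R n0 cst P Γ Vf Vc K J d dd) (Y : Finset P.g'.I) {w : G.V → ℂ}
    (hw : w ∈ strip p.h0 P.g' Y) :
    HasDerivAt (fun s : ℂ => labN P Γ r R K J d dd s Y w) ((labJ P Γ r R K J d dd - Klin P R (conv Γ) J dd) Y w) 0 := by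
  have h1 : HasDerivAt (fun s : ℂ => Klin P R (conv Γ) (K + s • J) (labD d dd s) Y w) (Klin P R (conv Γ) J dd Y w) 0 := by
    have e : (fun s : ℂ => Klin P R (conv Γ) (K + s • J) (labD d dd s) Y w)
        = fun s : ℂ => Klin P R (conv Γ) K d Y w + s * Klin P R (conv Γ) J dd Y w := funext fun s => Klin_lab H s Y hw
    rw [e]
    simpa using ((hasDerivAt_id (0 : ℂ)).mul_const (Klin P R (conv Γ) J dd Y w)).const_add (Klin P R (conv Γ) K d Y w)
  exact (lab_hasDerivAt H Y hw).sub h1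

/-- **(d), abstract form**: a Lipschitz bound of the nonlinear part along the family bounds `J' - Klin (J, ḋ)` -/
theorem lab_bound_of (H : LabHyp p col r R n0 cst P Γ Vf Vc K J d dd) (B : ℝ≥0∞)
    (hB : ∀ᶠ s : ℂ in 𝓝[≠] 0, actNorm p P.g' Vc (labN P Γ r R K J d dd s - labN P Γ r R K J d dd 0) ≤ B * ‖s‖₊) :
    actNorm p P.g' Vc (labJ P Γ r R K J d dd - Klin P R (conv Γ) J dd) ≤ B :=
  actNorm_deriv_le p Vc (labN P Γ r R K J d dd) _ B (fun Y _ hw => labN_hasDerivAt H Y hw) hB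

theorem size_smul_le (p : Par) {g' : Grid G} (V : Extra g') (dd : Desig g' (Fn G)) (s : ℂ) :
    Desig.size p V ⟨s • dd.F, s • dd.a⟩ ≤ ‖s‖₊ * dd.size p V := by
  unfold Desig.size
  refine iSup_le fun b => ?_
  calc (∑ Y : Finset g'.I, fnSize p g' V {b} ((s • dd.F) Y b)) + (‖(s • dd.a) b‖₊ : ℝ≥0∞)
      ≤ (∑ Y : Finset g'.I, ‖s‖₊ * fnSize p g' V {b} (dd.F Y b)) + ‖s‖₊ * (‖dd.a b‖₊ : ℝ≥0∞) := by
        refine add_le_add (Finset.sum_le_sum fun Y _ => Scal.fnSize_smul_le p g' V {b} s _) (le_of_eq ?_)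
        rw [Pi.smul_apply, smul_eq_mul, nnnorm_mul, ENNReal.coe_mul]
    _ = ‖s‖₊ * ((∑ Y : Finset g'.I, fnSize p g' V {b} (dd.F Y b)) + (‖dd.a b‖₊ : ℝ≥0∞)) := by
        rw [← Finset.mul_sum, mul_add]
    _ ≤ _ := mul_le_mul' le_rfl
        (le_iSup (fun b : g'.I => (∑ Y : Finset g'.I, fnSize p g' V {b} (dd.F Y b)) + (‖dd.a b‖₊ : ℝ≥0∞)) b)

theorem labD_size_le (p : Par) {g' : Grid G} (V : Extra g') (d dd : Desig g' (Fn G)) (s : ℂ) :
    (labD d dd s).size p V ≤ d.size p V + ‖s‖₊ * dd.size p V := by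
  have h := Scal.lineD_size_le p V ⟨d.F + dd.F, d.a + dd.a⟩ d s
  simpa [Scal.lineD, labD] using h

theorem eventually_nnnorm_mul_le {c η : ℝ≥0∞} (hc : c ≠ ⊤) (hη : 0 < η) : ∀ᶠ s : ℂ in 𝓝 0, (‖s‖₊ : ℝ≥0∞) * c ≤ η := by
  have h1 : Filter.Tendsto (fun s : ℂ => (‖s‖₊ : ℝ≥0∞)) (𝓝 0) (𝓝 ((‖(0 : ℂ)‖₊ : ℝ≥0) : ℝ≥0∞)) :=
    ENNReal.tendsto_coe.2 (continuous_nnnorm.tendsto 0)
  have h2 := ENNReal.Tendsto.mul_const h1 (Or.inr hc)
  rw [nnnorm_zero, ENNReal.coe_zero, zero_mul] at h2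
  exact h2.eventually_le_const hη

/-- (d) at a radius `ε' > ε` -/
theorem StepGain.label_aux {Cg Cd Cnl ε0 η : ℝ≥0} {β : ℝ} (h : StepGain p r R n0 Cg Cd Cnl ε0 η β P Γ Vf Vc)
    (H : LabHyp p col r R n0 cst P Γ Vf Vc K J d dd) (hCd : 0 < Cd) {ε ε' : ℝ≥0} (hε : ε < ε') (hε' : ε' ≤ ε0)
    (hK : actNorm p P.g Vf K ≤ ε) (hd : d.size p Vc ≤ Cd * ε) (hdd : dd.size p Vc ≠ ⊤) :
    actNorm p P.g' Vc (labJ P Γ r R K J d dd - Klin P R (conv Γ) J dd) ≤ Cnl * ε' * (actNorm p P.g Vf J + dd.size p Vc) := by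
  refine lab_bound_of H _ ?_
  have hpos : 0 < ε' - ε := tsub_pos_of_lt hε
  have e1 := eventually_nnnorm_mul_le H.J_fin (η := ((ε' - ε : ℝ≥0) : ℝ≥0∞)) (ENNReal.coe_pos.2 hpos)
  have e2 := eventually_nnnorm_mul_le hdd (η := ((Cd * (ε' - ε) : ℝ≥0) : ℝ≥0∞)) (ENNReal.coe_pos.2 (mul_pos hCd hpos))
  filter_upwards [nhdsWithin_le_nhds e1, nhdsWithin_le_nhds e2, nhdsWithin_le_nhds (labD_ok H)] with s h1 h2 h3
  have hεε : (ε : ℝ≥0∞) ≤ ε' := by exact_mod_cast hε.le
  have n1 : actNorm p P.g Vf (K + s • J) ≤ ε' := by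
    calc actNorm p P.g Vf (K + s • J) ≤ actNorm p P.g Vf K + ‖s‖₊ * actNorm p P.g Vf J :=
          (Scal.actNorm_add_le p P.g Vf K (s • J)).trans (add_le_add le_rfl (Scal.actNorm_smul_le p P.g Vf s J))
      _ ≤ (ε : ℝ≥0∞) + ((ε' - ε : ℝ≥0) : ℝ≥0∞) := add_le_add hK h1
      _ = ε' := by rw [← ENNReal.coe_add, add_tsub_cancel_of_le hε.le]
  have n2 : (labD d dd s).size p Vc ≤ Cd * ε' := by
    calc (labD d dd s).size p Vc ≤ d.size p Vc + ‖s‖₊ * dd.size p Vc := labD_size_le p Vc d dd s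
      _ ≤ (Cd : ℝ≥0∞) * ε + ((Cd * (ε' - ε) : ℝ≥0) : ℝ≥0∞) := add_le_add hd h2
      _ = Cd * ε' := by rw [← ENNReal.coe_mul, ← ENNReal.coe_add, ← mul_add, add_tsub_cancel_of_le hε.le, ENNReal.coe_mul]
  have := h.lip col ε' hε' (K + s • J) K (labD d dd s) d (lab_K_ok H s).1 H.K_ok h3 H.d_ok n1 (hK.trans hεε) n2
    (hd.trans (mul_le_mul' le_rfl hεε))
  rw [labN_zero]
  refine this.trans ?_
  have a1 : K + s • J - K = s • J := add_sub_cancel_left _ _
  have a2 : (⟨(labD d dd s).F - d.F, (labD d dd s).a - d.a⟩ : Desig P.g' (Fn G)) = ⟨s • dd.F, s • dd.a⟩ := by simp [labD]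
  rw [a1, a2]
  calc (Cnl : ℝ≥0∞) * ε' * (actNorm p P.g Vf (s • J) + Desig.size p Vc ⟨s • dd.F, s • dd.a⟩)
      ≤ (Cnl : ℝ≥0∞) * ε' * (‖s‖₊ * actNorm p P.g Vf J + ‖s‖₊ * dd.size p Vc) :=
        mul_le_mul' le_rfl (add_le_add (Scal.actNorm_smul_le p P.g Vf s J) (size_smul_le p Vc dd s))
    _ = _ := by ring

/-- **(d) the norm of the new labelled activity**: `J' = Klin (J, ḋ) + O (ε (‖J‖ + ‖ḋ‖))`, NO smallness of `J`, `ḋ` ([F] (obs:label-recurrence)) -/
theorem StepGain.label {Cg Cd Cnl ε0 η : ℝ≥0} {β : ℝ} (h : StepGain p r R n0 Cg Cd Cnl ε0 η β P Γ Vf Vc)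
    (H : LabHyp p col r R n0 cst P Γ Vf Vc K J d dd) (hCd : 0 < Cd) {ε : ℝ≥0} (hε : ε < ε0)
    (hK : actNorm p P.g Vf K ≤ ε) (hd : d.size p Vc ≤ Cd * ε) (hdd : dd.size p Vc ≠ ⊤) :
    actNorm p P.g' Vc (labJ P Γ r R K J d dd - Klin P R (conv Γ) J dd) ≤ Cnl * ε * (actNorm p P.g Vf J + dd.size p Vc) := by
  obtain ⟨T, hT⟩ : ∃ T : ℝ≥0, actNorm p P.g Vf J + dd.size p Vc = T :=
    ⟨_, (ENNReal.coe_toNNReal (ENNReal.add_ne_top.2 ⟨H.J_fin, hdd⟩)).symm⟩
  rw [hT]
  refine ENNReal.le_of_forall_pos_le_add fun η' hη' _ => ?_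
  set δ : ℝ≥0 := min (ε0 - ε) (η' / (Cnl * T + 1)) with hδ
  have hδ0 : 0 < δ := lt_min (tsub_pos_of_lt hε) (by positivity)
  have h1 := h.label_aux H hCd (ε' := ε + δ) (lt_add_of_pos_right ε hδ0)
    (by calc ε + δ ≤ ε + (ε0 - ε) := by gcongr; exact min_le_left _ _
          _ = ε0 := add_tsub_cancel_of_le hε.le) hK hd hdd
  rw [hT] at h1
  refine h1.trans ?_
  have h2 : Cnl * (ε + δ) * T ≤ Cnl * ε * T + η' := by
    have h3 : δ * (Cnl * T) ≤ η' := by
      calc δ * (Cnl * T) ≤ η' / (Cnl * T + 1) * (Cnl * T + 1) := by gcongr; exacts [min_le_right _ _, le_self_add]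
        _ = η' := div_mul_cancel₀ _ (by positivity)
    calc Cnl * (ε + δ) * T = Cnl * ε * T + δ * (Cnl * T) := by ring
      _ ≤ _ := by gcongr
  exact_mod_cast h2

end step

end

end Claimed.Agent.R285.F4a
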