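import Claimed.Agent.R285.F4a.Unfold
import Claimed.Agent.R285.F4a.Chi
import Claimed.Agent.R285.F4a.EnB

/-!
# ROW 285, F4a: integral tilt and cutoff loss (ent:cutoff-loss)   (architect helper251)   LEAVES L-F4a-LOSS-A (face_tilt_int), -B (cutoff_loss), -C (cutoff_loss_tilt)

A. `face_tilt_int`: `lintegral_fund_Zobs` with `g = exp(∑ t_f w_f)` (periodic: `w_f` only sees differences), `lintegral_gauss_tilt` with `r = rdiv`: numerator `= (2π)^{N/2} e^{|r|²/2} ∑_{h(v₀)=0} wt^τ(h) exp(2π q·(∇h+τ))`, `q = ∑ t_f Φ_f`;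
   denominator `Pint_one`; then `lsys_ratio_mono` for the PLAIN law (release to independent bonds), `bes_mgf`, and the numerical bounds of `Tilt.lean`.
B. `cutoff_loss`: `|𝒫(F) - \hat𝒫(F)| ≤ ∫ Z^τ (1 - ∏ χ) ≤ ∑_f ∫ Z^τ (1 - χ_s(w_f))`; split `|w_f| ≤ s/2` (`chi_tails`, `𝒫^τ(1) ≤ 𝒫^0(1)` = A at `t = 0`) and `|w_f| > s/2` (Chernoff: `1 ≤ e^{-δ s²/2}(e^{δ s w_f} + e^{-δ s w_f})`, A with one non-zero `t_f = ± δ s`).
C. `cutoff_loss_tilt`: Hölder / Cauchy-Schwarz: `∫ |ℓ|^k e^{tℓ} Z^0 (1 - ∏χ) ≤ (∫ ℓ^{2k} e^{2tℓ} Z^0)^{1/2} (∫ Z^0 (1 - ∏χ)²)^{1/2}`, `(1-∏χ)² ≤ 1 - ∏χ`; first factor: `x^{2k} ≤ (2k)! cosh x`, unfolding + Gaussian tilt + reference cost with the flow `q` of the hypothesis.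
-/

set_option autoImplicit false

namespace Claimed.Agent.R285.F4a

open scoped BigOperators ENNReal NNReal
open MeasureTheory ProbabilityTheory Polynomial
open Claimed.Agent.R285 Claimed.Agent.R285.RG

noncomputable section

variable {G : Geom}

/-! ### 0. the shifted reference cost -/

/-- the transform of independent bonds with a shift -/
theorem fl_free_wT (S : LSys) (hb : ∀ e, 0 < S.b e) (t : S.E → ℝ) (α : (Rsd.freeSys S).Amb) :
    (Rsd.freeSys S).wT α (Rsd.flowStat S t)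
      = Real.exp (-∑ e, t e * (α.1 e : ℝ)) * Real.exp (∑ e, S.b e * (Real.cosh (t e) - 1)) := by
  rw [← Rsd.free_wT S hb t, Rsd.cs_wT_eq, Rsd.cs_wT_eq]
  let g : (Rsd.freeSys S).L := ⟨α, AddSubgroup.mem_top _⟩
  rw [← (Equiv.addRight g).tsum_eq fun z : (Rsd.freeSys S).L =>
    Real.exp (Rsd.flowStat S t z) * (Rsd.freeSys S).W ((z : (Rsd.freeSys S).Amb) + 0), ← tsum_mul_left]
  refine tsum_congr fun z => ?_
  have h1 : Rsd.flowStat S t ((Equiv.addRight g) z) = Rsd.flowStat S t z + ∑ e, t e * (α.1 e : ℝ) := by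
    rw [Equiv.coe_addRight, map_add]
    rfl
  have h2 : (((Equiv.addRight g) z : (Rsd.freeSys S).L) : (Rsd.freeSys S).Amb) + 0 = (z : (Rsd.freeSys S).Amb) + α := by
    rw [add_zero]
    rfl
  rw [h1, h2, Real.exp_add, Real.exp_neg]
  have := Real.exp_pos (∑ e, t e * (α.1 e : ℝ))
  field_simp

/-- **shifted reference cost**: the transform of a flow in an affine law, with the denominators of the centred law. -/
theorem fl_shift_reference (S : LSys) (hS : S.Ok) (t : S.E → ℝ) (α : S.Amb) :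
    S.Zf α (fun z => Real.exp (∑ e, t e * ((z : S.Amb).1 e : ℝ)))
      ≤ Real.exp (-∑ e, t e * (α.1 e : ℝ)) * Real.exp (∑ e, S.b e * (Real.cosh (t e) - 1)) * S.w 0 := by
  have h := lsys_ratio_mono (Rsd.freeRef S) (Rsd.freeSys_ok S hS.1) hS α (Rsd.flowStat S t)
  rw [fl_free_wT S hS.1, Rsd.free_w S hS.1, div_one, div_le_iff₀ (Rsd.cs_w_pos hS 0)] at h
  exact h


/-! ### 1. graphs -/

section graph

variable (Γ : HGraph) (P : Set Γ.V)

/-- the affine datum of a connection -/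
def flAmb (b : ℝ) (τ : Γ.E → ℤ) : ((HLaw.plain Γ P).sys b).Amb :=
  HLaw.Aff.amb (H := HLaw.plain Γ P) ⟨0, τ, fun o => o.elim⟩ b

theorem fl_amb_fst (b : ℝ) (τ : Γ.E → ℤ) (e : Γ.E) : (flAmb Γ P b τ).1 e = τ e := by
  show ((0 : Γ.V → ℤ) (Γ.tgt e) - (0 : Γ.V → ℤ) (Γ.src e)) + τ e = τ e
  simp

theorem fl_amb_zero (b : ℝ) : flAmb Γ P b 0 = 0 := by
  refine Prod.ext (funext fun e => ?_) (funext fun o => (o : Empty).elim)
  exact fl_amb_fst Γ P b 0 e

theorem fl_W_eq (b : ℝ) (τ : Γ.E → ℤ) (h : Γ.V → ℤ) :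
    ((HLaw.plain Γ P).sys b).W ((HLaw.plain Γ P).coordA b h + flAmb Γ P b τ) = Γ.wt b τ h := by
  unfold LSys.W HGraph.wt
  have e3 : (∑ o : ((HLaw.plain Γ P).sys b).O, ((HLaw.plain Γ P).coordA b h + flAmb Γ P b τ).2 o ^ 2) = 0 :=
    Finset.sum_eq_zero fun o _ => (o : Empty).elim
  rw [e3, neg_zero, zero_div, Real.exp_zero, mul_one]
  refine Finset.prod_congr rfl fun (e : Γ.E) _ => ?_
  exact congrArg (fun k : ℤ => bes b ((h (Γ.tgt e) - h (Γ.src e)) + k)) (fl_amb_fst Γ P b τ e)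

theorem fl_plain_ok (b : ℝ) (hb : 0 < b) : ((HLaw.plain Γ P).sys b).Ok :=
  haveI : IsEmpty (HLaw.plain Γ P).O := (inferInstance : IsEmpty Empty)
  HLaw.ok_of_isEmpty (HLaw.plain Γ P) b hb

/-- the term of the tilted sum -/
def flTerm (b : ℝ) (τ : Γ.E → ℤ) (q : Γ.E → ℝ) (h : Γ.V → ℤ) : ℝ :=
  Γ.wt b τ h * Real.exp (∑ e, q e * (2 * Real.pi * (h (Γ.tgt e) : ℝ) - 2 * Real.pi * (h (Γ.src e) : ℝ)))

theorem fl_term_eq (b : ℝ) (τ : Γ.E → ℤ) (q : Γ.E → ℝ) (h : (HLaw.plain Γ P).Λ) :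
    flTerm Γ b τ q h.1 = Real.exp (∑ e, (2 * Real.pi * q e) * (((Rsd.coordL (HLaw.plain Γ P) b h :
        ((HLaw.plain Γ P).sys b).L) : ((HLaw.plain Γ P).sys b).Amb).1 e : ℝ))
      * ((HLaw.plain Γ P).sys b).W (((Rsd.coordL (HLaw.plain Γ P) b h :
        ((HLaw.plain Γ P).sys b).L) : ((HLaw.plain Γ P).sys b).Amb) + flAmb Γ P b τ) := by
  rw [Rsd.coordL_coe, fl_W_eq, flTerm, mul_comm]
  congr 2
  refine Finset.sum_congr rfl fun e _ => ?_
  show _ = 2 * Real.pi * q e * (((h.1 (Γ.tgt e) - h.1 (Γ.src e) : ℤ)) : ℝ)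
  push_cast
  ring

theorem fl_term_nonneg (b : ℝ) (hb : 0 < b) (τ : Γ.E → ℤ) (q : Γ.E → ℝ) (h : Γ.V → ℤ) : 0 ≤ flTerm Γ b τ q h :=
  mul_nonneg (Finset.prod_nonneg fun e _ => (bes_pos b hb _).le) (Real.exp_pos _).le

variable {Γ P}

theorem fl_term_summable (hP : (HLaw.plain Γ P).Proper) (b : ℝ) (hb : 0 < b) (τ : Γ.E → ℤ) (q : Γ.E → ℝ) :
    Summable fun h : Γ.Conf P => flTerm Γ b τ q h.1 := by
  have hS : ((HLaw.plain Γ P).sys b).Ok := fl_plain_ok Γ P b hb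
  have h1 := lsys_summable _ hS (flAmb Γ P b τ)
    ((Rsd.flowStat ((HLaw.plain Γ P).sys b) fun e => 2 * Real.pi * q e).comp (Rsd.freeRef _).psi)
  have h2 := ((Equiv.ofBijective _ (Rsd.coordL_bijective (HLaw.plain Γ P) hP b)).summable_iff).2 h1
  refine h2.congr fun h => ?_
  exact (fl_term_eq Γ P b τ q h).symm

theorem fl_term_tsum_le (hP : (HLaw.plain Γ P).Proper) (b : ℝ) (hb : 0 < b) (τ : Γ.E → ℤ) (q : Γ.E → ℝ) :
    ∑' h : Γ.Conf P, flTerm Γ b τ q h.1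
      ≤ Real.exp (-∑ e, 2 * Real.pi * q e * (τ e : ℝ)) * Real.exp (∑ e, b * (Real.cosh (2 * Real.pi * q e) - 1))
        * Γ.Zs b P 0 0 fun _ => 1 := by
  have hS : ((HLaw.plain Γ P).sys b).Ok := fl_plain_ok Γ P b hb
  have h1 := fl_shift_reference _ hS (fun e => 2 * Real.pi * q e) (flAmb Γ P b τ)
  have h2 : Γ.Zs b P 0 0 (fun _ => 1) = ((HLaw.plain Γ P).sys b).w 0 := by
    rw [hgraph_Zs_eq, HLaw.Z_eq_w _ hP]
    exact congrArg _ (fl_amb_zero Γ P b)
  have h3 : ∑' h : Γ.Conf P, flTerm Γ b τ q h.1 = ((HLaw.plain Γ P).sys b).Zf (flAmb Γ P b τ)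
      (fun z => Real.exp (∑ e, (2 * Real.pi * q e) * ((z : ((HLaw.plain Γ P).sys b).Amb).1 e : ℝ))) := by
    unfold LSys.Zf
    rw [← (Equiv.ofBijective _ (Rsd.coordL_bijective (HLaw.plain Γ P) hP b)).tsum_eq]
    exact tsum_congr fun h => fl_term_eq Γ P b τ q h
  rw [h3, h2]
  refine h1.trans (le_of_eq ?_)
  have h4 : ∑ e, 2 * Real.pi * q e * ((flAmb Γ P b τ).1 e : ℝ) = ∑ e, 2 * Real.pi * q e * (τ e : ℝ) :=
    Finset.sum_congr rfl fun e _ => by rw [fl_amb_fst]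
  exact congrArg (fun x : ℝ => Real.exp (-x) * Real.exp (∑ e, b * (Real.cosh (2 * Real.pi * q e) - 1))
    * ((HLaw.plain Γ P).sys b).w 0) h4

theorem fl_ofReal_tsum (hP : (HLaw.plain Γ P).Proper) (b : ℝ) (hb : 0 < b) (τ : Γ.E → ℤ) (q : Γ.E → ℝ) (K : ℝ) (hK : 0 ≤ K) :
    ∑' h : Γ.Conf P, ENNReal.ofReal (K * flTerm Γ b τ q h.1) = ENNReal.ofReal (K * ∑' h : Γ.Conf P, flTerm Γ b τ q h.1) := by
  rw [← tsum_mul_left]
  exact (ENNReal.ofReal_tsum_of_nonneg (f := fun h : Γ.Conf P => K * flTerm Γ b τ q h.1)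
    (fun h => mul_nonneg hK (fl_term_nonneg Γ b hb τ q h.1)) ((fl_term_summable hP b hb τ q).mul_left K)).symm

theorem fl_Zs_pos (hP : (HLaw.plain Γ P).Proper) (b : ℝ) (hb : 0 < b) : 0 < Γ.Zs b P 0 0 fun _ => 1 := by
  have hS : ((HLaw.plain Γ P).sys b).Ok := fl_plain_ok Γ P b hb
  rw [hgraph_Zs_eq, HLaw.Z_eq_w _ hP]
  exact Rsd.cs_w_pos hS _

end graph


/-! ### 2. the full graph is connected -/

theorem fl_stp_true (x : G.V) : stp x true = (G.fold ((x.1 : ℕ) + 1 : ℤ), x.2) := by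
  unfold stp bdir Geom.π Geom.ι
  simp only [if_true, Prod.mk_add_mk]
  rw [enb_fold_self]

theorem fl_stp_false (x : G.V) : stp x false = (x.1, G.fold ((x.2 : ℕ) + 1 : ℤ)) := by
  unfold stp bdir Geom.π Geom.ι
  simp only [Bool.false_eq_true, if_false, Prod.mk_add_mk]
  rw [enb_fold_self]

theorem fl_blk1_lt {c : Grid G} (hc : Whole c) (i : Fin G.M) (h : (i : ℕ) + 1 < G.M)
    (hne : c.blk1 (G.fold ((i : ℕ) + 1 : ℤ)) ≠ c.blk1 i) : (c.blk1 i : ℕ) + 1 < c.n := by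
  have h1 := enb_fold_succ i h
  have hle : i ≤ G.fold ((i : ℕ) + 1 : ℤ) := by
    rw [Fin.le_def, h1]
    omega
  have h2 : c.blk1 i ≤ c.blk1 (G.fold ((i : ℕ) + 1 : ℤ)) := hc.mono hle
  have h3 : (c.blk1 i : ℕ) < c.blk1 (G.fold ((i : ℕ) + 1 : ℤ)) := by
    rcases lt_or_eq_of_le (Fin.le_def.1 h2) with h4 | h4
    · exact h4
    · exact absurd (Fin.ext h4).symm hne
  have h5 := (c.blk1 (G.fold ((i : ℕ) + 1 : ℤ))).2
  omega

theorem fl_edge_true {c : Grid G} (hc : Whole c) (x : G.V) (h : (x.1 : ℕ) + 1 < G.M) : (Top.full c).IsEdge (x, true) := by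
  have h1 := enb_fold_succ x.1 h
  refine ⟨?_, by simp [Top.full], by simp [Top.full], ?_⟩
  · show stp x true ≠ x
    rw [fl_stp_true]
    intro h2
    have h3 := congrArg (fun v : G.V => (v.1 : ℕ)) h2
    simp only at h3
    omega
  · show c.blk (stp x true) = c.blk x ∨ (c.blk x, true) ∈ (Top.full c).faces
    by_cases h2 : c.blk1 (G.fold ((x.1 : ℕ) + 1 : ℤ)) = c.blk1 x.1
    · left
      rw [fl_stp_true]
      unfold Grid.blk
      simp only
      rw [h2]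
    · right
      have h3 := fl_blk1_lt hc x.1 h h2
      simp only [Top.full, Finset.mem_filter, Finset.mem_univ, true_and]
      right
      simpa [Grid.blk] using h3

theorem fl_edge_false {c : Grid G} (hc : Whole c) (x : G.V) (h : (x.2 : ℕ) + 1 < G.M) : (Top.full c).IsEdge (x, false) := by
  have h1 := enb_fold_succ x.2 h
  refine ⟨?_, by simp [Top.full], by simp [Top.full], ?_⟩
  · show stp x false ≠ x
    rw [fl_stp_false]
    intro h2
    have h3 := congrArg (fun v : G.V => (v.2 : ℕ)) h2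
    simp only at h3
    omega
  · show c.blk (stp x false) = c.blk x ∨ (c.blk x, false) ∈ (Top.full c).faces
    by_cases h2 : c.blk1 (G.fold ((x.2 : ℕ) + 1 : ℤ)) = c.blk1 x.2
    · left
      rw [fl_stp_false]
      unfold Grid.blk
      simp only
      rw [h2]
    · right
      have h3 := fl_blk1_lt hc x.2 h h2
      simp only [Top.full, Finset.mem_filter, Finset.mem_univ, true_and]
      right
      simpa [Grid.blk] using h3

/-- a function which is constant along the bonds of the full graph is constant -/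
theorem fl_const {α : Type} {c : Grid G} (hc : Whole c) (k : G.V → α)
    (hk : ∀ e : (Top.full c).graph.E, k (stp e.1.1 e.1.2) = k e.1.1) (v w : G.V) : k v = k w := by
  have h1 : ∀ (n : ℕ) (hn : n < G.M) (j : Fin G.M), k (⟨n, hn⟩, j) = k (⟨0, G.hM⟩, j) := by
    intro n
    induction n with
    | zero => intro _ _; rfl
    | succ n ih =>
      intro hn j
      have h2 := hk ⟨((⟨n, by omega⟩, j), true), fl_edge_true hc (⟨n, by omega⟩, j) hn⟩
      simp only at h2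
      rw [fl_stp_true] at h2
      have h3 : G.fold (((⟨n, by omega⟩ : Fin G.M) : ℕ) + 1 : ℤ) = ⟨n + 1, hn⟩ :=
        Fin.ext (enb_fold_succ ⟨n, by omega⟩ hn)
      simp only at h2
      rw [h3] at h2
      rw [h2]
      exact ih (by omega) j
  have h2 : ∀ (n : ℕ) (hn : n < G.M) (i : Fin G.M), k (i, ⟨n, hn⟩) = k (i, ⟨0, G.hM⟩) := by
    intro n
    induction n with
    | zero => intro _ _; rfl
    | succ n ih =>
      intro hn i
      have h2 := hk ⟨((i, ⟨n, by omega⟩), false), fl_edge_false hc (i, ⟨n, by omega⟩) hn⟩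
      simp only at h2
      rw [fl_stp_false] at h2
      have h3 : G.fold (((⟨n, by omega⟩ : Fin G.M) : ℕ) + 1 : ℤ) = ⟨n + 1, hn⟩ :=
        Fin.ext (enb_fold_succ ⟨n, by omega⟩ hn)
      simp only at h2
      rw [h3] at h2
      rw [h2]
      exact ih (by omega) i
  have h3 : ∀ v : G.V, k v = k (⟨0, G.hM⟩, ⟨0, G.hM⟩) := fun v =>
    (h1 v.1.1 v.1.2 v.2).trans (h2 v.2.1 v.2.2 _)
  rw [h3 v, h3 w]

theorem fl_full_proper {c : Grid G} (hc : Whole c) (v0 : (Top.full c).graph.V) :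
    (HLaw.plain (Top.full c).graph {v0}).Proper := by
  intro h hh h0
  have hmem : ∀ v : G.V, c.blk v ∈ (Top.full c).cells := fun v => by simp [Top.full]
  have h1 : ∀ e : (Top.full c).graph.E, h ((Top.full c).graph.tgt e) - h ((Top.full c).graph.src e) = 0 :=
    fun e => congrFun (congrArg Prod.fst h0) e
  have h2 := fl_const hc (fun v => h ⟨v, hmem v⟩) (fun e => by
    have := h1 e
    exact sub_eq_zero.1 this)
  funext v
  have h3 : h v0 = 0 := hh v0 rfl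
  have h4 := h2 v.1 v0.1
  exact h4.trans h3



/-! ### 3. the core: unfolding + Gaussian tilt + reference cost -/

theorem fl_econn_zero {c : Grid G} (T : Top c) : T.econn (0 : Face c → ℤ) = 0 := by
  funext e
  unfold Top.econn
  split_ifs <;> rfl

/-- a base vertex -/
def flV0 (c : Grid G) : (Top.full c).graph.V := ⟨(⟨0, G.hM⟩, ⟨0, G.hM⟩), by simp [Top.full]⟩

theorem fl_P0_eq {c : Grid G} (hc : Whole c) (i0 : c.I) (b : ℝ) (hb : 0 < b) :
    Pint b c i0 0 (fun _ => 1)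
      = (2 * Real.pi) ^ ((Fintype.card c.I : ℝ) / 2) * (Top.full c).graph.Zs b {flV0 c} 0 0 fun _ => 1 := by
  rw [Pint_one b hb hc i0 (flV0 c) 0, fl_econn_zero]

theorem fl_P0_pos {c : Grid G} (hc : Whole c) (i0 : c.I) (b : ℝ) (hb : 0 < b) : 0 < Pint b c i0 0 (fun _ => 1) := by
  rw [fl_P0_eq hc i0 b hb]
  exact mul_pos (Real.rpow_pos_of_pos (by positivity) _) (fl_Zs_pos (fl_full_proper hc _) b hb)

theorem fl_sum_zero {c : Grid G} (hc : Whole c) (r : c.I → ℝ) (q : (Top.full c).graph.E → ℝ)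
    (hq : ∀ u : G.V → ℝ, ∑ i, r i * avg c u i = ∑ e, q e * (u (stp e.1.1 e.1.2) - u e.1.1)) : ∑ i, r i = 0 := by
  have h := hq fun _ => 1
  have h1 : ∀ i, avg c (fun _ => (1 : ℝ)) i = 1 := fun i => enb_avg_blk hc (fun _ => 1) i
  simpa [h1] using h

theorem fl_fwt_nonneg (b : ℝ) (hb : 0 < b) (c : Grid G) (τ : Face c → ℤ) (h : (Top.full c).graph.V → ℤ) : 0 ≤ fwt b c τ h :=
  Finset.prod_nonneg fun _ _ => (bes_pos b hb _).le

theorem fl_core_term {c : Grid G} (b : ℝ) (hb : 0 < b) (τ : Face c → ℤ) (r : c.I → ℝ)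
    (q : (Top.full c).graph.E → ℝ)
    (hq : ∀ u : G.V → ℝ, ∑ i, r i * avg c u i = ∑ e, q e * (u (stp e.1.1 e.1.2) - u e.1.1))
    (h : (Top.full c).graph.V → ℤ) :
    ENNReal.ofReal (fwt b c τ h) *
      ∫⁻ y : c.I → ℝ, ENNReal.ofReal (Real.exp (∑ i, r i * y i)) * ENNReal.ofReal (Real.exp (-(∑ i, (havg c h i - y i) ^ 2) / 2))
      = ENNReal.ofReal ((2 * Real.pi) ^ ((Fintype.card c.I : ℝ) / 2) * Real.exp ((∑ i, r i ^ 2) / 2)
          * flTerm (Top.full c).graph b ((Top.full c).econn τ) q h) := by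
  have e3 : ∀ y : c.I → ℝ, ENNReal.ofReal (Real.exp (∑ i, r i * y i)) * ENNReal.ofReal (Real.exp (-(∑ i, (havg c h i - y i) ^ 2) / 2))
      = ENNReal.ofReal (Real.exp (∑ i, r i * y i) * Real.exp (-(∑ i, (havg c h i - y i) ^ 2) / 2)) :=
    fun y => (ENNReal.ofReal_mul (Real.exp_pos _).le).symm
  simp_rw [e3]
  rw [lintegral_gauss_tilt, ← ENNReal.ofReal_mul (fl_fwt_nonneg b hb c τ h)]
  congr 1
  have e4 : ∑ i, r i * havg c h i
      = ∑ e : (Top.full c).graph.E, q e * (2 * Real.pi * (h ((Top.full c).graph.tgt e) : ℝ)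
        - 2 * Real.pi * (h ((Top.full c).graph.src e) : ℝ)) :=
    hq fun x => 2 * Real.pi * (h ⟨x, by simp [Top.full]⟩ : ℝ)
  rw [e4, Real.exp_add, flTerm]
  unfold fwt
  ring

theorem fl_core_reindex (Γ : HGraph) (v0 : Γ.V) (F : (Γ.V → ℤ) → ℝ≥0∞) :
    ∑' h : {h : Γ.V → ℤ // h v0 = 0}, F h.1 = ∑' h : Γ.Conf {v0}, F h.1 :=
  (Equiv.subtypeEquivRight (p := fun h : Γ.V → ℤ => h v0 = 0)
    (q := fun h => ∀ v ∈ ({v0} : Set Γ.V), h v = 0) (fun h => by simp)).tsum_eq (fun h : Γ.Conf {v0} => F h.1)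

theorem fl_core {c : Grid G} (hc : Whole c) (i0 : c.I) (b : ℝ) (hb : 0 < b) (τ : Face c → ℤ) (r : c.I → ℝ)
    (q : (Top.full c).graph.E → ℝ)
    (hq : ∀ u : G.V → ℝ, ∑ i, r i * avg c u i = ∑ e, q e * (u (stp e.1.1 e.1.2) - u e.1.1)) :
    ∫⁻ y in fund c i0, ENNReal.ofReal (Real.exp (∑ i, r i * y i) * (Top.full c).Zobs b τ y)
      ≤ ENNReal.ofReal (Real.exp ((∑ i, r i ^ 2) / 2 - ∑ e, 2 * Real.pi * q e * (((Top.full c).econn τ e : ℤ) : ℝ)
          + ∑ e, b * (Real.cosh (2 * Real.pi * q e) - 1)) * Pint b c i0 0 fun _ => 1) := by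
  have hP := fl_full_proper hc (flV0 c)
  have hr0 := fl_sum_zero hc r q hq
  have hKpos : 0 < (2 * Real.pi) ^ ((Fintype.card c.I : ℝ) / 2) := Real.rpow_pos_of_pos (by positivity) _
  have e1 : ∀ y, ENNReal.ofReal (Real.exp (∑ i, r i * y i) * (Top.full c).Zobs b τ y)
      = ENNReal.ofReal (Real.exp (∑ i, r i * y i)) * ENNReal.ofReal ((Top.full c).Zobs b τ y) :=
    fun y => ENNReal.ofReal_mul (Real.exp_pos _).le
  simp_rw [e1]
  rw [lintegral_fund_Zobs b hb hc i0 (flV0 c) τ (fun y => ENNReal.ofReal (Real.exp (∑ i, r i * y i)))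
    (by fun_prop) (fun y => by
      have : ∑ i, r i * (y i + 2 * Real.pi) = ∑ i, r i * y i := by
        simp only [mul_add, Finset.sum_add_distrib, ← Finset.sum_mul, hr0, zero_mul, add_zero]
      rw [this])]
  have s1 : ∑' h : {h : (Top.full c).graph.V → ℤ // h (flV0 c) = 0}, ENNReal.ofReal (fwt b c τ h.1) *
      ∫⁻ y : c.I → ℝ, ENNReal.ofReal (Real.exp (∑ i, r i * y i)) * ENNReal.ofReal (Real.exp (-(∑ i, (havg c h.1 i - y i) ^ 2) / 2))
      = ∑' h : {h : (Top.full c).graph.V → ℤ // h (flV0 c) = 0}, ENNReal.ofReal ((2 * Real.pi) ^ ((Fintype.card c.I : ℝ) / 2)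
      * Real.exp ((∑ i, r i ^ 2) / 2) * flTerm (Top.full c).graph b ((Top.full c).econn τ) q h.1) :=
    tsum_congr fun h => fl_core_term b hb τ r q hq h.1
  have s2 := fl_core_reindex (Top.full c).graph (flV0 c) fun h => ENNReal.ofReal ((2 * Real.pi) ^ ((Fintype.card c.I : ℝ) / 2)
      * Real.exp ((∑ i, r i ^ 2) / 2) * flTerm (Top.full c).graph b ((Top.full c).econn τ) q h)
  have s3 : ∑' h : (Top.full c).graph.Conf {flV0 c}, ENNReal.ofReal ((2 * Real.pi) ^ ((Fintype.card c.I : ℝ) / 2)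
      * Real.exp ((∑ i, r i ^ 2) / 2) * flTerm (Top.full c).graph b ((Top.full c).econn τ) q h.1)
      = ENNReal.ofReal ((2 * Real.pi) ^ ((Fintype.card c.I : ℝ) / 2) * Real.exp ((∑ i, r i ^ 2) / 2)
        * ∑' h : (Top.full c).graph.Conf {flV0 c}, flTerm (Top.full c).graph b ((Top.full c).econn τ) q h.1) :=
    fl_ofReal_tsum hP b hb ((Top.full c).econn τ) q _ (mul_nonneg hKpos.le (Real.exp_pos _).le)
  rw [s1, s2, s3]
  refine ENNReal.ofReal_le_ofReal ?_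
  have h6 := fl_term_tsum_le hP b hb ((Top.full c).econn τ) q
  rw [fl_P0_eq hc i0 b hb, sub_eq_add_neg, Real.exp_add, Real.exp_add]
  refine (mul_le_mul_of_nonneg_left h6 (mul_nonneg hKpos.le (Real.exp_pos _).le)).trans (le_of_eq ?_)
  ring


/-! ### 4. the integral face tilt -/

theorem fl_full_ok (c : Grid G) : (Top.full c).Ok := by
  classical
  intro f hf
  refine ⟨?_, Finset.mem_univ _, Finset.mem_univ _⟩
  unfold Top.full at hf
  exact (Finset.mem_filter.1 hf).2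

theorem fl_rdiv_sum {c : Grid G} (T : Top c) (t : Face c → ℝ) (z : c.I → ℝ) :
    ∑ o, rdiv T t o * z o = ∑ f ∈ T.faces, t f * (z (fnb c f) - z f.1) := by
  unfold rdiv
  simp_rw [Finset.sum_mul]
  rw [Finset.sum_comm]
  refine Finset.sum_congr rfl fun f _ => ?_
  have h1 : ∀ o : c.I, t f * ((if o = fnb c f then 1 else 0) - (if o = f.1 then 1 else 0)) * z o
      = t f * ((if o = fnb c f then z o else 0) - (if o = f.1 then z o else 0)) := by
    intro o
    split_ifs <;> ring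
  simp_rw [h1]
  rw [← Finset.mul_sum, Finset.sum_sub_distrib, Finset.sum_ite_eq', Finset.sum_ite_eq']
  simp

/-- the flow of a tilt -/
theorem fl_flow_rep {c : Grid G} (T : Top c) (Φ : Face c → T.graph.E → ℝ)
    (hΦ : ∀ f ∈ T.faces, ∀ (u : G.V → ℝ) (w : Face c → ℝ),
      avg c u (fnb c f) - avg c u f.1 + w f = ∑ e, Φ f e * (u (stp e.1.1 e.1.2) - u e.1.1 + T.econn w e))
    (t : Face c → ℝ) (u : G.V → ℝ) (w : Face c → ℝ) :
    ∑ f ∈ T.faces, t f * (avg c u (fnb c f) - avg c u f.1 + w f)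
      = ∑ e, (∑ f ∈ T.faces, t f * Φ f e) * (u (stp e.1.1 e.1.2) - u e.1.1 + T.econn w e) := by
  simp_rw [Finset.sum_mul]
  rw [Finset.sum_comm]
  refine Finset.sum_congr rfl fun f hf => ?_
  rw [hΦ f hf u w, Finset.mul_sum]
  exact Finset.sum_congr rfl fun e _ => by ring

theorem fl_econn_zeroR {c : Grid G} (T : Top c) (e : T.graph.E) : T.econn (fun _ => (0 : ℝ)) e = 0 := by
  unfold Top.econn
  split_ifs <;> rfl

/-- the integral face tilt, in `ℝ≥0∞` -/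
theorem fl_tilt_lint (b1 k0 : ℝ) : ∃ C : ℝ, ∀ (G : Geom) (c : Grid G), Whole c → ∀ (i0 : c.I) (b : ℝ), 0 < b → b ≤ b1 →
    ∀ (τ : Face c → ℤ) (t : Face c → ℝ), (∀ f, |t f| ≤ k0 * c.m) →
      ∫⁻ y in fund c i0, ENNReal.ofReal (Real.exp (∑ f ∈ (Top.full c).faces, t f * wf c τ y f) * (Top.full c).Zobs b τ y)
        ≤ ENNReal.ofReal (Real.exp (C * ∑ f ∈ (Top.full c).faces, t f ^ 2) * Pint b c i0 0 fun _ => 1) := by
  obtain ⟨CΦ, hflow⟩ := cell_flow
  obtain ⟨CK, hCK⟩ := cosh_sub_one_le (2 * Real.pi * (CΦ * k0))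
  refine ⟨4 + b1 * (max CK 0 * (4 * Real.pi ^ 2)) * CΦ, ?_⟩
  intro G c hc i0 b hb hb1 τ t ht
  obtain ⟨Φ, hΦ1, -, hΦ3⟩ := hflow G c hc (Top.full c) (fl_full_ok c)
  obtain ⟨hq1, hq2⟩ := hΦ3 t
  set q : (Top.full c).graph.E → ℝ := fun e => ∑ f ∈ (Top.full c).faces, t f * Φ f e with hqdef
  have hrep := fl_flow_rep (Top.full c) Φ hΦ1 t
  have hm : (0 : ℝ) < c.m := by exact_mod_cast hc.pos
  -- the flow representation of `rdiv`
  have hq : ∀ u : G.V → ℝ, ∑ i, rdiv (Top.full c) t i * avg c u i = ∑ e, q e * (u (stp e.1.1 e.1.2) - u e.1.1) := by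
    intro u
    rw [fl_rdiv_sum]
    have := hrep u fun _ => 0
    simp only [add_zero, fl_econn_zeroR] at this
    exact this
  have hτ : ∑ f ∈ (Top.full c).faces, t f * (2 * Real.pi * (τ f : ℝ))
      = ∑ e, 2 * Real.pi * q e * (((Top.full c).econn τ e : ℤ) : ℝ) := by
    have := hrep (fun _ => 0) fun f => 2 * Real.pi * (τ f : ℝ)
    have h0 : ∀ i, avg c (fun _ => (0 : ℝ)) i = 0 := fun i => by simp [avg, cellAvg]
    simp only [h0, sub_zero, zero_add, enb_econn_two_pi] at this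
    rw [this]
    exact Finset.sum_congr rfl fun e _ => by ring
  have hcore := fl_core hc i0 b hb τ (rdiv (Top.full c) t) q hq
  have e1 : ∀ y : c.I → ℝ, Real.exp (∑ f ∈ (Top.full c).faces, t f * wf c τ y f) * (Top.full c).Zobs b τ y
      = Real.exp (∑ e, 2 * Real.pi * q e * (((Top.full c).econn τ e : ℤ) : ℝ))
        * (Real.exp (∑ i, rdiv (Top.full c) t i * y i) * (Top.full c).Zobs b τ y) := by
    intro y
    rw [← mul_assoc, ← Real.exp_add, fl_rdiv_sum, ← hτ, ← Finset.sum_add_distrib]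
    congr 2
    refine Finset.sum_congr rfl fun f _ => ?_
    unfold wf
    ring
  simp_rw [e1, ENNReal.ofReal_mul (Real.exp_pos _).le]
  rw [lintegral_const_mul' _ _ ENNReal.ofReal_ne_top]
  simp_rw [← ENNReal.ofReal_mul (Real.exp_pos _).le]
  refine (mul_le_mul_right hcore _).trans ?_
  rw [← ENNReal.ofReal_mul (Real.exp_pos _).le, ← mul_assoc, ← Real.exp_add]
  refine ENNReal.ofReal_le_ofReal (mul_le_mul_of_nonneg_right (Real.exp_le_exp.2 ?_) (fl_P0_pos hc i0 b hb).le)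
  have h1 := rdiv_sq_le (Top.full c) t
  have h2 : ∀ e, b * (Real.cosh (2 * Real.pi * q e) - 1) ≤ b1 * (max CK 0 * (4 * Real.pi ^ 2)) * q e ^ 2 := by
    intro e
    have h3 : |q e| ≤ CΦ * k0 := by
      have := hq1 e (k0 * c.m) ((abs_nonneg _).trans (ht (i0, true))) fun f _ => ht f
      rwa [← mul_assoc, mul_div_assoc, div_self hm.ne', mul_one] at this
    have h4 : |2 * Real.pi * q e| ≤ 2 * Real.pi * (CΦ * k0) := by
      rw [abs_mul, abs_of_pos (by positivity : (0 : ℝ) < 2 * Real.pi)]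
      exact mul_le_mul_of_nonneg_left h3 (by positivity)
    have h5 := hCK _ h4
    have h6 : 0 ≤ Real.cosh (2 * Real.pi * q e) - 1 := by linarith [Real.one_le_cosh (2 * Real.pi * q e)]
    calc b * (Real.cosh (2 * Real.pi * q e) - 1) ≤ b1 * (Real.cosh (2 * Real.pi * q e) - 1) :=
          mul_le_mul_of_nonneg_right hb1 h6
      _ ≤ b1 * (max CK 0 * (2 * Real.pi * q e) ^ 2) :=
          mul_le_mul_of_nonneg_left (h5.trans (mul_le_mul_of_nonneg_right (le_max_left _ _) (sq_nonneg _))) (hb.le.trans hb1)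
      _ = _ := by ring
  have h7 : ∑ e, b * (Real.cosh (2 * Real.pi * q e) - 1) ≤ b1 * (max CK 0 * (4 * Real.pi ^ 2)) * (CΦ * ∑ f ∈ (Top.full c).faces, t f ^ 2) := by
    refine (Finset.sum_le_sum fun e _ => h2 e).trans ?_
    rw [← Finset.mul_sum]
    exact mul_le_mul_of_nonneg_left hq2 (mul_nonneg (hb.le.trans hb1) (mul_nonneg (le_max_right _ _) (by positivity)))
  nlinarith [h1, h7]


/-! ### 5. soft lemmas -/

theorem fl_abs_int_le {α : Type*} [MeasurableSpace α] (μ : Measure α) (H : α → ℝ) (B : ℝ) (hB : 0 ≤ B)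
    (h : ∫⁻ y, ENNReal.ofReal |H y| ∂μ ≤ ENNReal.ofReal B) : |∫ y, H y ∂μ| ≤ B := by
  have h1 := norm_integral_le_lintegral_norm (μ := μ) H
  simp only [Real.norm_eq_abs] at h1
  exact h1.trans (ENNReal.toReal_le_of_le_ofReal hB h)

theorem fl_integrable {α : Type*} [MeasurableSpace α] (μ : Measure α) (H : α → ℝ) (hH : Measurable H) (B : ℝ)
    (h : ∫⁻ y, ENNReal.ofReal |H y| ∂μ ≤ ENNReal.ofReal B) : Integrable H μ := by
  refine ⟨hH.aestronglyMeasurable, ?_⟩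
  rw [hasFiniteIntegral_iff_norm]
  exact lt_of_le_of_lt h ENNReal.ofReal_lt_top

/-- the integral version of (ent:face-tilt), denominator `𝒫_G^0 (1)` -/
theorem face_tilt_int (b1 k0 : ℝ) : ∃ C : ℝ, ∀ (G : Geom) (c : Grid G), Whole c → ∀ (i0 : c.I) (b : ℝ), 0 < b → b ≤ b1 →
    ∀ (τ : Face c → ℤ) (t : Face c → ℝ), (∀ f, |t f| ≤ k0 * c.m) →
      Pint b c i0 τ (fun y => Real.exp (∑ f ∈ (Top.full c).faces, t f * wf c τ y f)) / Pint b c i0 0 (fun _ => 1)
        ≤ Real.exp (C * ∑ f ∈ (Top.full c).faces, t f ^ 2) := by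
  obtain ⟨C, hC⟩ := fl_tilt_lint b1 k0
  refine ⟨C, fun G c hc i0 b hb hb1 τ t ht => ?_⟩
  have hP := fl_P0_pos hc i0 b hb
  rw [div_le_iff₀ hP]
  have h1 := hC G c hc i0 b hb hb1 τ t ht
  refine (le_abs_self _).trans (fl_abs_int_le _ _ _ (mul_nonneg (Real.exp_pos _).le hP.le) ?_)
  refine le_trans (le_of_eq ?_) h1
  refine lintegral_congr fun y => ?_
  rw [abs_of_nonneg (mul_nonneg (Real.exp_pos _).le (Zobs_pos hc _ b hb τ y).le)]

theorem fl_one_sub_prod_le {ι : Type*} (s : Finset ι) (a : ι → ℝ) (h0 : ∀ i ∈ s, 0 ≤ a i) (h1 : ∀ i ∈ s, a i ≤ 1) :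
    1 - ∏ i ∈ s, a i ≤ ∑ i ∈ s, (1 - a i) := by
  classical
  induction s using Finset.induction_on with
  | empty => simp
  | insert i s hi ih =>
    rw [Finset.prod_insert hi, Finset.sum_insert hi]
    have h2 := ih (fun j hj => h0 j (Finset.mem_insert_of_mem hj)) (fun j hj => h1 j (Finset.mem_insert_of_mem hj))
    have h3 : 0 ≤ ∏ j ∈ s, a j := Finset.prod_nonneg fun j hj => h0 j (Finset.mem_insert_of_mem hj)
    have h4 : ∏ j ∈ s, a j ≤ 1 := Finset.prod_le_one (fun j hj => h0 j (Finset.mem_insert_of_mem hj))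
      (fun j hj => h1 j (Finset.mem_insert_of_mem hj))
    have h5 := h0 i (Finset.mem_insert_self _ _)
    have h6 := h1 i (Finset.mem_insert_self _ _)
    nlinarith

/-- the defect of one cutoff factor: Gaussian tail + Chernoff -/
theorem fl_chi_defect (s δ w : ℝ) (hs : 1 ≤ s) (hδ : 0 < δ) :
    1 - chi s w ≤ Real.exp (-(1 / 16) * s ^ 2)
      + Real.exp (-(δ * s ^ 2 / 2)) * (Real.exp (δ * s * w) + Real.exp (-(δ * s) * w)) := by
  have hs0 : 0 < s := by linarith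
  by_cases hw : |w| ≤ s / 2
  · have h1 := (chiL_tails s w hs).1 hw
    have h2 : 0 ≤ Real.exp (-(δ * s ^ 2 / 2)) * (Real.exp (δ * s * w) + Real.exp (-(δ * s) * w)) := by positivity
    linarith
  · push Not at hw
    have h1 := chiL_pos s w hs0
    have h2 : 0 < Real.exp (-(1 / 16) * s ^ 2) := Real.exp_pos _
    have h3 : 1 ≤ Real.exp (-(δ * s ^ 2 / 2)) * Real.exp (δ * s * |w|) := by
      rw [← Real.exp_add]
      refine Real.one_le_exp ?_
      nlinarith [mul_pos hδ hs0]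
    have h4 : Real.exp (δ * s * |w|) ≤ Real.exp (δ * s * w) + Real.exp (-(δ * s) * w) := by
      rcases abs_cases w with ⟨h, _⟩ | ⟨h, _⟩
      · rw [h]
        linarith [Real.exp_pos (-(δ * s) * w)]
      · rw [h]
        have : δ * s * -w = -(δ * s) * w := by ring
        rw [this]
        linarith [Real.exp_pos (δ * s * w)]
    have h5 := mul_le_mul_of_nonneg_left h4 (Real.exp_pos (-(δ * s ^ 2 / 2))).le
    linarith


/-! ### 6. a calculus of upper bounds -/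

/-- `H` is measurable and its upper integral is at most `B` -/
def FlLB {α : Type*} [MeasurableSpace α] (μ : Measure α) (H : α → ℝ) (B : ℝ) : Prop :=
  Measurable H ∧ 0 ≤ B ∧ ∫⁻ y, ENNReal.ofReal (H y) ∂μ ≤ ENNReal.ofReal B

namespace FlLB

variable {α : Type*} [MeasurableSpace α] {μ : Measure α} {H H' : α → ℝ} {B B' : ℝ}

theorem mono_right (h : FlLB μ H B) (hB : B ≤ B') : FlLB μ H B' :=
  ⟨h.1, h.2.1.trans hB, h.2.2.trans (ENNReal.ofReal_le_ofReal hB)⟩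

theorem add (h : FlLB μ H B) (h' : FlLB μ H' B') : FlLB μ (fun y => H y + H' y) (B + B') := by
  refine ⟨h.1.add h'.1, add_nonneg h.2.1 h'.2.1, ?_⟩
  calc ∫⁻ y, ENNReal.ofReal (H y + H' y) ∂μ ≤ ∫⁻ y, (ENNReal.ofReal (H y) + ENNReal.ofReal (H' y)) ∂μ :=
        lintegral_mono fun y => ENNReal.ofReal_add_le
    _ = ∫⁻ y, ENNReal.ofReal (H y) ∂μ + ∫⁻ y, ENNReal.ofReal (H' y) ∂μ :=
        lintegral_add_left h.1.ennreal_ofReal _
    _ ≤ ENNReal.ofReal B + ENNReal.ofReal B' := add_le_add h.2.2 h'.2.2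
    _ = ENNReal.ofReal (B + B') := (ENNReal.ofReal_add h.2.1 h'.2.1).symm

theorem const_mul (h : FlLB μ H B) (a : ℝ) (ha : 0 ≤ a) : FlLB μ (fun y => a * H y) (a * B) := by
  refine ⟨h.1.const_mul a, mul_nonneg ha h.2.1, ?_⟩
  simp_rw [ENNReal.ofReal_mul ha]
  rw [lintegral_const_mul' _ _ ENNReal.ofReal_ne_top]
  exact mul_le_mul_right h.2.2 _

theorem zero : FlLB μ (fun _ => (0 : ℝ)) 0 := ⟨measurable_const, le_rfl, by simp⟩

theorem sum {ι : Type*} (s : Finset ι) (Hs : ι → α → ℝ) (Bs : ι → ℝ) (h : ∀ i ∈ s, FlLB μ (Hs i) (Bs i)) :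
    FlLB μ (fun y => ∑ i ∈ s, Hs i y) (∑ i ∈ s, Bs i) := by
  classical
  induction s using Finset.induction_on with
  | empty => simpa using (zero : FlLB μ _ _)
  | insert i s hi ih =>
    simp only [Finset.sum_insert hi]
    exact (h i (Finset.mem_insert_self _ _)).add (ih fun j hj => h j (Finset.mem_insert_of_mem hj))

theorem abs_int_le (h : FlLB μ H B) (X : α → ℝ) (hX : ∀ y, |X y| ≤ H y) : |∫ y, X y ∂μ| ≤ B :=
  fl_abs_int_le μ X B h.2.1 ((lintegral_mono fun y => ENNReal.ofReal_le_ofReal (hX y)).trans h.2.2)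

theorem integrable (h : FlLB μ H B) (X : α → ℝ) (hm : Measurable X) (hX : ∀ y, |X y| ≤ H y) : Integrable X μ :=
  fl_integrable μ X hm B ((lintegral_mono fun y => ENNReal.ofReal_le_ofReal (hX y)).trans h.2.2)

theorem mono_left (h : FlLB μ H' B) (hm : Measurable H) (hle : ∀ y, H y ≤ H' y) : FlLB μ H B :=
  ⟨hm, h.2.1, (lintegral_mono fun y => ENNReal.ofReal_le_ofReal (hle y)).trans h.2.2⟩

end FlLB


/-! ### 7. the cutoff loss -/

theorem fl_wf_measurable (c : Grid G) (τ : Face c → ℤ) (f : Face c) : Measurable fun y : c.I → ℝ => wf c τ y f := by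
  unfold wf
  fun_prop

/-- one face -/
theorem fl_single_LB {b1 C : ℝ} (hC : ∀ (G : Geom) (c : Grid G), Whole c → ∀ (i0 : c.I) (b : ℝ), 0 < b → b ≤ b1 →
    ∀ (τ : Face c → ℤ) (t : Face c → ℝ), (∀ f, |t f| ≤ 1 * c.m) →
      ∫⁻ y in fund c i0, ENNReal.ofReal (Real.exp (∑ f ∈ (Top.full c).faces, t f * wf c τ y f) * (Top.full c).Zobs b τ y)
        ≤ ENNReal.ofReal (Real.exp (C * ∑ f ∈ (Top.full c).faces, t f ^ 2) * Pint b c i0 0 fun _ => 1))
    {c : Grid G} (hc : Whole c) (i0 : c.I) (b : ℝ) (hb : 0 < b) (hb1 : b ≤ b1) (τ : Face c → ℤ) (f : Face c)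
    (hf : f ∈ (Top.full c).faces) (a : ℝ) (ha : |a| ≤ c.m) :
    FlLB (volume.restrict (fund c i0)) (fun y => Real.exp (a * wf c τ y f) * (Top.full c).Zobs b τ y)
      (Real.exp (C * a ^ 2) * Pint b c i0 0 fun _ => 1) := by
  classical
  refine ⟨((fl_wf_measurable c τ f).const_mul a).exp.mul (Zobs_measurable _ b hb τ),
    mul_nonneg (Real.exp_pos _).le (fl_P0_pos hc i0 b hb).le, ?_⟩
  have h1 := hC G c hc i0 b hb hb1 τ (Pi.single f a) (fun f' => by
    rw [one_mul]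
    by_cases h : f' = f
    · subst h
      rwa [Pi.single_eq_same]
    · rw [Pi.single_eq_of_ne h, abs_zero]
      positivity)
  have e1 : ∀ y : c.I → ℝ, ∑ f' ∈ (Top.full c).faces, (Pi.single f a : Face c → ℝ) f' * wf c τ y f' = a * wf c τ y f := by
    intro y
    rw [Finset.sum_eq_single_of_mem f hf fun f' _ hne => by rw [Pi.single_eq_of_ne hne, zero_mul], Pi.single_eq_same]
  have e2 : ∑ f' ∈ (Top.full c).faces, (Pi.single f a : Face c → ℝ) f' ^ 2 = a ^ 2 := by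
    rw [Finset.sum_eq_single_of_mem f hf fun f' _ hne => by rw [Pi.single_eq_of_ne hne]; simp, Pi.single_eq_same]
  simp_rw [e1] at h1
  rwa [e2] at h1

/-- no face -/
theorem fl_zero_LB {b1 C : ℝ} (hC : ∀ (G : Geom) (c : Grid G), Whole c → ∀ (i0 : c.I) (b : ℝ), 0 < b → b ≤ b1 →
    ∀ (τ : Face c → ℤ) (t : Face c → ℝ), (∀ f, |t f| ≤ 1 * c.m) →
      ∫⁻ y in fund c i0, ENNReal.ofReal (Real.exp (∑ f ∈ (Top.full c).faces, t f * wf c τ y f) * (Top.full c).Zobs b τ y)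
        ≤ ENNReal.ofReal (Real.exp (C * ∑ f ∈ (Top.full c).faces, t f ^ 2) * Pint b c i0 0 fun _ => 1))
    {c : Grid G} (hc : Whole c) (i0 : c.I) (b : ℝ) (hb : 0 < b) (hb1 : b ≤ b1) (τ : Face c → ℤ) :
    FlLB (volume.restrict (fund c i0)) (fun y => (Top.full c).Zobs b τ y) (Pint b c i0 0 fun _ => 1) := by
  refine ⟨Zobs_measurable _ b hb τ, (fl_P0_pos hc i0 b hb).le, ?_⟩
  have h1 := hC G c hc i0 b hb hb1 τ 0 (fun f' => by
    simp only [Pi.zero_apply, abs_zero]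
    positivity)
  simpa using h1

/-- the defect of the product of the cutoffs -/
def flD (c : Grid G) (τ : Face c → ℤ) (y : c.I → ℝ) : ℝ := 1 - ∏ f ∈ (Top.full c).faces, chi c.m (wf c τ y f)

theorem fl_m_one {c : Grid G} (hc : Whole c) : (1 : ℝ) ≤ c.m := by exact_mod_cast hc.pos

theorem fl_D_nonneg {c : Grid G} (hc : Whole c) (τ : Face c → ℤ) (y : c.I → ℝ) : 0 ≤ flD c τ y := by
  have hs : (0 : ℝ) < c.m := by linarith [fl_m_one hc]
  have := Finset.prod_le_one (s := (Top.full c).faces) (f := fun f => chi c.m (wf c τ y f))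
    (fun f _ => (chiL_pos _ _ hs).le) (fun f _ => chiL_le_one _ _ hs)
  unfold flD
  linarith

theorem fl_D_le_one {c : Grid G} (hc : Whole c) (τ : Face c → ℤ) (y : c.I → ℝ) : flD c τ y ≤ 1 := by
  have hs : (0 : ℝ) < c.m := by linarith [fl_m_one hc]
  have := Finset.prod_nonneg (s := (Top.full c).faces) (f := fun f => chi c.m (wf c τ y f))
    (fun f _ => (chiL_pos _ _ hs).le)
  unfold flD
  linarith

theorem fl_ZD_eq {c : Grid G} (b : ℝ) (τ : Face c → ℤ) (y : c.I → ℝ) :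
    (Top.full c).Zobs b τ y * flD c τ y = (Top.full c).Zobs b τ y - (Top.full c).Zhat b τ y := by
  unfold flD Top.Zhat
  ring

/-- **the loss of the cutoffs** in integrated form -/
theorem fl_loss_LB (b1 : ℝ) : ∃ cc : ℝ, 0 < cc ∧ ∀ (G : Geom) (c : Grid G), Whole c → ∀ (i0 : c.I) (b : ℝ), 0 < b → b ≤ b1 →
    ∀ τ : Face c → ℤ, FlLB (volume.restrict (fund c i0)) (fun y => (Top.full c).Zobs b τ y * flD c τ y)
      (3 * ((Top.full c).faces.card : ℝ) * Real.exp (-cc * (c.m : ℝ) ^ 2) * Pint b c i0 0 fun _ => 1) := by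
  obtain ⟨C, hC⟩ := fl_tilt_lint b1 1
  have hCp : 0 < max C 1 := lt_of_lt_of_le one_pos (le_max_right _ _)
  set δ : ℝ := 1 / (4 * max C 1) with hδ
  have hδ0 : 0 < δ := by positivity
  have hδ1 : δ ≤ 1 := by
    rw [hδ, div_le_one (by positivity)]
    linarith [le_max_right C 1]
  have hCδ : max C 1 * δ = 1 / 4 := by
    rw [hδ]
    field_simp
  refine ⟨min (1 / 16) (δ / 4), lt_min (by norm_num) (by positivity), ?_⟩
  intro G c hc i0 b hb hb1 τ
  set cc : ℝ := min (1 / 16) (δ / 4) with hcc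
  set s : ℝ := (c.m : ℝ) with hs
  have hs1 : 1 ≤ s := fl_m_one hc
  have hs0 : 0 < s := by linarith
  set P0 : ℝ := Pint b c i0 0 fun _ => 1 with hP0
  have hP0pos : 0 < P0 := fl_P0_pos hc i0 b hb
  have hZ := fl_zero_LB hC hc i0 b hb hb1 τ
  have habs : |δ * s| ≤ (c.m : ℝ) := by
    rw [abs_of_pos (by positivity)]
    nlinarith
  have habs' : |-(δ * s)| ≤ (c.m : ℝ) := by rwa [abs_neg]
  have hR := FlLB.sum (μ := volume.restrict (fund c i0)) (Top.full c).faces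
    (fun f y => Real.exp (-(1 / 16) * s ^ 2) * (Top.full c).Zobs b τ y
      + Real.exp (-(δ * s ^ 2 / 2)) * (Real.exp (δ * s * wf c τ y f) * (Top.full c).Zobs b τ y
        + Real.exp (-(δ * s) * wf c τ y f) * (Top.full c).Zobs b τ y))
    (fun _ => Real.exp (-(1 / 16) * s ^ 2) * P0
      + Real.exp (-(δ * s ^ 2 / 2)) * (Real.exp (C * (δ * s) ^ 2) * P0 + Real.exp (C * (-(δ * s)) ^ 2) * P0))
    (fun f hf => (hZ.const_mul _ (Real.exp_pos _).le).add
      (((fl_single_LB hC hc i0 b hb hb1 τ f hf _ habs).add (fl_single_LB hC hc i0 b hb hb1 τ f hf _ habs')).const_mul _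
        (Real.exp_pos _).le))
  have hm : Measurable fun y => (Top.full c).Zobs b τ y * flD c τ y := by
    simp_rw [fl_ZD_eq]
    exact (Zobs_measurable _ b hb τ).sub (Zhat_measurable _ b hb τ)
  refine (hR.mono_left hm fun y => ?_).mono_right ?_
  · have hZ0 := (Zobs_pos hc (Top.full c) b hb τ y).le
    have h1 : flD c τ y ≤ ∑ f ∈ (Top.full c).faces, (1 - chi s (wf c τ y f)) :=
      fl_one_sub_prod_le _ _ (fun f _ => (chiL_pos _ _ hs0).le) (fun f _ => chiL_le_one _ _ hs0)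
    have h2 : ∑ f ∈ (Top.full c).faces, (1 - chi s (wf c τ y f)) ≤ ∑ f ∈ (Top.full c).faces,
        (Real.exp (-(1 / 16) * s ^ 2) + Real.exp (-(δ * s ^ 2 / 2)) * (Real.exp (δ * s * wf c τ y f)
          + Real.exp (-(δ * s) * wf c τ y f))) :=
      Finset.sum_le_sum fun f _ => fl_chi_defect s δ _ hs1 hδ0
    refine (mul_le_mul_of_nonneg_left (h1.trans h2) hZ0).trans (le_of_eq ?_)
    rw [Finset.mul_sum]
    exact Finset.sum_congr rfl fun f _ => by ring
  · rw [Finset.sum_const, nsmul_eq_mul]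
    have h1 : Real.exp (-(1 / 16) * s ^ 2) ≤ Real.exp (-cc * s ^ 2) := by
      refine Real.exp_le_exp.2 ?_
      have : cc ≤ 1 / 16 := min_le_left _ _
      nlinarith [sq_nonneg s]
    have h2 : Real.exp (-(δ * s ^ 2 / 2)) * Real.exp (C * (δ * s) ^ 2) ≤ Real.exp (-cc * s ^ 2) := by
      rw [← Real.exp_add]
      refine Real.exp_le_exp.2 ?_
      have h3 : cc ≤ δ / 4 := min_le_right _ _
      have h4 : C * (δ * s) ^ 2 ≤ (max C 1 * δ) * (δ * s ^ 2) := by
        have : C * (δ * s) ^ 2 ≤ max C 1 * (δ * s) ^ 2 := mul_le_mul_of_nonneg_right (le_max_left _ _) (sq_nonneg _)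
        calc C * (δ * s) ^ 2 ≤ max C 1 * (δ * s) ^ 2 := this
          _ = _ := by ring
      rw [hCδ] at h4
      nlinarith [sq_nonneg s]
    have h5 : (-(δ * s)) ^ 2 = (δ * s) ^ 2 := by ring
    rw [h5]
    have h6 : Real.exp (-(1 / 16) * s ^ 2) * P0 + Real.exp (-(δ * s ^ 2 / 2)) * (Real.exp (C * (δ * s) ^ 2) * P0
        + Real.exp (C * (δ * s) ^ 2) * P0) ≤ 3 * Real.exp (-cc * s ^ 2) * P0 := by
      nlinarith [mul_le_mul_of_nonneg_right h1 hP0pos.le, mul_le_mul_of_nonneg_right h2 hP0pos.le]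
    calc ((Top.full c).faces.card : ℝ) * _ ≤ ((Top.full c).faces.card : ℝ) * (3 * Real.exp (-cc * s ^ 2) * P0) :=
          mul_le_mul_of_nonneg_left h6 (Nat.cast_nonneg _)
      _ = _ := by ring

/-- **(ent:cutoff-loss)**, bounded tests, every sector (in particular `F = 1` in the unit sector). -/
theorem cutoff_loss (b1 : ℝ) : ∃ (C cc : ℝ), 0 < cc ∧ ∀ (G : Geom) (c : Grid G), Whole c → ∀ (i0 : c.I) (b : ℝ), 0 < b → b ≤ b1 →
    ∀ (τ : Face c → ℤ) (F : (c.I → ℝ) → ℝ), Measurable F → Per c F → (∀ y, |F y| ≤ 1) →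
      |Pint b c i0 τ F - Phat b c i0 τ F| / Pint b c i0 0 (fun _ => 1)
        ≤ C * ((Top.full c).faces.card : ℝ) * Real.exp (-cc * (c.m : ℝ) ^ 2) := by
  obtain ⟨cc, hcc, hL⟩ := fl_loss_LB b1
  obtain ⟨C, hC⟩ := fl_tilt_lint b1 1
  refine ⟨3, cc, hcc, fun G c hc i0 b hb hb1 τ F hF _ hF1 => ?_⟩
  have hP := fl_P0_pos hc i0 b hb
  rw [div_le_iff₀ hP]
  have hZ := fl_zero_LB hC hc i0 b hb hb1 τ
  have hZ0 : ∀ y, 0 ≤ (Top.full c).Zobs b τ y := fun y => (Zobs_pos hc (Top.full c) b hb τ y).le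
  have hhat : ∀ y, (Top.full c).Zhat b τ y = (Top.full c).Zobs b τ y * (1 - flD c τ y) := fun y => by
    rw [mul_sub, fl_ZD_eq]
    ring
  have i1 : Integrable (fun y => F y * (Top.full c).Zobs b τ y) (volume.restrict (fund c i0)) :=
    hZ.integrable _ (hF.mul (Zobs_measurable _ b hb τ)) fun y => by
      rw [abs_mul, abs_of_nonneg (hZ0 y)]
      exact mul_le_of_le_one_left (hZ0 y) (hF1 y)
  have i2 : Integrable (fun y => F y * (Top.full c).Zhat b τ y) (volume.restrict (fund c i0)) :=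
    hZ.integrable _ (hF.mul (Zhat_measurable _ b hb τ)) fun y => by
      have h1 := fl_D_nonneg hc τ y
      have h2 := fl_D_le_one hc τ y
      rw [hhat, abs_mul, abs_of_nonneg (mul_nonneg (hZ0 y) (by linarith))]
      calc |F y| * ((Top.full c).Zobs b τ y * (1 - flD c τ y)) ≤ 1 * ((Top.full c).Zobs b τ y * 1) :=
            mul_le_mul (hF1 y) (mul_le_mul_of_nonneg_left (by linarith) (hZ0 y)) (mul_nonneg (hZ0 y) (by linarith)) zero_le_one
        _ = _ := by ring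
  unfold Pint Phat
  rw [← integral_sub i1 i2]
  refine (hL G c hc i0 b hb hb1 τ).abs_int_le _ fun y => ?_
  rw [← mul_sub, ← fl_ZD_eq, abs_mul, abs_of_nonneg (mul_nonneg (hZ0 y) (fl_D_nonneg hc τ y))]
  exact mul_le_of_le_one_left (mul_nonneg (hZ0 y) (fl_D_nonneg hc τ y)) (hF1 y)


/-! ### 8. the cutoff loss with a tilt -/

theorem fl_faces_pos {c : Grid G} (hc : Whole c) : 1 ≤ (Top.full c).faces.card := by
  classical
  have hn := hc.two
  refine Finset.card_pos.2 ⟨((⟨0, by omega⟩, ⟨0, by omega⟩), true), ?_⟩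
  unfold Top.full
  refine Finset.mem_filter.2 ⟨Finset.mem_univ _, Or.inr ?_⟩
  simp only [if_true]
  omega

/-- exponential moments of a mean-free linear observation with bounded reference cost -/
theorem fl_lin_LB (b1 K : ℝ) : ∃ M : ℝ, 0 < M ∧ ∀ (G : Geom) (c : Grid G), Whole c → ∀ (i0 : c.I) (b : ℝ),
    0 < b → b ≤ b1 → ∀ (l : c.I → ℝ) (q : (Top.full c).graph.E → ℝ),
      (∀ u : G.V → ℝ, ∑ i, l i * avg c u i = ∑ e, q e * (u (stp e.1.1 e.1.2) - u e.1.1)) → ∑ e, q e ^ 2 ≤ K → ∑ i, l i ^ 2 ≤ K →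
      ∀ a : ℝ, |a| ≤ 2 * K + 1 →
        FlLB (volume.restrict (fund c i0)) (fun y => Real.exp (a * ∑ i, l i * y i) * (Top.full c).Zobs b 0 y)
          (M * Pint b c i0 0 fun _ => 1) := by
  obtain ⟨CK, hCK⟩ := cosh_sub_one_le (2 * Real.pi * ((2 * K + 1) * Real.sqrt K))
  refine ⟨Real.exp ((2 * K + 1) ^ 2 * K / 2 + b1 * (max CK 0 * (4 * Real.pi ^ 2)) * ((2 * K + 1) ^ 2 * K)), Real.exp_pos _, ?_⟩
  intro G c hc i0 b hb hb1 l q hq hqK hlK a ha
  have hK : 0 ≤ K := le_trans (Finset.sum_nonneg fun i _ => sq_nonneg _) hlK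
  have hP := fl_P0_pos hc i0 b hb
  have ha2 : a ^ 2 ≤ (2 * K + 1) ^ 2 := by
    rw [← sq_abs a]
    exact pow_le_pow_left₀ (abs_nonneg _) ha 2
  refine ⟨?_, mul_nonneg (Real.exp_pos _).le hP.le, ?_⟩
  · exact (Measurable.exp (by fun_prop)).mul (Zobs_measurable _ b hb 0)
  have hcore := fl_core hc i0 b hb 0 (fun i => a * l i) (fun e => a * q e) (fun u => by
    have := hq u
    simp only [mul_assoc, ← Finset.mul_sum]
    rw [this])
  have e1 : ∀ y : c.I → ℝ, ∑ i, a * l i * y i = a * ∑ i, l i * y i := fun y => by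
    simp only [mul_assoc, ← Finset.mul_sum]
  simp_rw [e1] at hcore
  refine hcore.trans (ENNReal.ofReal_le_ofReal (mul_le_mul_of_nonneg_right (Real.exp_le_exp.2 ?_) hP.le))
  have h0 : ∑ e, 2 * Real.pi * (a * q e) * (((Top.full c).econn (0 : Face c → ℤ) e : ℤ) : ℝ) = 0 := by
    rw [fl_econn_zero]
    simp
  rw [h0, sub_zero]
  have h1 : (∑ i, (a * l i) ^ 2) / 2 ≤ (2 * K + 1) ^ 2 * K / 2 := by
    have : ∑ i, (a * l i) ^ 2 = a ^ 2 * ∑ i, l i ^ 2 := by
      simp only [mul_pow, ← Finset.mul_sum]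
    rw [this]
    have := mul_le_mul ha2 hlK (Finset.sum_nonneg fun i _ => sq_nonneg _) (sq_nonneg _)
    linarith
  have h2 : ∀ e, b * (Real.cosh (2 * Real.pi * (a * q e)) - 1) ≤ b1 * (max CK 0 * (4 * Real.pi ^ 2)) * ((2 * K + 1) ^ 2 * q e ^ 2) := by
    intro e
    have h3 : |q e| ≤ Real.sqrt K := by
      refine Real.abs_le_sqrt ((Finset.single_le_sum (f := fun e => q e ^ 2) (fun e _ => sq_nonneg _) (Finset.mem_univ e)).trans hqK)
    have h4 : |2 * Real.pi * (a * q e)| ≤ 2 * Real.pi * ((2 * K + 1) * Real.sqrt K) := by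
      rw [abs_mul, abs_of_pos (by positivity : (0 : ℝ) < 2 * Real.pi), abs_mul]
      exact mul_le_mul_of_nonneg_left (mul_le_mul ha h3 (abs_nonneg _) (by linarith)) (by positivity)
    have h5 := hCK _ h4
    have h6 : 0 ≤ Real.cosh (2 * Real.pi * (a * q e)) - 1 := by linarith [Real.one_le_cosh (2 * Real.pi * (a * q e))]
    have hpos : 0 ≤ b1 * (max CK 0 * (4 * Real.pi ^ 2)) :=
      mul_nonneg (hb.le.trans hb1) (mul_nonneg (le_max_right _ _) (by positivity))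
    calc b * (Real.cosh (2 * Real.pi * (a * q e)) - 1) ≤ b1 * (Real.cosh (2 * Real.pi * (a * q e)) - 1) :=
          mul_le_mul_of_nonneg_right hb1 h6
      _ ≤ b1 * (max CK 0 * (2 * Real.pi * (a * q e)) ^ 2) :=
          mul_le_mul_of_nonneg_left (h5.trans (mul_le_mul_of_nonneg_right (le_max_left _ _) (sq_nonneg _))) (hb.le.trans hb1)
      _ = b1 * (max CK 0 * (4 * Real.pi ^ 2)) * (a ^ 2 * q e ^ 2) := by ring
      _ ≤ _ := mul_le_mul_of_nonneg_left (mul_le_mul_of_nonneg_right ha2 (sq_nonneg _)) hpos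
  have h7 : ∑ e, b * (Real.cosh (2 * Real.pi * (a * q e)) - 1) ≤ b1 * (max CK 0 * (4 * Real.pi ^ 2)) * ((2 * K + 1) ^ 2 * K) := by
    refine (Finset.sum_le_sum fun e _ => h2 e).trans ?_
    rw [← Finset.mul_sum, ← Finset.mul_sum]
    exact mul_le_mul_of_nonneg_left (mul_le_mul_of_nonneg_left hqK (sq_nonneg _))
      (mul_nonneg (hb.le.trans hb1) (mul_nonneg (le_max_right _ _) (by positivity)))
  linarith

theorem fl_pow_le (x : ℝ) (n : ℕ) : |x| ^ n ≤ (n.factorial : ℝ) * (Real.exp x + Real.exp (-x)) := by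
  have h1 := Real.pow_div_factorial_le_exp |x| (abs_nonneg x) n
  have h2 : (0 : ℝ) < n.factorial := by exact_mod_cast n.factorial_pos
  rw [div_le_iff₀ h2] at h1
  have h3 : Real.exp |x| ≤ Real.exp x + Real.exp (-x) := by
    rcases abs_cases x with ⟨h, _⟩ | ⟨h, _⟩ <;> rw [h]
    · linarith [Real.exp_pos (-x)]
    · linarith [Real.exp_pos x]
  calc |x| ^ n ≤ Real.exp |x| * n.factorial := h1
    _ ≤ (Real.exp x + Real.exp (-x)) * n.factorial := mul_le_mul_of_nonneg_right h3 h2.le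
    _ = _ := mul_comm _ _

/-- `|x|^n e^{tx} ≤ n! (e^{(t+1)x} + e^{(t-1)x})` -/
theorem fl_pow_exp_le (x t : ℝ) (n : ℕ) :
    |x| ^ n * Real.exp (t * x) ≤ (n.factorial : ℝ) * (Real.exp ((t + 1) * x) + Real.exp ((t - 1) * x)) := by
  have h1 := mul_le_mul_of_nonneg_right (fl_pow_le x n) (Real.exp_pos (t * x)).le
  refine h1.trans (le_of_eq ?_)
  rw [mul_assoc, add_mul, ← Real.exp_add, ← Real.exp_add]
  congr 3 <;> ring

theorem fl_amgm (A D lam : ℝ) (hl : 0 < lam) (hD0 : 0 ≤ D) (hD1 : D ≤ 1) : A * D ≤ lam / 2 * A ^ 2 + 1 / (2 * lam) * D := by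
  have h1 : 0 ≤ (lam * A - D) ^ 2 / (2 * lam) := by positivity
  have h2 : (lam * A - D) ^ 2 / (2 * lam) = lam / 2 * A ^ 2 - A * D + 1 / (2 * lam) * D ^ 2 := by
    field_simp
    ring
  have h3 : D ^ 2 ≤ D := by nlinarith
  have h4 : 1 / (2 * lam) * D ^ 2 ≤ 1 / (2 * lam) * D := mul_le_mul_of_nonneg_left h3 (by positivity)
  linarith

/-- **(ent:cutoff-loss)**, centred sector, `F = ℓ^k e^{tℓ} F₀`: `ℓ` mean-free with primary reference cost (a flow `q`) and noise variance `≤ K`. -/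
theorem cutoff_loss_tilt (b1 K : ℝ) (k : ℕ) : ∃ (C cc : ℝ), 0 < cc ∧ ∀ (G : Geom) (c : Grid G), Whole c → ∀ (i0 : c.I) (b : ℝ),
    0 < b → b ≤ b1 → ∀ (l : c.I → ℝ) (q : (Top.full c).graph.E → ℝ),
      (∀ u : G.V → ℝ, ∑ i, l i * avg c u i = ∑ e, q e * (u (stp e.1.1 e.1.2) - u e.1.1)) → ∑ e, q e ^ 2 ≤ K → ∑ i, l i ^ 2 ≤ K →
      ∀ (t : ℝ), |t| ≤ K → ∀ F0 : (c.I → ℝ) → ℝ, Measurable F0 → Per c F0 → (∀ y, |F0 y| ≤ 1) →
      |Pint b c i0 0 (fun y => (∑ i, l i * y i) ^ k * Real.exp (t * ∑ i, l i * y i) * F0 y)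
          - Phat b c i0 0 (fun y => (∑ i, l i * y i) ^ k * Real.exp (t * ∑ i, l i * y i) * F0 y)| / Pint b c i0 0 (fun _ => 1)
        ≤ C * ((Top.full c).faces.card : ℝ) * Real.exp (-cc * (c.m : ℝ) ^ 2) := by
  obtain ⟨cc, hcc, hL⟩ := fl_loss_LB b1
  obtain ⟨M, hM, hE⟩ := fl_lin_LB b1 K
  refine ⟨((2 * k).factorial : ℝ) * M + 3 / 2, cc / 2, by positivity, ?_⟩
  intro G c hc i0 b hb hb1 l q hq hqK hlK t ht F0 hF0 _ hF1
  have hK : 0 ≤ K := le_trans (Finset.sum_nonneg fun i _ => sq_nonneg _) hlK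
  have hP := fl_P0_pos hc i0 b hb
  rw [div_le_iff₀ hP]
  set P0 : ℝ := Pint b c i0 0 fun _ => 1 with hP0
  set μ := volume.restrict (fund c i0) with hμ
  set ℓ : (c.I → ℝ) → ℝ := fun y => ∑ i, l i * y i with hℓ
  set Z : (c.I → ℝ) → ℝ := fun y => (Top.full c).Zobs b 0 y with hZdef
  have hℓm : Measurable ℓ := by fun_prop
  have hZm : Measurable Z := Zobs_measurable _ b hb 0
  have hZ0 : ∀ y, 0 ≤ Z y := fun y => (Zobs_pos hc (Top.full c) b hb 0 y).le
  have hX : ∀ y, |ℓ y ^ k * Real.exp (t * ℓ y) * F0 y| ≤ |ℓ y| ^ k * Real.exp (t * ℓ y) := fun y => by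
    rw [abs_mul, abs_mul, abs_pow, abs_of_pos (Real.exp_pos _)]
    exact mul_le_of_le_one_right (by positivity) (hF1 y)
  have hXm : Measurable fun y => ℓ y ^ k * Real.exp (t * ℓ y) * F0 y :=
    ((hℓm.pow_const k).mul (hℓm.const_mul t).exp).mul hF0
  have hEa : ∀ a : ℝ, |a| ≤ 2 * K + 1 → FlLB μ (fun y => Real.exp (a * ℓ y) * Z y) (M * P0) :=
    fun a ha => hE G c hc i0 b hb hb1 l q hq hqK hlK a ha
  have ht' := abs_le.1 ht
  -- integrability
  have hI := ((hEa (t + 1) (abs_le.2 ⟨by linarith, by linarith⟩)).add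
    (hEa (t - 1) (abs_le.2 ⟨by linarith, by linarith⟩))).const_mul (k.factorial : ℝ) (Nat.cast_nonneg _)
  have hXZ : ∀ y, |ℓ y ^ k * Real.exp (t * ℓ y) * F0 y| * Z y
      ≤ (k.factorial : ℝ) * (Real.exp ((t + 1) * ℓ y) * Z y + Real.exp ((t - 1) * ℓ y) * Z y) := fun y => by
    refine (mul_le_mul_of_nonneg_right ((hX y).trans (fl_pow_exp_le (ℓ y) t k)) (hZ0 y)).trans (le_of_eq ?_)
    ring
  have hhat : ∀ y, (Top.full c).Zhat b 0 y = Z y * (1 - flD c 0 y) := fun y => by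
    rw [mul_sub, fl_ZD_eq]
    ring
  have i1 : Integrable (fun y => ℓ y ^ k * Real.exp (t * ℓ y) * F0 y * (Top.full c).Zobs b 0 y) μ :=
    hI.integrable _ (hXm.mul hZm) fun y => by
      rw [abs_mul, abs_of_nonneg (hZ0 y)]
      exact hXZ y
  have i2 : Integrable (fun y => ℓ y ^ k * Real.exp (t * ℓ y) * F0 y * (Top.full c).Zhat b 0 y) μ :=
    hI.integrable _ (hXm.mul (Zhat_measurable _ b hb 0)) fun y => by
      have h1 := fl_D_nonneg hc 0 y
      have h2 := fl_D_le_one hc 0 y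
      rw [hhat, abs_mul, abs_of_nonneg (mul_nonneg (hZ0 y) (by linarith))]
      refine le_trans ?_ (hXZ y)
      exact mul_le_mul_of_nonneg_left (mul_le_of_le_one_right (hZ0 y) (by linarith)) (abs_nonneg _)
  unfold Pint Phat
  rw [← integral_sub i1 i2]
  -- the bound
  set lam : ℝ := Real.exp (-(cc / 2) * (c.m : ℝ) ^ 2) with hlam
  have hlam0 : 0 < lam := Real.exp_pos _
  have hB := ((((hEa (2 * t + 1) (abs_le.2 ⟨by linarith, by linarith⟩)).add
    (hEa (2 * t - 1) (abs_le.2 ⟨by linarith, by linarith⟩))).const_mul ((2 * k).factorial : ℝ) (Nat.cast_nonneg _)).const_mul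
      (lam / 2) (by positivity)).add ((hL G c hc i0 b hb hb1 0).const_mul (1 / (2 * lam)) (by positivity))
  refine (hB.abs_int_le _ fun y => ?_).trans ?_
  · rw [← mul_sub, ← fl_ZD_eq, abs_mul, abs_of_nonneg (mul_nonneg (hZ0 y) (fl_D_nonneg hc 0 y))]
    have h1 := fl_amgm (|ℓ y| ^ k * Real.exp (t * ℓ y)) (flD c 0 y) lam hlam0 (fl_D_nonneg hc 0 y) (fl_D_le_one hc 0 y)
    have h2 : (|ℓ y| ^ k * Real.exp (t * ℓ y)) ^ 2 ≤ ((2 * k).factorial : ℝ) * (Real.exp ((2 * t + 1) * ℓ y) + Real.exp ((2 * t - 1) * ℓ y)) := by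
      have := fl_pow_exp_le (ℓ y) (2 * t) (2 * k)
      refine le_trans (le_of_eq ?_) this
      rw [mul_pow, ← pow_mul, mul_comm k 2, ← Real.exp_nat_mul]
      congr 2
      push_cast
      ring
    have h3 : |ℓ y ^ k * Real.exp (t * ℓ y) * F0 y| * flD c 0 y ≤ lam / 2 * (((2 * k).factorial : ℝ) * (Real.exp ((2 * t + 1) * ℓ y) + Real.exp ((2 * t - 1) * ℓ y)))
        + 1 / (2 * lam) * flD c 0 y :=
      (mul_le_mul_of_nonneg_right (hX y) (fl_D_nonneg hc 0 y)).trans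
        (h1.trans (add_le_add_left (mul_le_mul_of_nonneg_left h2 (by positivity)) _))
    calc |ℓ y ^ k * Real.exp (t * ℓ y) * F0 y| * (Z y * flD c 0 y)
        = (|ℓ y ^ k * Real.exp (t * ℓ y) * F0 y| * flD c 0 y) * Z y := by ring
      _ ≤ (lam / 2 * (((2 * k).factorial : ℝ) * (Real.exp ((2 * t + 1) * ℓ y) + Real.exp ((2 * t - 1) * ℓ y)))
        + 1 / (2 * lam) * flD c 0 y) * Z y := mul_le_mul_of_nonneg_right h3 (hZ0 y)
      _ = _ := by ring
  · have hn : (1 : ℝ) ≤ ((Top.full c).faces.card : ℝ) := by exact_mod_cast fl_faces_pos hc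
    have e1 : Real.exp (-cc * (c.m : ℝ) ^ 2) = lam * lam := by
      rw [hlam, ← Real.exp_add]
      congr 1
      ring
    have e2 : -(cc / 2) * (c.m : ℝ) ^ 2 = -(cc / 2) * (c.m : ℝ) ^ 2 := rfl
    rw [e1]
    have e3 : lam / 2 * (((2 * k).factorial : ℝ) * (M * P0 + M * P0)) + 1 / (2 * lam) * (3 * ((Top.full c).faces.card : ℝ) * (lam * lam) * P0)
        = (((2 * k).factorial : ℝ) * M + 3 / 2 * ((Top.full c).faces.card : ℝ)) * lam * P0 := by
      field_simp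
      ring
    rw [e3]
    have h5 : 0 ≤ ((2 * k).factorial : ℝ) * M := by positivity
    have h6 : ((2 * k).factorial : ℝ) * M + 3 / 2 * ((Top.full c).faces.card : ℝ)
        ≤ (((2 * k).factorial : ℝ) * M + 3 / 2) * ((Top.full c).faces.card : ℝ) := by nlinarith
    exact mul_le_mul_of_nonneg_right (mul_le_mul_of_nonneg_right h6 hlam0.le) hP.le


end

end Claimed.Agent.R285.F4a
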