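import Claimed.Agent.R285.F4a.Tilt
import Claimed.Agent.R285.F4a.Chi

/-!
# ROW 285, F4a: the pointwise cutoff bound (ent:pointwise-cutoff)   (architect helper251)   LEAF L-F4a-PCUT   (PROVED, helper31)

From `face_tilt` (with `k₀ = 1`, constant `C₁`) and `chi_tails`, `chi_facts`.  Choose `t_f = -δ' ..`: precisely apply `face_tilt` with `t_f = δ sgn(w_f) min(|w_f|, s)`, `δ = min(1, 1/(2 C₁))`:
`Z^τ(y)/Z^0(0) ≤ exp(∑_f (-δ |w_f| m_f + C₁ δ² m_f²)) ≤ exp(-(δ/2) ∑_f |w_f| m_f)`, `m_f = min(|w_f|, s)`.  Faces with `|w_f| ≤ 2s`: `|w_f| m_f ≥ w_f²/2`, `χ ≤ 1`.  Faces with `|w_f| > 2s`: `χ_s(w_f) ≤ C exp(-(|w_f|-s)²/2) ≤ C exp(-w_f²/8)`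
and `C exp(-(δ/2) s |w_f|) ≤ C exp(-δ s²) ≤ 1` for `s ≥ s₁`.  So `cc = min(δ/4, 1/8)`.   About 250 lines.
-/

set_option autoImplicit false

namespace Claimed.Agent.R285.F4a

open scoped BigOperators ENNReal NNReal
open MeasureTheory ProbabilityTheory Polynomial
open Claimed.Agent.R285 Claimed.Agent.R285.RG

noncomputable section

variable {G : Geom}

/-- the clamp of `w` to `[-s, s]` -/
def pcClamp (s w : ℝ) : ℝ := max (-s) (min w s)

theorem pcClamp_facts (s w : ℝ) (hs : 0 < s) :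
    |pcClamp s w| ≤ s ∧ pcClamp s w ^ 2 ≤ pcClamp s w * w ∧ (|w| ≤ 2 * s → w ^ 2 / 2 ≤ pcClamp s w * w) := by
  unfold pcClamp
  rcases le_total s w with h | h
  · rw [min_eq_right h, max_eq_right (by linarith)]
    refine ⟨by rw [abs_of_pos hs], by nlinarith, fun h2 => ?_⟩
    have : w ≤ 2 * s := (le_abs_self w).trans h2
    nlinarith
  · rw [min_eq_left h]
    rcases le_total (-s) w with h' | h'
    · rw [max_eq_right h']
      refine ⟨abs_le.2 ⟨h', h⟩, by nlinarith, fun _ => by nlinarith [sq_nonneg w]⟩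
    · rw [max_eq_left h']
      refine ⟨by rw [abs_neg, abs_of_pos hs], by nlinarith, fun h2 => ?_⟩
      have : -w ≤ 2 * s := (neg_le_abs w).trans h2
      nlinarith

theorem pc_face (s w δ : ℝ) (hs : 1 ≤ s) (hδ0 : 0 < δ) (hδ : δ ≤ 1 / 2) :
    Real.exp (-(δ / 2) * (pcClamp s w * w)) * chi s w ≤ Real.exp (-(δ / 4) * w ^ 2) := by
  have hs0 : 0 < s := by linarith
  obtain ⟨-, h2, h3⟩ := pcClamp_facts s w hs0
  have hkw : 0 ≤ pcClamp s w * w := (sq_nonneg _).trans h2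
  rcases le_or_gt |w| (2 * s) with h | h
  · calc Real.exp (-(δ / 2) * (pcClamp s w * w)) * chi s w
        ≤ Real.exp (-(δ / 2) * (pcClamp s w * w)) * 1 :=
          mul_le_mul_of_nonneg_left (chiL_le_one s w hs0) (Real.exp_pos _).le
      _ = Real.exp (-(δ / 2) * (pcClamp s w * w)) := mul_one _
      _ ≤ _ := by
          apply Real.exp_le_exp.2
          have := h3 h
          nlinarith
  · have h4 := (chiL_tails s w hs).2 (by linarith)
    rw [one_mul] at h4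
    calc Real.exp (-(δ / 2) * (pcClamp s w * w)) * chi s w
        ≤ 1 * Real.exp (-(|w| - s) ^ 2 / 2) := by
          refine mul_le_mul ?_ h4 (chiL_pos s w hs0).le zero_le_one
          rw [Real.exp_le_one_iff]
          nlinarith
      _ = Real.exp (-(|w| - s) ^ 2 / 2) := one_mul _
      _ ≤ _ := by
          apply Real.exp_le_exp.2
          have e : w ^ 2 = |w| ^ 2 := (sq_abs w).symm
          rw [e]
          have h5 : |w| / 2 ≤ |w| - s := by linarith
          have h6 : (|w| / 2) ^ 2 ≤ (|w| - s) ^ 2 := pow_le_pow_left₀ (by positivity) h5 2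
          nlinarith [sq_nonneg |w|]

/-- **(ent:pointwise-cutoff)**. -/
theorem pointwise_cutoff (b1 : ℝ) : ∃ (cc : ℝ) (s1 : ℕ), 0 < cc ∧ ∀ (G : Geom) (c : Grid G), Whole c → s1 ≤ c.m → ∀ T : Top c, T.Ok →
    ∀ b : ℝ, 0 < b → b ≤ b1 → ∀ (τ : Face c → ℤ) (y : c.I → ℝ),
      T.Zhat b τ y / T.Zobs b 0 0 ≤ Real.exp (-cc * ∑ f ∈ T.faces, wf c τ y f ^ 2) := by
  obtain ⟨C₁, hC₁⟩ := face_tilt b1 1
  set C' := max C₁ 1 with hC'
  have hC'1 : 1 ≤ C' := le_max_right _ _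
  have hC'0 : 0 < C' := by linarith
  set δ := 1 / (2 * C') with hδ
  have hδ0 : 0 < δ := by positivity
  have hδ2 : δ ≤ 1 / 2 := by
    rw [hδ, div_le_div_iff₀ (by positivity) (by norm_num)]
    linarith
  have hCδ : C' * δ = 1 / 2 := by
    rw [hδ]; field_simp
  refine ⟨δ / 4, 1, by positivity, fun G c hc hs1 T hT b hb hb1 τ y => ?_⟩
  have hs : (1 : ℝ) ≤ c.m := by exact_mod_cast hs1
  have hs0 : (0 : ℝ) < c.m := by linarith
  have hZ0 := Zobs_pos hc T b hb 0 0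
  have hZ := Zobs_pos hc T b hb τ y
  set w := wf c τ y with hw
  set k : Face c → ℝ := fun f => pcClamp c.m (w f) with hk
  have h1 := hC₁ G c hc T hT b hb hb1 τ y (fun f => δ * k f) (fun f _ => by
    rw [abs_mul, abs_of_pos hδ0, one_mul]
    have := (pcClamp_facts c.m (w f) hs0).1
    calc δ * |k f| ≤ 1 * |k f| := mul_le_mul_of_nonneg_right (by linarith) (abs_nonneg _)
      _ = |k f| := one_mul _
      _ ≤ _ := this)
  have h2 : T.Zobs b τ y / T.Zobs b 0 0 ≤ Real.exp (-(δ / 2) * ∑ f ∈ T.faces, k f * w f) := by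
    have e1 : T.Zobs b τ y / T.Zobs b 0 0 = Real.exp (-∑ f ∈ T.faces, δ * k f * w f) *
        (Real.exp (∑ f ∈ T.faces, δ * k f * w f) * (T.Zobs b τ y / T.Zobs b 0 0)) := by
      rw [← mul_assoc, ← Real.exp_add]
      simp
    rw [e1]
    refine (mul_le_mul_of_nonneg_left h1 (Real.exp_pos _).le).trans ?_
    rw [← Real.exp_add]
    apply Real.exp_le_exp.2
    rw [Finset.mul_sum, Finset.mul_sum, ← Finset.sum_neg_distrib, ← Finset.sum_add_distrib]
    refine Finset.sum_le_sum fun f _ => ?_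
    have a1 := (pcClamp_facts c.m (w f) hs0).2.1
    have a2 : C₁ * (δ * k f) ^ 2 ≤ C' * (δ * k f) ^ 2 :=
      mul_le_mul_of_nonneg_right (le_max_left _ _) (sq_nonneg _)
    have a3 : C' * (δ * k f) ^ 2 = δ / 2 * k f ^ 2 := by
      calc C' * (δ * k f) ^ 2 = (C' * δ) * δ * k f ^ 2 := by ring
        _ = _ := by rw [hCδ]; ring
    have a4 : δ / 2 * k f ^ 2 ≤ δ / 2 * (k f * w f) := mul_le_mul_of_nonneg_left a1 (by positivity)
    linarith
  have hchi : 0 ≤ ∏ f ∈ T.faces, chi c.m (w f) := Finset.prod_nonneg fun f _ => (chiL_pos _ _ hs0).le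
  calc T.Zhat b τ y / T.Zobs b 0 0 = (T.Zobs b τ y / T.Zobs b 0 0) * ∏ f ∈ T.faces, chi c.m (w f) := by
        unfold Top.Zhat
        ring
    _ ≤ Real.exp (-(δ / 2) * ∑ f ∈ T.faces, k f * w f) * ∏ f ∈ T.faces, chi c.m (w f) :=
        mul_le_mul_of_nonneg_right h2 hchi
    _ = ∏ f ∈ T.faces, (Real.exp (-(δ / 2) * (k f * w f)) * chi c.m (w f)) := by
        rw [Finset.mul_sum, Real.exp_sum, Finset.prod_mul_distrib]
    _ ≤ ∏ f ∈ T.faces, Real.exp (-(δ / 4) * w f ^ 2) :=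
        Finset.prod_le_prod (fun f _ => mul_nonneg (Real.exp_pos _).le (chiL_pos _ _ hs0).le)
          fun f _ => pc_face c.m (w f) δ hs hδ0 hδ2
    _ = _ := by
        rw [← Real.exp_sum, Finset.mul_sum]


end

end Claimed.Agent.R285.F4a
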