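import Claimed.Agent.R285.F4a.Unfold
import Claimed.Agent.R285.F4a.EnA
import Claimed.Agent.R285.F4a.EnC
import Claimed.Agent.R285.F4a.Loss
import Claimed.Agent.R285.Cut.Tor
import Claimed.Agent.R285.Hol.Gs
import Claimed.Agent.R285.Ker.Term

/-!
# ROW 285, [F] s4.1: the reference representation (eq:noisy-reference), LEAVES      (architect helper226)

Both boundary conventions.  Notation: `α = √a`, `B = avg c`, `T = Top.full c`, `μ = gauss Γ ⊗ gauss C_{<m}`, `U (ψ, ζ) = α B (ψ + ζ)` (`nrfU`), `k (z) = e^{-|z|²/2}` (`nrfk`),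
`D (z) = ∫_ℝ dt ∫ dμ k (U + t 𝟙 - z)` (`nrfD`): the density of the reference observation modulo the common constant.
ROUTE (everything in `ℝ≥0∞`, Tonelli only):
 (1) `nrf_unfold`:  `∫_{θ ∈ (0, 2π/α]} ∫ dμ ∫ dν(e) F (w + U + αθ 𝟙 + e) = (2π)^{-N/2} α⁻¹ ∫_{fund} F (y) D (y - w) dy`  for every `2π 𝟙`-periodic measurable `F ≥ 0`  (density of the noise, tiling `unf_tile`, `nrf_phase_tile`).
 (2) `nrf_cm`:      `D (z) = e^{-E⁰(z)/2} D (0)`  (Cameron-Martin in the direction `f = α⁻¹ A u`, `u` the minimiser of the observation energy; NO inverse matrix, NO density of a degenerate Gaussian).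
 (3) `nrf_D0`:      `0 < D (0) < ∞`.
 (4) `nrf_outer`:   the iterated Bochner integrals of `outer`, `Hav` are the `toReal` of the iterated `∫⁻`.
 (5) `F4a.sector_completion` + `nrf_fund_fin`: glue in `F4a/Ref.lean`.

## Leaves (every `sorry`; edit only your own theorem + helpers directly above it, prefix `nrf_`; splice on a fresh pull)
`L-REF-1 nrf_phase_tile`, `L-REF-2 nrf_unfold`, `L-REF-3 nrf_normal`, `L-REF-4 nrf_kernel`, `L-REF-5 nrf_cm`, `L-REF-6 nrf_D0`, `L-REF-7 nrf_outer`, `L-REF-8 nrf_meas` (3 small theorems), `L-REF-9 nrf_fund_fin`.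
-/

set_option autoImplicit false

namespace Claimed.Agent.R285.F4a

open scoped BigOperators ENNReal NNReal
open MeasureTheory ProbabilityTheory Polynomial
open Claimed.Agent.R285 Claimed.Agent.R285.RG

noncomputable section

variable {G : Geom}

/-- the Gaussian kernel of the noise -/
def nrfk {N : Type} [Fintype N] (z : N → ℝ) : ℝ≥0∞ := ENNReal.ofReal (Real.exp (-(∑ i, z i ^ 2) / 2))

/-- the reference field seen by the cells: `α B_s (ψ + ζ)` -/
def nrfU (a : ℝ) (c : Grid G) (p : (G.V → ℝ) × (G.V → ℝ)) (i : c.I) : ℝ := avg c (fun x => Real.sqrt a * (p.1 x + p.2 x)) i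

/-- the density of the reference observation modulo the common constant -/
def nrfD {Ω : Type} [MeasurableSpace Ω] (μ : Measure Ω) {N : Type} [Fintype N] (U : Ω → N → ℝ) (z : N → ℝ) : ℝ≥0∞ :=
  ∫⁻ t : ℝ, ∫⁻ p, nrfk (fun i => U p i + t - z i) ∂μ

/-- the reference law of the pair (terminal field, entry field) -/
abbrev nrfM (G : Geom) (m : ℕ) (Γ : Matrix G.V G.V ℝ) : Measure ((G.V → ℝ) × (G.V → ℝ)) := (gauss G Γ).prod (gauss G (Cless G m))

theorem nrf_pt_one (α : ℝ) (hα : 0 < α) (D : ℝ → ℝ≥0∞) (hD : Measurable D) (k : ℤ) :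
    ∫⁻ θ in Set.Ioc 0 (2 * Real.pi / α), D (α * θ + 2 * Real.pi * k)
      = ENNReal.ofReal α⁻¹ * ∫⁻ t in Set.Ioc ((0 : ℝ) + k • (2 * Real.pi)) (0 + (k + 1) • (2 * Real.pi)), D t := by
  set S : Set ℝ := Set.Ioc ((0 : ℝ) + k • (2 * Real.pi)) (0 + (k + 1) • (2 * Real.pi)) with hS
  have hSm : MeasurableSet S := measurableSet_Ioc
  rw [← lintegral_indicator measurableSet_Ioc, ← lintegral_indicator hSm]
  have hg : Measurable (S.indicator D) := hD.indicator hSm
  have e1 : ∀ θ : ℝ, (Set.Ioc 0 (2 * Real.pi / α)).indicator (fun θ => D (α * θ + 2 * Real.pi * k)) θ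
      = (fun s => S.indicator D (s + 2 * Real.pi * k)) (α * θ) := by
    intro θ
    have hiff : θ ∈ Set.Ioc 0 (2 * Real.pi / α) ↔ α * θ + 2 * Real.pi * k ∈ S := by
      simp only [hS, Set.mem_Ioc, zsmul_eq_mul, zero_add, Int.cast_add, Int.cast_one]
      rw [le_div_iff₀ hα]
      constructor
      · rintro ⟨h1, h2⟩
        have := mul_pos hα h1
        constructor <;> nlinarith
      · rintro ⟨h1, h2⟩
        constructor
        · have : 0 < α * θ := by nlinarith
          exact pos_of_mul_pos_right this hα.le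
        · nlinarith
    by_cases h : θ ∈ Set.Ioc 0 (2 * Real.pi / α)
    · simp only [Set.indicator_of_mem h, Set.indicator_of_mem (hiff.1 h)]
    · simp only [Set.indicator_of_notMem h, Set.indicator_of_notMem (fun h' => h (hiff.2 h'))]
  simp_rw [e1]
  have hm : Measurable (fun s => S.indicator D (s + 2 * Real.pi * k)) := hg.comp (measurable_id.add_const _)
  have e2 : ∫⁻ θ : ℝ, (fun s => S.indicator D (s + 2 * Real.pi * k)) (α * θ)
      = ∫⁻ s, (fun s => S.indicator D (s + 2 * Real.pi * k)) s ∂(Measure.map (α * ·) volume) :=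
    (lintegral_map hm (measurable_const_mul α)).symm
  rw [e2, Real.map_volume_mul_left hα.ne', lintegral_smul_measure, abs_of_pos (inv_pos.2 hα), smul_eq_mul]
  congr 1
  exact lintegral_add_right_eq_self (S.indicator D) (2 * Real.pi * k)

/-- `L-REF-1` **tiling of the line by the phase intervals.**  Mathlib only.  `θ ↦ αθ` (`lintegral_comp_mul_left`-type change of variables on `Ioc`, or `Measure.map_mul_left`/`Real.map_volume_mul_left`), translation by `2πk`,
`ℝ = ⨆_k Ioc (2πk) (2π(k+1))` (`iUnion_Ioc_add_zsmul`/`pairwise_disjoint_Ioc_add_zsmul`, `lintegral_iUnion`; or `isAddFundamentalDomain_Ioc` + `IsAddFundamentalDomain.lintegral_eq_tsum`). -/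
theorem nrf_phase_tile (α : ℝ) (hα : 0 < α) (D : ℝ → ℝ≥0∞) (hD : Measurable D) :
    ∑' k : ℤ, ∫⁻ θ in Set.Ioc 0 (2 * Real.pi / α), D (α * θ + 2 * Real.pi * k) = ENNReal.ofReal α⁻¹ * ∫⁻ t, D t := by
  simp_rw [nrf_pt_one α hα D hD]
  rw [ENNReal.tsum_mul_left]
  congr 1
  have hp : (0 : ℝ) < 2 * Real.pi := by positivity
  rw [← lintegral_iUnion (fun _ => measurableSet_Ioc) (Set.pairwise_disjoint_Ioc_add_zsmul (0 : ℝ) (2 * Real.pi)),
    iUnion_Ioc_add_zsmul hp, Measure.restrict_univ]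

/-- aux (`L-REF-2`) -/
theorem nrf_k_meas {N : Type} [Fintype N] : Measurable (nrfk : (N → ℝ) → ℝ≥0∞) := by
  unfold nrfk
  fun_prop

/-- `L-REF-2` **unfolding.**  (i) `Cut.nz_density` (`noise c = Cut.nz c.I` by `rfl`) at `m = w + U p + αθ`: `∫ dν(e) F (m + e) = (2π)^{-N/2} ∫ dy F (y) k (m - y)`; (ii) Tonelli (`lintegral_lintegral_swap`, joint measurability by `fun_prop`/`Measurable.lintegral_prod_right'`):
`= (2π)^{-N/2} ∫ dy F (y) Φ (y)`, `Φ (y) = ∫_θ ∫ dμ k (w + U + αθ - y)`; (iii) `unf_tile c i0 F Φ` read from right to left, `lintegral_tsum`, `ENNReal.tsum_mul_left`;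
(iv) `∑_k Φ (y - 2πk) = α⁻¹ ∫_ℝ dt ∫ dμ k (U + t - (y - w))` by `nrf_phase_tile` with `D t = ∫ dμ k (U + t - (y - w))`. -/
theorem nrf_unfold {Ω : Type} [MeasurableSpace Ω] (μ : Measure Ω) [SFinite μ] (c : Grid G) (i0 : c.I) (U : Ω → c.I → ℝ) (hU : Measurable U)
    (α : ℝ) (hα : 0 < α) (F : (c.I → ℝ) → ℝ≥0∞) (hF : Measurable F) (hper : ∀ y, F (fun i => y i + 2 * Real.pi) = F y) (w : c.I → ℝ) :
    ∫⁻ θ in Set.Ioc 0 (2 * Real.pi / α), ∫⁻ p, ∫⁻ e, F (fun i => w i + U p i + α * θ + e i) ∂(noise c) ∂μ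
      = ENNReal.ofReal (((2 * Real.pi) ^ ((Fintype.card c.I : ℝ) / 2))⁻¹ * α⁻¹) * ∫⁻ y in fund c i0, F y * nrfD μ U (fun i => y i - w i) := by
  classical
  set C : ℝ := (2 * Real.pi) ^ ((Fintype.card c.I : ℝ) / 2) with hC
  have hCpos : 0 < C := by positivity
  set ν : Measure (ℝ × Ω) := (volume.restrict (Set.Ioc 0 (2 * Real.pi / α))).prod μ with hν
  have hk : Measurable (nrfk : (c.I → ℝ) → ℝ≥0∞) := nrf_k_meas
  have hJ : Measurable fun q : (ℝ × Ω) × (c.I → ℝ) => nrfk (fun i => w i + U q.1.2 i + α * q.1.1 - q.2 i) := by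
    refine hk.comp (measurable_pi_lambda _ fun i => ?_)
    have h1 : Measurable fun q : (ℝ × Ω) × (c.I → ℝ) => U q.1.2 i :=
      (measurable_pi_apply i).comp (hU.comp (measurable_snd.comp measurable_fst))
    have h2 : Measurable fun q : (ℝ × Ω) × (c.I → ℝ) => q.2 i := (measurable_pi_apply i).comp measurable_snd
    have h3 : Measurable fun q : (ℝ × Ω) × (c.I → ℝ) => q.1.1 := measurable_fst.comp measurable_fst
    exact ((measurable_const.add h1).add (measurable_const.mul h3)).sub h2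
  have hA : Measurable fun q : (ℝ × Ω) × (c.I → ℝ) => F q.2 * nrfk (fun i => w i + U q.1.2 i + α * q.1.1 - q.2 i) :=
    (hF.comp measurable_snd).mul hJ
  have hJy : ∀ y : c.I → ℝ, Measurable fun q : ℝ × Ω => nrfk (fun i => w i + U q.2 i + α * q.1 - y i) := by
    intro y
    refine hk.comp (measurable_pi_lambda _ fun i => ?_)
    have h1 : Measurable fun q : ℝ × Ω => U q.2 i := (measurable_pi_apply i).comp (hU.comp measurable_snd)
    exact ((measurable_const.add h1).add (measurable_const.mul measurable_fst)).sub measurable_const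
  -- (i) the density of the noise
  have s1 : ∀ θ p, ∫⁻ e, F (fun i => w i + U p i + α * θ + e i) ∂(noise c)
      = ENNReal.ofReal C⁻¹ * ∫⁻ y, F y * nrfk (fun i => w i + U p i + α * θ - y i) := by
    intro θ p
    have e : ∫⁻ y, F y * nrfk (fun i => w i + U p i + α * θ - y i)
        = ENNReal.ofReal C * ∫⁻ e, F (fun i => w i + U p i + α * θ + e i) ∂(Cut.nz c.I) :=
      Cut.nz_density (fun i => w i + U p i + α * θ) F hF
    show ∫⁻ e, F (fun i => w i + U p i + α * θ + e i) ∂(Cut.nz c.I) = _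
    rw [e, ← mul_assoc, ← ENNReal.ofReal_mul (by positivity), inv_mul_cancel₀ hCpos.ne', ENNReal.ofReal_one, one_mul]
  -- (ii) Tonelli
  set Φ : (c.I → ℝ) → ℝ≥0∞ := fun y => ∫⁻ q, nrfk (fun i => w i + U q.2 i + α * q.1 - y i) ∂ν with hΦdef
  have hΦ : Measurable Φ := hJ.lintegral_prod_left'
  have mG : Measurable fun q : ℝ × Ω => ∫⁻ y, F y * nrfk (fun i => w i + U q.2 i + α * q.1 - y i) := hA.lintegral_prod_right'
  have s2 : ∫⁻ θ in Set.Ioc 0 (2 * Real.pi / α), ∫⁻ p, ∫⁻ e, F (fun i => w i + U p i + α * θ + e i) ∂(noise c) ∂μ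
      = ENNReal.ofReal C⁻¹ * ∫⁻ y, F y * Φ y := by
    simp_rw [s1]
    rw [← lintegral_prod (fun q : ℝ × Ω => ENNReal.ofReal C⁻¹ * ∫⁻ y, F y * nrfk (fun i => w i + U q.2 i + α * q.1 - y i))
      (mG.const_mul _).aemeasurable, lintegral_const_mul _ mG,
      lintegral_lintegral_swap (f := fun (q : ℝ × Ω) (y : c.I → ℝ) => F y * nrfk (fun i => w i + U q.2 i + α * q.1 - y i)) hA.aemeasurable]
    congr 1
    refine lintegral_congr fun y => ?_
    exact lintegral_const_mul (F y) (hJy y)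
  -- (iv) the sum over the translates
  have s4 : ∀ y : c.I → ℝ, ∑' k : ℤ, Φ (fun i => y i - 2 * Real.pi * k) = ENNReal.ofReal α⁻¹ * nrfD μ U (fun i => y i - w i) := by
    intro y
    have hD : Measurable fun t : ℝ => ∫⁻ p, nrfk (fun i => U p i + t - (y i - w i)) ∂μ := by
      have : Measurable fun q : ℝ × Ω => nrfk (fun i => U q.2 i + q.1 - (y i - w i)) := by
        refine hk.comp (measurable_pi_lambda _ fun i => ?_)
        exact ((((measurable_pi_apply i).comp (hU.comp measurable_snd)).add measurable_fst).sub measurable_const)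
      exact this.lintegral_prod_right'
    show _ = ENNReal.ofReal α⁻¹ * ∫⁻ t : ℝ, ∫⁻ p, nrfk (fun i => U p i + t - (y i - w i)) ∂μ
    rw [← nrf_phase_tile α hα _ hD]
    refine tsum_congr fun k => ?_
    show ∫⁻ q, nrfk (fun i => w i + U q.2 i + α * q.1 - (y i - 2 * Real.pi * k)) ∂ν = _
    rw [lintegral_prod _ (hJy _).aemeasurable]
    refine lintegral_congr fun θ => lintegral_congr fun p => ?_
    congr 1
    funext i
    ring
  -- (iii) tiling
  rw [s2, ← unf_tile c i0 F Φ hF hΦ hper, ← lintegral_tsum]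
  · simp_rw [ENNReal.tsum_mul_left, s4]
    have mD : Measurable fun y : c.I → ℝ => nrfD μ U (fun i => y i - w i) := by
      have h0 : Measurable fun q : ((c.I → ℝ) × ℝ) × Ω => nrfk (fun i => U q.2 i + q.1.2 - (q.1.1 i - w i)) := by
        refine hk.comp (measurable_pi_lambda _ fun i => ?_)
        exact ((((measurable_pi_apply i).comp (hU.comp measurable_snd)).add (measurable_snd.comp measurable_fst)).sub
          (((measurable_pi_apply i).comp (measurable_fst.comp measurable_fst)).sub measurable_const))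
      have h1 : Measurable fun q : (c.I → ℝ) × ℝ => ∫⁻ p, nrfk (fun i => U p i + q.2 - (q.1 i - w i)) ∂μ := h0.lintegral_prod_right'
      exact h1.lintegral_prod_right'
    have e : ∀ y : c.I → ℝ, F y * (ENNReal.ofReal α⁻¹ * nrfD μ U (fun i => y i - w i))
        = ENNReal.ofReal α⁻¹ * (F y * nrfD μ U (fun i => y i - w i)) := fun y => by ring
    simp_rw [e]
    have mFD : Measurable fun y : c.I → ℝ => F y * nrfD μ U (fun i => y i - w i) := hF.mul mD
    rw [lintegral_const_mul _ mFD, ← mul_assoc, ← ENNReal.ofReal_mul (by positivity)]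
  · intro k
    refine (hF.mul (hΦ.comp (measurable_pi_lambda _ fun i => ?_))).aemeasurable
    exact (measurable_pi_apply i).sub measurable_const

/-- the bonds of the full graph are all pairs `(v, d)` which are not folded to a point -/
theorem nrf_full_edge {c : Grid G} (hc : Whole c) (e : G.V × Bool) :
    (Top.full c).IsEdge e ↔ stp e.1 e.2 ≠ e.1 := by
  classical
  unfold Top.IsEdge
  constructor
  · exact fun h => h.1
  · intro h
    refine ⟨h, by simp [Top.full], by simp [Top.full], ?_⟩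
    by_cases h1 : c.blk (stp e.1 e.2) = c.blk e.1
    · exact Or.inl h1
    · right
      unfold Top.full
      simp only [Finset.mem_filter, Finset.mem_univ, true_and]
      exact enc_isFace hc e.1 e.2 h1

/-- a sum over the bonds of the full graph is a sum over all pairs -/
theorem nrf_full_sum {c : Grid G} (hc : Whole c) (F : G.V × Bool → ℝ) (hF : ∀ e, stp e.1 e.2 = e.1 → F e = 0) :
    ∑ e : (Top.full c).graph.E, F e.1 = ∑ e : G.V × Bool, F e := by
  classical
  have h1 : ∑ e : (Top.full c).graph.E, F e.1 = ∑ e ∈ Finset.univ.filter (Top.full c).IsEdge, F e :=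
    (Finset.sum_subtype (Finset.univ.filter (Top.full c).IsEdge) (by simp) F).symm
  rw [h1]
  refine Finset.sum_subset (Finset.filter_subset _ _) fun e _ he => ?_
  refine hF e ?_
  by_contra h
  exact he (Finset.mem_filter.2 ⟨Finset.mem_univ _, (nrf_full_edge hc e).2 h⟩)

/-- the bilinear Dirichlet form of `lap G` -/
theorem nrf_dirichlet (u ζ : G.V → ℝ) :
    (lap G).mulVec u ⬝ᵥ ζ = ∑ e : G.V × Bool, (u (stp e.1 e.2) - u e.1) * (ζ (stp e.1 e.2) - ζ e.1) := by
  have h := enc_sum_four (G := G) (fun v w => (u v - u w) * ζ v) (fun v => by simp)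
  simp only [dotProduct, enc_lap_mulVec, Finset.sum_mul]
  rw [h]
  refine Finset.sum_congr rfl fun e _ => ?_
  ring

/-- `L-REF-3` **the normal equations of the observation energy on the full graph.**  `En_eq_lsq`, `lsq_attained` for `(Top.full c).Lm a`, `(Top.full c).dv a 0 z` (`Lm_inl`, `Lm_inr`, `enc_econn_zero`): a minimiser `u` with
`a⁻¹ ∑_e ∇_e u ∇_e ζ + ∑_i (B u - z)_i (B ζ)_i = 0` for all `ζ`.  The bonds of the full graph are ALL pairs `(v, d)` with `stp v d ≠ v` (`enc_isFace`, as in `bond_le_lap`), and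
`(A u) · ζ = ∑_{(v,d)} ∇u ∇ζ` (`enc_sum_four` with `g v w = ζ v (u v - u w)`, `enc_lap_mulVec`, exactly as `enc_dirichlet`).  `ζ = 𝟙`: `∑ x = 0`.  `ζ = u`: `E = a⁻¹ |∇u|² + |x|² = ∑ x_i (B u)_i + ∑ x_i² = ∑ x_i z_i`. -/
theorem nrf_normal (a : ℝ) (ha : 0 < a) {c : Grid G} (hc : Whole c) (z : c.I → ℝ) :
    ∃ u : G.V → ℝ, (∀ ζ : G.V → ℝ, (lap G).mulVec u ⬝ᵥ ζ = a * ∑ i, (z i - avg c u i) * avg c ζ i) ∧
      ∑ i, (z i - avg c u i) = 0 ∧ (Top.full c).Eobs a 0 z = ∑ i, (z i - avg c u i) * z i := by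
  classical
  obtain ⟨u, hu, hn⟩ := lsq_attained ((Top.full c).Lm a)
    ((Top.full c).dv a (fun f => 2 * Real.pi * (((0 : Face c → ℤ) f : ℤ) : ℝ)) z)
  have hsq : (Real.sqrt a)⁻¹ * (Real.sqrt a)⁻¹ = a⁻¹ := by
    rw [← mul_inv, Real.mul_self_sqrt ha.le]
  have hcells : ∀ F : c.I → ℝ, ∑ i : {i : c.I // i ∈ (Top.full c).cells}, F i.1 = ∑ i, F i := by
    intro F
    have h1 : ∑ i : {i : c.I // i ∈ (Top.full c).cells}, F i.1 = ∑ i ∈ (Top.full c).cells, F i :=
      Finset.sum_coe_sort (Top.full c).cells F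
    rw [h1]
    rfl
  -- the normal equations
  have hN : ∀ ζ : G.V → ℝ, (lap G).mulVec u ⬝ᵥ ζ = a * ∑ i, (z i - avg c u i) * avg c ζ i := by
    intro ζ
    have h1 := hn ζ
    rw [Fintype.sum_sum_type] at h1
    have h2 : ∑ e : (Top.full c).graph.E, (((Top.full c).Lm a).mulVec u (Sum.inl e)
          + (Top.full c).dv a (fun f => 2 * Real.pi * (((0 : Face c → ℤ) f : ℤ) : ℝ)) z (Sum.inl e))
            * ((Top.full c).Lm a).mulVec ζ (Sum.inl e)
        = a⁻¹ * ((lap G).mulVec u ⬝ᵥ ζ) := by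
      rw [nrf_dirichlet, ← nrf_full_sum hc (fun e => (u (stp e.1 e.2) - u e.1) * (ζ (stp e.1 e.2) - ζ e.1))
        (fun e he => by simp [he]), Finset.mul_sum]
      refine Finset.sum_congr rfl fun e _ => ?_
      rw [Lm_inl, Lm_inl]
      simp only [Top.dv]
      rw [enc_econn_zero, mul_zero, add_zero, ← hsq]
      ring
    have h3 : ∑ i : {i : c.I // i ∈ (Top.full c).cells}, (((Top.full c).Lm a).mulVec u (Sum.inr i)
          + (Top.full c).dv a (fun f => 2 * Real.pi * (((0 : Face c → ℤ) f : ℤ) : ℝ)) z (Sum.inr i))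
            * ((Top.full c).Lm a).mulVec ζ (Sum.inr i)
        = - ∑ i, (z i - avg c u i) * avg c ζ i := by
      rw [← hcells (fun i => (z i - avg c u i) * avg c ζ i), ← Finset.sum_neg_distrib]
      refine Finset.sum_congr rfl fun i _ => ?_
      rw [Lm_inr, Lm_inr]
      simp only [Top.dv]
      ring
    rw [h2, h3] at h1
    have h4 : a⁻¹ * ((lap G).mulVec u ⬝ᵥ ζ) = ∑ i, (z i - avg c u i) * avg c ζ i := by linarith
    rw [← h4, ← mul_assoc, mul_inv_cancel₀ ha.ne', one_mul]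
  refine ⟨u, hN, ?_, ?_⟩
  · have h1 := hN (fun _ => 1)
    have h2 : (lap G).mulVec u ⬝ᵥ (fun _ => (1 : ℝ)) = 0 := by
      rw [nrf_dirichlet]
      simp
    have h3 : ∀ i, avg c (fun _ => (1 : ℝ)) i = 1 := by
      intro i
      have h4 := unf_avg_add hc (fun _ => (0 : ℝ)) 1 i
      simp only [zero_add] at h4
      rw [h4]
      simp [cellAvg]
    rw [h2] at h1
    simp only [h3, mul_one] at h1
    rcases mul_eq_zero.1 h1.symm with h | h
    · exact absurd h ha.ne'
    · exact h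
  · unfold Top.Eobs
    rw [En_eq_lsq _ a ha, hu, ← quad_eq_sqs _ a ha]
    unfold Top.quad
    have h1 : ∑ e : (Top.full c).graph.E, (u (stp e.1.1 e.1.2) - u e.1.1
          + (Top.full c).econn (fun f => 2 * Real.pi * (((0 : Face c → ℤ) f : ℤ) : ℝ)) e) ^ 2
        = (lap G).mulVec u ⬝ᵥ u := by
      rw [nrf_dirichlet, ← nrf_full_sum hc (fun e => (u (stp e.1 e.2) - u e.1) * (u (stp e.1 e.2) - u e.1))
        (fun e he => by simp [he])]
      refine Finset.sum_congr rfl fun e _ => ?_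
      rw [enc_econn_zero, add_zero, sq]
    have h2 : ∑ i ∈ (Top.full c).cells, (avg c u i - z i) ^ 2 = ∑ i, (avg c u i - z i) ^ 2 := rfl
    rw [h1, h2, hN u, ← mul_assoc, inv_mul_cancel₀ ha.ne', one_mul, ← Finset.sum_add_distrib]
    refine Finset.sum_congr rfl fun i _ => ?_
    ring

/-- `L-REF-4` **`C_{≥m} + C_{<m}` inverts the Laplacian modulo constants.**  Copy the first lines of `Obs.term_cac` (`Obs/TermA.lean`): `lap G * (low G Fam.entry m + Γ) = 1 - Ker.cmat G 1`, both factors symmetric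
(`Ker.ker_mul_symm`), transpose; `Ker.ker_cmat_mulVec`.  PSD: `hΓ.psd`, `Ker.ker_low_psd G Fam.entry Ker.ker_entry_adm m hm`. -/
theorem nrf_kernel (m : ℕ) (hm : 1 ≤ m) (Γ : Matrix G.V G.V ℝ) (hΓ : IsGe G m Γ) :
    Γ.PosSemidef ∧ (Cless G m).PosSemidef ∧ ∀ u : G.V → ℝ,
      Γ.mulVec ((lap G).mulVec u) + (Cless G m).mulVec ((lap G).mulVec u) = fun x => u x - (∑ v, u v) / (G.M : ℝ) ^ 2 := by
  refine ⟨hΓ.psd, Ker.ker_low_psd G Fam.entry Ker.ker_entry_adm m hm, fun u => ?_⟩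
  have hlow : Ker.HasMul G (low G Fam.entry m) (fun t => (Fam.entry.lowP m).eval t) := Ker.ker_cov_mul G _
  have hT := Ker.ker_mul_add hlow (Ker.ker_terminal_mul Ker.ker_entry_adm m hΓ)
  have hsym := Ker.ker_mul_symm hT
  have hAT : lap G * (low G Fam.entry m + Γ) = 1 - Ker.cmat G 1 := by
    refine Ker.ker_mul_ext (Ker.ker_mul_lap hT) (Ker.ker_mul_sub (Ker.ker_mul_one G) (Ker.ker_cmat_mul G 1)) ?_
    intro k
    by_cases hk : Ker.lam (Ker.per G) k = 0
    · simp [hk]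
    · have h3 := Ker.ker_lowP_eval Fam.entry m hm (Ker.lam (Ker.per G) k)
      have h5 : Fam.entry.pref.eval (Ker.lam (Ker.per G) k) = 1 := by simp [Fam.entry]
      simp only [Ker.tm, hk, if_false, Ker.ker_termP_eval, mul_add, h3, h5]
      field_simp
      ring
  have hlapsym : (lap G).transpose = lap G := Ker.ker_mul_symm (Ker.ker_lap_mul G)
  have hcsym : (Ker.cmat G 1).transpose = Ker.cmat G 1 := by
    ext v w
    rfl
  have hTA : (low G Fam.entry m + Γ) * lap G = 1 - Ker.cmat G 1 := by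
    have h1 := congrArg Matrix.transpose hAT
    rw [Matrix.transpose_mul, hsym, hlapsym, Matrix.transpose_sub, Matrix.transpose_one, hcsym] at h1
    exact h1
  have h2 : Γ.mulVec ((lap G).mulVec u) + (Cless G m).mulVec ((lap G).mulVec u)
      = ((low G Fam.entry m + Γ) * lap G).mulVec u := by
    rw [← Matrix.mulVec_mulVec, Matrix.add_mulVec, add_comm]
  rw [h2, hTA, Matrix.sub_mulVec, Matrix.one_mulVec, Ker.ker_cmat_mulVec]
  funext x
  simp only [Pi.sub_apply]
  ring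

theorem nrf_cm_Umeas (a : ℝ) (c : Grid G) : Measurable (nrfU a c) := by
  refine measurable_pi_lambda _ fun i => ?_
  unfold nrfU
  simp only [avg, cellAvg]
  refine (Finset.measurable_sum _ fun x _ => ?_).div_const _
  exact (((measurable_pi_apply x).comp measurable_fst).add ((measurable_pi_apply x).comp measurable_snd)).const_mul _

/-- Cameron-Martin, in the form "insert a shift" -/
theorem nrf_shift (Γ : Matrix G.V G.V ℝ) (hΓ : Γ.PosSemidef) (f : G.V → ℝ) (K : (G.V → ℝ) → ℝ≥0∞) (hK : Measurable K) :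
    ∫⁻ ζ, K ζ ∂(gauss G Γ)
      = ∫⁻ ζ, ENNReal.ofReal (Real.exp (-(f ⬝ᵥ ζ) - (f ⬝ᵥ Γ.mulVec f) / 2)) * K (ζ + Γ.mulVec f) ∂(gauss G Γ) := by
  have h := Hol.gauss_shift_lintegral Γ hΓ (-f) (fun ζ => K (ζ + Γ.mulVec f)) (hK.comp (measurable_add_const _))
  simp only [Matrix.mulVec_neg, neg_dotProduct, dotProduct_neg, neg_neg, neg_add_cancel_right] at h
  exact h

theorem nrf_avg_smul (c : Grid G) (r : ℝ) (u : G.V → ℝ) (i : c.I) : avg c (fun x => r * u x) i = r * avg c u i := by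
  simp only [avg, cellAvg, ← Finset.mul_sum, mul_div_assoc]

/-- `L-REF-5` **Cameron-Martin.**  `u`, `x = z - B u` from `nrf_normal`, `f = α⁻¹ A u`, `\bar u = ∑ u / M²`.  Then `f · ζ = α ∑ x_i (B ζ)_i`, `Γ f + C_< f = α⁻¹ (u - \bar u)` (`nrf_kernel`).
`lintegral_prod` (both directions), `Hol.gauss_shift_lintegral` with `η = -f` applied to `K (· + Γ f)`, for `ψ` and for `ζ`:
`∫∫ k (αB(ψ+ζ) + t - z) = ∫∫ e^{-f·ψ - fΓf/2} e^{-f·ζ - fC_<f/2} k (αB(ψ+ζ) + (t - \bar u) - x)`, and pointwise (one `Real.exp_add` + `ring`-type identity, using `∑ x = 0`, `∑ (αB(ψ+ζ))_i x_i = f·(ψ+ζ)`,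
`f·(Γ + C_<) f + ∑ x² = ∑ x_i (Bu)_i + ∑ x_i² = ∑ x_i z_i = E⁰(z)`) the integrand is `e^{-E⁰(z)/2} k (αB(ψ+ζ) + (t - \bar u))`.  Finally `lintegral_sub_right_eq_self` in `t`. -/
theorem nrf_cm (a : ℝ) (ha : 0 < a) {c : Grid G} (hc : Whole c) (m : ℕ) (hm : 1 ≤ m) (Γ : Matrix G.V G.V ℝ) (hΓ : IsGe G m Γ) (z : c.I → ℝ) :
    nrfD (nrfM G m Γ) (nrfU a c) z = ENNReal.ofReal (Real.exp (-(Top.full c).Eobs a 0 z / 2)) * nrfD (nrfM G m Γ) (nrfU a c) 0 := by
  obtain ⟨u, hne, hx0, hE⟩ := nrf_normal a ha hc z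
  obtain ⟨hΓp, hCp, hker⟩ := nrf_kernel m hm Γ hΓ
  have hα : 0 < Real.sqrt a := Real.sqrt_pos.2 ha
  have hαα : Real.sqrt a * Real.sqrt a = a := Real.mul_self_sqrt ha.le
  set E : ℝ := (Top.full c).Eobs a 0 z with hEdef
  set x : c.I → ℝ := fun i => z i - avg c u i with hx
  set f : G.V → ℝ := (Real.sqrt a)⁻¹ • (lap G).mulVec u with hf
  set ub : ℝ := (∑ v, u v) / (G.M : ℝ) ^ 2 with hub
  have hF1 : ∀ ζ : G.V → ℝ, f ⬝ᵥ ζ = ∑ i, x i * avg c (fun y => Real.sqrt a * ζ y) i := by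
    intro ζ
    rw [hf, smul_dotProduct, hne ζ, smul_eq_mul, ← mul_assoc, Finset.mul_sum]
    refine Finset.sum_congr rfl fun i _ => ?_
    rw [nrf_avg_smul]
    have : (Real.sqrt a)⁻¹ * a = Real.sqrt a := by
      nth_rewrite 2 [← hαα]
      field_simp
    rw [this]
    ring
  have hF2 : Γ.mulVec f + (Cless G m).mulVec f = fun y => (Real.sqrt a)⁻¹ * (u y - ub) := by
    rw [hf, Matrix.mulVec_smul, Matrix.mulVec_smul, ← smul_add, hker u]
    rfl
  have hQ : f ⬝ᵥ Γ.mulVec f + f ⬝ᵥ (Cless G m).mulVec f = ∑ i, x i * avg c u i := by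
    rw [← dotProduct_add, hF2, hF1]
    have e : ∀ i, avg c (fun y => Real.sqrt a * ((Real.sqrt a)⁻¹ * (u y - ub))) i = avg c u i + -ub := by
      intro i
      rw [← unf_avg_add hc]
      congr 1
      funext y
      field_simp
      ring
    simp only [e, mul_add, Finset.sum_add_distrib, ← Finset.sum_mul, hx0, zero_mul, add_zero]
  have hU : ∀ (ψ ζ : G.V → ℝ) (i : c.I), nrfU a c (ψ + Γ.mulVec f, ζ + (Cless G m).mulVec f) i = nrfU a c (ψ, ζ) i + avg c u i + -ub := by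
    intro ψ ζ i
    unfold nrfU
    rw [← enb_avg_add, ← unf_avg_add hc]
    congr 1
    funext y
    have := congrFun hF2 y
    simp only [Pi.add_apply] at this ⊢
    have e : (ψ y + Γ.mulVec f y + (ζ y + (Cless G m).mulVec f y)) = ψ y + ζ y + (Γ.mulVec f y + (Cless G m).mulVec f y) := by ring
    rw [e, this]
    field_simp
    ring
  have hpt : ∀ (t : ℝ) (ψ ζ : G.V → ℝ),
      ENNReal.ofReal (Real.exp (-(f ⬝ᵥ ψ) - (f ⬝ᵥ Γ.mulVec f) / 2)) *
        (ENNReal.ofReal (Real.exp (-(f ⬝ᵥ ζ) - (f ⬝ᵥ (Cless G m).mulVec f) / 2)) *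
          nrfk (fun i => nrfU a c (ψ + Γ.mulVec f, ζ + (Cless G m).mulVec f) i + t - z i))
      = ENNReal.ofReal (Real.exp (-E / 2)) * nrfk (fun i => nrfU a c (ψ, ζ) i + (t - ub) - (0 : c.I → ℝ) i) := by
    intro t ψ ζ
    unfold nrfk
    rw [← ENNReal.ofReal_mul (Real.exp_pos _).le, ← ENNReal.ofReal_mul (Real.exp_pos _).le,
      ← ENNReal.ofReal_mul (Real.exp_pos _).le, ← Real.exp_add, ← Real.exp_add, ← Real.exp_add]
    congr 2
    have h1 : f ⬝ᵥ ψ + f ⬝ᵥ ζ = ∑ i, x i * nrfU a c (ψ, ζ) i := by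
      rw [← dotProduct_add, hF1]
      rfl
    have h3 : ∑ i, (nrfU a c (ψ + Γ.mulVec f, ζ + (Cless G m).mulVec f) i + t - z i) ^ 2
        = ∑ i, (nrfU a c (ψ, ζ) i + (t - ub) - (0 : c.I → ℝ) i) ^ 2 - 2 * ∑ i, x i * nrfU a c (ψ, ζ) i + ∑ i, x i * x i := by
      have e : ∀ i, (nrfU a c (ψ + Γ.mulVec f, ζ + (Cless G m).mulVec f) i + t - z i) ^ 2
          = (nrfU a c (ψ, ζ) i + (t - ub) - (0 : c.I → ℝ) i) ^ 2 - 2 * (x i * nrfU a c (ψ, ζ) i) + x i * x i - 2 * (t - ub) * x i := by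
        intro i
        rw [hU]
        simp only [hx, Pi.zero_apply]
        ring
      simp only [e, Finset.sum_sub_distrib, Finset.sum_add_distrib, ← Finset.mul_sum, hx0, mul_zero, sub_zero]
    have h4 : E = ∑ i, x i * avg c u i + ∑ i, x i * x i := by
      rw [hE, ← Finset.sum_add_distrib]
      refine Finset.sum_congr rfl fun i _ => ?_
      simp only [hx]
      ring
    rw [h3, h4, ← hQ, ← h1]
    ring
  -- measurability
  have hKm : ∀ t : ℝ, Measurable fun p : (G.V → ℝ) × (G.V → ℝ) => nrfk (fun i => nrfU a c p i + t - z i) := fun t =>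
    nrf_k_meas.comp (measurable_pi_lambda _ fun i =>
      (((measurable_pi_apply i).comp (nrf_cm_Umeas a c)).add_const t).sub_const (z i))
  have hK0m : ∀ t : ℝ, Measurable fun p : (G.V → ℝ) × (G.V → ℝ) => nrfk (fun i => nrfU a c p i + t - (0 : c.I → ℝ) i) := fun t =>
    nrf_k_meas.comp (measurable_pi_lambda _ fun i =>
      (((measurable_pi_apply i).comp (nrf_cm_Umeas a c)).add_const t).sub_const _)
  have key : ∀ t : ℝ, ∫⁻ p, nrfk (fun i => nrfU a c p i + t - z i) ∂(nrfM G m Γ)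
      = ENNReal.ofReal (Real.exp (-E / 2)) * ∫⁻ p, nrfk (fun i => nrfU a c p i + (t - ub) - (0 : c.I → ℝ) i) ∂(nrfM G m Γ) := by
    intro t
    rw [← lintegral_const_mul _ (hK0m _), lintegral_prod _ (hKm t).aemeasurable,
      lintegral_prod _ ((hK0m (t - ub)).const_mul _).aemeasurable]
    -- shift in `ζ`
    have s1 : ∀ ψ : G.V → ℝ, ∫⁻ ζ, nrfk (fun i => nrfU a c (ψ, ζ) i + t - z i) ∂(gauss G (Cless G m))
        = ∫⁻ ζ, ENNReal.ofReal (Real.exp (-(f ⬝ᵥ ζ) - (f ⬝ᵥ (Cless G m).mulVec f) / 2)) *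
            nrfk (fun i => nrfU a c (ψ, ζ + (Cless G m).mulVec f) i + t - z i) ∂(gauss G (Cless G m)) := fun ψ =>
      nrf_shift _ hCp f (fun ζ => nrfk (fun i => nrfU a c (ψ, ζ) i + t - z i)) ((hKm t).comp measurable_prodMk_left)
    simp only [s1]
    -- shift in `ψ`
    have hm2 : Measurable fun p : (G.V → ℝ) × (G.V → ℝ) =>
        ENNReal.ofReal (Real.exp (-(f ⬝ᵥ p.2) - (f ⬝ᵥ (Cless G m).mulVec f) / 2)) *
            nrfk (fun i => nrfU a c (p.1, p.2 + (Cless G m).mulVec f) i + t - z i) := by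
      refine Measurable.mul ?_ ((hKm t).comp (measurable_fst.prodMk (measurable_snd.add_const _)))
      refine ENNReal.measurable_ofReal.comp (Real.measurable_exp.comp ?_)
      exact ((((Hol.dot_continuous f).measurable).comp measurable_snd).neg).sub_const _
    rw [nrf_shift _ hΓp f (fun ψ => ∫⁻ ζ, ENNReal.ofReal (Real.exp (-(f ⬝ᵥ ζ) - (f ⬝ᵥ (Cless G m).mulVec f) / 2)) *
            nrfk (fun i => nrfU a c (ψ, ζ + (Cless G m).mulVec f) i + t - z i) ∂(gauss G (Cless G m))) hm2.lintegral_prod_right']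
    refine lintegral_congr fun ψ => ?_
    have hm4 : Measurable fun ζ : G.V → ℝ => ENNReal.ofReal (Real.exp (-(f ⬝ᵥ ζ) - (f ⬝ᵥ (Cless G m).mulVec f) / 2)) *
        nrfk (fun i => nrfU a c (ψ + Γ.mulVec f, ζ + (Cless G m).mulVec f) i + t - z i) :=
      Measurable.mul (ENNReal.measurable_ofReal.comp (Real.measurable_exp.comp
        (((Hol.dot_continuous f).measurable).neg.sub_const _)))
        ((hKm t).comp (measurable_const.prodMk (measurable_id.add_const _)))
    rw [← lintegral_const_mul _ hm4]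
    exact lintegral_congr fun ζ => hpt t ψ ζ
  unfold nrfD
  simp only [key]
  have hm3 : Measurable fun t : ℝ => ∫⁻ p, nrfk (fun i => nrfU a c p i + t - (0 : c.I → ℝ) i) ∂(nrfM G m Γ) := by
    have : Measurable fun q : ℝ × ((G.V → ℝ) × (G.V → ℝ)) => nrfk (fun i => nrfU a c q.2 i + q.1 - (0 : c.I → ℝ) i) :=
      nrf_k_meas.comp (measurable_pi_lambda _ fun i =>
        ((((measurable_pi_apply i).comp (nrf_cm_Umeas a c)).comp measurable_snd).add measurable_fst).sub_const _)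
    exact this.lintegral_prod_right'
  have hm5 : Measurable fun t : ℝ => ∫⁻ p, nrfk (fun i => nrfU a c p i + (t - ub) - (0 : c.I → ℝ) i) ∂(nrfM G m Γ) :=
    hm3.comp (measurable_id.sub_const ub)
  rw [lintegral_const_mul _ hm5]
  congr 1
  exact lintegral_sub_right_eq_self (fun t : ℝ => ∫⁻ p, nrfk (fun i => nrfU a c p i + t - (0 : c.I → ℝ) i) ∂(nrfM G m Γ)) ub


theorem nrf_d0_kmeas {N : Type} [Fintype N] : Measurable (nrfk : (N → ℝ) → ℝ≥0∞) := by
  unfold nrfk
  fun_prop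

/-- `L-REF-6` the normalisation is positive and finite.  Finite: Tonelli, `k (U + t) ≤ e^{-(U_{i0} + t)²/2}`, `∫_ℝ = √(2π)` (`integral_gaussian`, translation), `μ` a probability.  Positive: the integrand is positive everywhere
(`lintegral_pos_iff_support` or `lintegral_eq_zero_iff` + `Measure.measure_univ_pos`). -/
theorem nrf_D0 {Ω : Type} [MeasurableSpace Ω] (μ : Measure Ω) [IsProbabilityMeasure μ] {N : Type} [Fintype N] [Nonempty N] (U : Ω → N → ℝ) (hU : Measurable U) :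
    nrfD μ U 0 ≠ 0 ∧ nrfD μ U 0 ≠ ⊤ := by
  obtain ⟨f, hf⟩ : ∃ f : ℝ → Ω → ℝ≥0∞, f = fun t p => nrfk (fun i => U p i + t - (0 : N → ℝ) i) := ⟨_, rfl⟩
  have hD : nrfD μ U 0 = ∫⁻ t : ℝ, ∫⁻ p, f t p ∂μ := by rw [hf]; rfl
  have hjoint : Measurable (Function.uncurry f) := by
    rw [hf]
    apply nrf_d0_kmeas.comp
    rw [measurable_pi_iff]
    intro i
    have : Measurable (fun q : ℝ × Ω => U q.2 i) := (measurable_pi_apply i).comp (hU.comp measurable_snd)
    exact (this.add measurable_fst).sub_const _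
  have hpos : ∀ t p, f t p ≠ 0 := by
    intro t p
    rw [hf]
    unfold nrfk
    exact (ENNReal.ofReal_pos.2 (Real.exp_pos _)).ne'
  obtain ⟨i0⟩ := ‹Nonempty N›
  have hle : ∀ t p, f t p ≤ ENNReal.ofReal (Real.exp (-(1 / 2) * (U p i0 + t) ^ 2)) := by
    intro t p
    rw [hf]
    unfold nrfk
    apply ENNReal.ofReal_le_ofReal
    apply Real.exp_le_exp.2
    have : (U p i0 + t - (0 : N → ℝ) i0) ^ 2 ≤ ∑ i, (U p i + t - (0 : N → ℝ) i) ^ 2 :=
      Finset.single_le_sum (f := fun i => (U p i + t - (0 : N → ℝ) i) ^ 2) (fun i _ => sq_nonneg _) (Finset.mem_univ i0)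
    simp only [Pi.zero_apply, sub_zero] at this ⊢
    linarith
  clear hf
  rw [hD]
  constructor
  · intro h0
    have hm1 : Measurable (fun t : ℝ => ∫⁻ p, f t p ∂μ) := hjoint.lintegral_prod_right'
    rw [lintegral_eq_zero_iff hm1] at h0
    have hne : ∀ t : ℝ, (∫⁻ p, f t p ∂μ) ≠ 0 := by
      intro t ht
      have hm2 : Measurable (fun p : Ω => f t p) := hjoint.comp (measurable_const.prodMk measurable_id)
      rw [lintegral_eq_zero_iff hm2] at ht
      have : ∀ᵐ p ∂μ, False := by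
        filter_upwards [ht] with p hp
        exact hpos _ _ hp
      rw [Filter.eventually_false_iff_eq_bot, ae_eq_bot] at this
      exact IsProbabilityMeasure.ne_zero μ this
    have : ∀ᵐ t : ℝ, False := by
      filter_upwards [h0] with t ht
      exact hne t ht
    rw [Filter.eventually_false_iff_eq_bot, ae_eq_bot] at this
    have h1 : (volume : Measure ℝ) Set.univ = 0 := by rw [this]; simp
    simp at h1
  · rw [lintegral_lintegral_swap hjoint.aemeasurable]
    have hint : Integrable (fun t : ℝ => Real.exp (-(1 / 2) * t ^ 2)) := integrable_exp_neg_mul_sq (by norm_num)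
    have hb : ∀ p : Ω, ∫⁻ t : ℝ, f t p ≤ ∫⁻ t : ℝ, ENNReal.ofReal (Real.exp (-(1 / 2) * t ^ 2)) := by
      intro p
      rw [← lintegral_add_left_eq_self (fun t : ℝ => ENNReal.ofReal (Real.exp (-(1 / 2) * t ^ 2))) (U p i0)]
      exact lintegral_mono fun t => hle t p
    have : ∫⁻ p, (∫⁻ t : ℝ, f t p) ∂μ ≤ ∫⁻ _p : Ω, (∫⁻ t : ℝ, ENNReal.ofReal (Real.exp (-(1 / 2) * t ^ 2))) ∂μ :=
      lintegral_mono hb
    rw [lintegral_const, measure_univ, mul_one] at this
    exact (lt_of_le_of_lt this hint.lintegral_lt_top).ne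

/-- one level of the passage from `∫⁻` to `∫` -/
theorem nrf_step {Ω : Type} [MeasurableSpace Ω] (μ : Measure Ω) (R : Ω → ℝ) (L : Ω → ℝ≥0∞) (hL : AEMeasurable L μ)
    (h : ∀ x, L x ≠ ⊤ → R x = (L x).toReal) (hfin : ∫⁻ x, L x ∂μ ≠ ⊤) : ∫ x, R x ∂μ = (∫⁻ x, L x ∂μ).toReal := by
  rw [← integral_toReal hL (ae_lt_top' hL hfin)]
  refine integral_congr_ae ?_
  filter_upwards [ae_lt_top' hL hfin] with x hx
  exact h x hx.ne

/-- `L-REF-7` **the iterated Bochner integrals.**  Four applications of `nrf_step` from the inside (`e`, `ζ`, `ψ`, `θ`), measurability of the partial `∫⁻` by `Measurable.lintegral_prod_right'`; `lintegral_prod` to pass from `∫⁻ ψ ∫⁻ ζ` to `∫⁻ p ∂(nrfM ..)`;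
`intervalIntegral.integral_of_le`; pointwise `avg c (fun x => v x + α ((ψ x + θ) + ζ x)) i = avg c v i + nrfU a c (ψ, ζ) i + α θ` (`enb_avg_add`, `unf_avg_add hc`). -/
theorem nrf_outer (a : ℝ) (ha : 0 < a) {c : Grid G} (hc : Whole c) (m : ℕ) (Γ : Matrix G.V G.V ℝ) (g : (c.I → ℝ) → ℝ) (hg : Measurable g) (hg0 : ∀ y, 0 ≤ g y)
    (v : G.V → ℝ)
    (hfin : ∫⁻ θ in Set.Ioc 0 (2 * Real.pi / Real.sqrt a), ∫⁻ p, ∫⁻ e, ENNReal.ofReal (g fun i => avg c v i + nrfU a c p i + Real.sqrt a * θ + e i)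
      ∂(noise c) ∂(nrfM G m Γ) ≠ ⊤) :
    outer a Γ (fun ψ => ∫ ζ, ∫ e, g (fun i => avg c (fun x => v x + Real.sqrt a * (ψ x + ζ x)) i + e i) ∂(noise c) ∂(gauss G (Cless G m)))
      = (∫⁻ θ in Set.Ioc 0 (2 * Real.pi / Real.sqrt a), ∫⁻ p, ∫⁻ e, ENNReal.ofReal (g fun i => avg c v i + nrfU a c p i + Real.sqrt a * θ + e i)
          ∂(noise c) ∂(nrfM G m Γ)).toReal := by
  classical
  have : SFinite (noise c) := by unfold noise; infer_instance
  have hαpos : 0 < Real.sqrt a := Real.sqrt_pos.2 ha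
  -- the pointwise identity
  have hpt : ∀ (θ : ℝ) (ψ ζ : G.V → ℝ) (i : c.I), avg c (fun x => v x + Real.sqrt a * ((ψ x + θ) + ζ x)) i
      = avg c v i + nrfU a c (ψ, ζ) i + Real.sqrt a * θ := by
    intro θ ψ ζ i
    have e : (fun x => v x + Real.sqrt a * ((ψ x + θ) + ζ x))
        = fun x => (v + fun x => Real.sqrt a * (ψ x + ζ x)) x + Real.sqrt a * θ := by
      funext x
      simp only [Pi.add_apply]
      ring
    rw [e, unf_avg_add hc, enb_avg_add]
    rfl
  -- measurability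
  have hUm : ∀ i, Measurable fun p : (G.V → ℝ) × (G.V → ℝ) => nrfU a c p i := by
    intro i
    show Measurable fun p : (G.V → ℝ) × (G.V → ℝ) =>
      (∑ x ∈ c.sites {i}, Real.sqrt a * (p.1 x + p.2 x)) / ((c.sites {i}).card : ℝ)
    fun_prop
  have hJ : Measurable fun q : ((ℝ × (G.V → ℝ)) × (G.V → ℝ)) × (c.I → ℝ) =>
      ENNReal.ofReal (g fun i => avg c v i + nrfU a c (q.1.1.2, q.1.2) i + Real.sqrt a * q.1.1.1 + q.2 i) := by
    refine ENNReal.measurable_ofReal.comp (hg.comp (measurable_pi_lambda _ fun i => ?_))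
    have h1 : Measurable fun q : ((ℝ × (G.V → ℝ)) × (G.V → ℝ)) × (c.I → ℝ) => nrfU a c (q.1.1.2, q.1.2) i :=
      (hUm i).comp (((measurable_snd.comp measurable_fst).comp measurable_fst).prodMk (measurable_snd.comp measurable_fst))
    have h2 : Measurable fun q : ((ℝ × (G.V → ℝ)) × (G.V → ℝ)) × (c.I → ℝ) => q.1.1.1 :=
      (measurable_fst.comp measurable_fst).comp measurable_fst
    have h3 : Measurable fun q : ((ℝ × (G.V → ℝ)) × (G.V → ℝ)) × (c.I → ℝ) => q.2 i := (measurable_pi_apply i).comp measurable_snd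
    exact ((measurable_const.add h1).add (measurable_const.mul h2)).add h3
  set L4 : (ℝ × (G.V → ℝ)) × (G.V → ℝ) → ℝ≥0∞ := fun q =>
    ∫⁻ e, ENNReal.ofReal (g fun i => avg c v i + nrfU a c (q.1.2, q.2) i + Real.sqrt a * q.1.1 + e i) ∂(noise c) with hL4
  have mL4 : Measurable L4 := hJ.lintegral_prod_right'
  set L3 : ℝ × (G.V → ℝ) → ℝ≥0∞ := fun q => ∫⁻ ζ, L4 (q, ζ) ∂(gauss G (Cless G m)) with hL3
  have mL3 : Measurable L3 := mL4.lintegral_prod_right'
  set L2 : ℝ → ℝ≥0∞ := fun θ => ∫⁻ ψ, L3 (θ, ψ) ∂(gauss G Γ) with hL2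
  have mL2 : Measurable L2 := mL3.lintegral_prod_right'
  have eL2 : ∀ θ, ∫⁻ p, ∫⁻ e, ENNReal.ofReal (g fun i => avg c v i + nrfU a c p i + Real.sqrt a * θ + e i) ∂(noise c) ∂(nrfM G m Γ) = L2 θ := by
    intro θ
    have mθ : Measurable fun p : (G.V → ℝ) × (G.V → ℝ) => L4 ((θ, p.1), p.2) :=
      mL4.comp ((measurable_const.prodMk measurable_fst).prodMk measurable_snd)
    exact lintegral_prod (fun p : (G.V → ℝ) × (G.V → ℝ) => L4 ((θ, p.1), p.2)) mθ.aemeasurable
  simp_rw [eL2] at hfin ⊢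
  -- the four levels
  have r4 : ∀ q : (ℝ × (G.V → ℝ)) × (G.V → ℝ), L4 q ≠ ⊤ →
      ∫ e, g (fun i => avg c v i + nrfU a c (q.1.2, q.2) i + Real.sqrt a * q.1.1 + e i) ∂(noise c) = (L4 q).toReal := by
    intro q hq
    have mq : Measurable fun e : c.I → ℝ => ENNReal.ofReal (g fun i => avg c v i + nrfU a c (q.1.2, q.2) i + Real.sqrt a * q.1.1 + e i) := by
      refine ENNReal.measurable_ofReal.comp (hg.comp (measurable_pi_lambda _ fun i => ?_))
      exact measurable_const.add (measurable_pi_apply i)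
    exact nrf_step (noise c) _ _ mq.aemeasurable (fun e _ => (ENNReal.toReal_ofReal (hg0 _)).symm) hq
  have r3 : ∀ q : ℝ × (G.V → ℝ), L3 q ≠ ⊤ →
      ∫ ζ, ∫ e, g (fun i => avg c v i + nrfU a c (q.2, ζ) i + Real.sqrt a * q.1 + e i) ∂(noise c) ∂(gauss G (Cless G m)) = (L3 q).toReal := by
    intro q hq
    have mq : Measurable fun ζ : G.V → ℝ => L4 (q, ζ) := mL4.comp (measurable_const.prodMk measurable_id)
    exact nrf_step (gauss G (Cless G m)) _ (fun ζ => L4 (q, ζ)) mq.aemeasurable (fun ζ h => r4 (q, ζ) h) hq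
  have r2 : ∀ θ : ℝ, L2 θ ≠ ⊤ →
      ∫ ψ, ∫ ζ, ∫ e, g (fun i => avg c v i + nrfU a c (ψ, ζ) i + Real.sqrt a * θ + e i) ∂(noise c) ∂(gauss G (Cless G m)) ∂(gauss G Γ)
        = (L2 θ).toReal := by
    intro θ hq
    have mq : Measurable fun ψ : G.V → ℝ => L3 (θ, ψ) := mL3.comp (measurable_const.prodMk measurable_id)
    exact nrf_step (gauss G Γ) _ (fun ψ => L3 (θ, ψ)) mq.aemeasurable (fun ψ h => r3 (θ, ψ) h) hq
  unfold outer
  rw [intervalIntegral.integral_of_le (by positivity)]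
  simp_rw [hpt]
  exact nrf_step _ _ L2 mL2.aemeasurable r2 hfin

/-- `L-REF-8a` the observation energy is measurable: an infimum of continuous functions bounded below is upper semicontinuous (`upperSemicontinuous_ciInf`, `UpperSemicontinuous.measurable`); `enb_quad_nonneg`. -/
theorem nrf_Eobs_measurable {c : Grid G} (T : Top c) (a : ℝ) (ha : 0 < a) (τ : Face c → ℤ) : Measurable (T.Eobs a τ) := by
  have h : UpperSemicontinuous fun y : c.I → ℝ => ⨅ u : G.V → ℝ, T.quad a (fun f => 2 * Real.pi * τ f) y u := by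
    refine upperSemicontinuous_ciInf (fun y => ⟨0, ?_⟩) fun u => Continuous.upperSemicontinuous ?_
    · rintro _ ⟨u, rfl⟩
      exact enb_quad_nonneg T a ha _ y u
    · unfold Top.quad
      fun_prop
  exact h.measurable

/-- `L-REF-8b` the observation energy does not see the common constant (`Equiv.iInf_comp (Equiv.addRight fun _ => r)`, `unf_avg_add`) -/
theorem nrf_Eobs_const {c : Grid G} (hc : Whole c) (T : Top c) (a : ℝ) (τ : Face c → ℤ) (y : c.I → ℝ) (r : ℝ) :
    T.Eobs a τ (fun i => y i + r) = T.Eobs a τ y := by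
  unfold Top.Eobs Top.En
  rw [← (Equiv.addRight (fun _ : G.V => r)).iInf_comp]
  refine iInf_congr fun u => ?_
  unfold Top.quad
  have e : ((Equiv.addRight fun _ : G.V => r) u) = fun x => u x + r := rfl
  rw [e]
  simp only [unf_avg_add hc]
  have e1 : ∀ e : T.graph.E, u (stp e.1.1 e.1.2) + r - (u e.1.1 + r) = u (stp e.1.1 e.1.2) - u e.1.1 := fun e => by ring
  have e2 : ∀ i : c.I, avg c u i + r - (y i + r) = avg c u i - y i := fun i => by ring
  simp only [e1, e2]

/-- `L-REF-8c` -/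
theorem nrf_U_measurable (a : ℝ) (c : Grid G) : Measurable (nrfU a c) := by
  have h : Continuous (nrfU a c) := by
    unfold nrfU avg cellAvg
    fun_prop
  exact h.measurable

/-- `L-REF-9` the cutoff mass of a sector is finite: `0 ≤ χ ≤ 1` (`chiL_pos`, `chiL_le_one`), `Zobs_pos`, `fl_core` with `r = 0`, `q = 0`. -/
theorem nrf_fund_fin (b : ℝ) (hb : 0 < b) {c : Grid G} (hc : Whole c) (i0 : c.I) (τ : Face c → ℤ) :
    (∀ y, 0 ≤ (Top.full c).Zhat b τ y) ∧ ∫⁻ y in fund c i0, ENNReal.ofReal ((Top.full c).Zhat b τ y) ≠ ⊤ := by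
  have hs : (0 : ℝ) < c.m := by exact_mod_cast hc.pos
  have hp : ∀ y, 0 ≤ ∏ f ∈ (Top.full c).faces, chi c.m (wf c τ y f) := fun y =>
    Finset.prod_nonneg fun f _ => (chiL_pos _ _ hs).le
  have hp1 : ∀ y, ∏ f ∈ (Top.full c).faces, chi c.m (wf c τ y f) ≤ 1 := fun y =>
    Finset.prod_le_one (fun f _ => (chiL_pos _ _ hs).le) fun f _ => chiL_le_one _ _ hs
  refine ⟨fun y => mul_nonneg (Zobs_pos hc _ b hb τ y).le (hp y), ?_⟩
  have h := fl_core hc i0 b hb τ 0 0 (fun u => by simp)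
  refine ne_top_of_le_ne_top ENNReal.ofReal_ne_top (le_trans (lintegral_mono fun y => ENNReal.ofReal_le_ofReal ?_) h)
  unfold Top.Zhat
  simp only [Pi.zero_apply, zero_mul, Finset.sum_const_zero, Real.exp_zero, one_mul]
  exact mul_le_of_le_one_right (Zobs_pos hc _ b hb τ y).le (hp1 y)

end

end Claimed.Agent.R285.F4a
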