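import Claimed.Agent.R285.F4a.Loss
import Claimed.Agent.R285.F4a.UnitB

/-!
# ROW 285, [F] s4.1: the bridge `centerMag` = sector ratio of the aligned full graph   (helper47)
`rsq_Zs_iso`: the bare partition sum with ONE pin is invariant under graph isomorphisms and does not depend on the pin (translation `h ↦ h - h(p)`).
`rsq_centerMag_eq` = `F4a.centerMag_eq` (linked in `F4a/Ref.lean`).  No hole.
-/

set_option autoImplicit false

namespace Claimed.Agent.R285.F4a

open scoped BigOperators ENNReal NNReal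
open MeasureTheory ProbabilityTheory
open Claimed.Agent.R285 Claimed.Agent.R285.RG

noncomputable section

theorem rsq_Zs_one (Γ : HGraph) (b : ℝ) (P : Set Γ.V) (τ : Γ.E → ℤ) :
    Γ.Zs b P τ 0 (fun _ => 1) = ∑' h : Γ.Conf P, Γ.wt b τ h.1 := by
  unfold HGraph.Zs
  simp

/-- transport of one-pin configurations along an isomorphism of the vertex sets, followed by the translation which restores the pin -/
def rsqConf {Γ Γ' : HGraph} (eV : Γ.V ≃ Γ'.V) (p : Γ.V) (p' : Γ'.V) : Γ.Conf {p} ≃ Γ'.Conf {p'} where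
  toFun h := ⟨fun v => h.1 (eV.symm v) - h.1 (eV.symm p'), fun v hv => by
    rw [Set.mem_singleton_iff] at hv
    subst hv
    exact sub_self _⟩
  invFun k := ⟨fun u => k.1 (eV u) - k.1 (eV p), fun u hu => by
    rw [Set.mem_singleton_iff] at hu
    subst hu
    exact sub_self _⟩
  left_inv h := by
    apply Subtype.ext
    funext u
    have h0 : h.1 p = 0 := h.2 p rfl
    simp [h0]
  right_inv k := by
    apply Subtype.ext
    funext v
    have h0 : k.1 p' = 0 := k.2 p' rfl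
    simp [h0]

theorem rsq_Zs_iso {Γ Γ' : HGraph} (eV : Γ.V ≃ Γ'.V) (eE : Γ.E ≃ Γ'.E)
    (hs : ∀ e, Γ'.src (eE e) = eV (Γ.src e)) (ht : ∀ e, Γ'.tgt (eE e) = eV (Γ.tgt e))
    (b : ℝ) (p : Γ.V) (p' : Γ'.V) (τ : Γ.E → ℤ) (τ' : Γ'.E → ℤ) (hτ : ∀ e, τ' (eE e) = τ e) :
    Γ.Zs b {p} τ 0 (fun _ => 1) = Γ'.Zs b {p'} τ' 0 (fun _ => 1) := by
  rw [rsq_Zs_one, rsq_Zs_one, ← (rsqConf eV p p').tsum_eq]
  refine tsum_congr fun h => ?_
  unfold HGraph.wt
  rw [← eE.prod_comp]
  refine Finset.prod_congr rfl fun e _ => ?_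
  rw [hs, ht, hτ]
  congr 1
  show h.1 (Γ.tgt e) - h.1 (Γ.src e) + τ e
    = (h.1 (eV.symm (eV (Γ.tgt e))) - h.1 (eV.symm p')) - (h.1 (eV.symm (eV (Γ.src e))) - h.1 (eV.symm p')) + τ e
  rw [Equiv.symm_apply_apply, Equiv.symm_apply_apply]
  ring

variable {G : Geom}

theorem rsq_edge_iff (hG : G.bc = BC.free) {c : Grid G} (hc : Whole c) (e : G.V × Bool) :
    (if e.2 then (e.1.1 : ℕ) + 1 < G.M else (e.1.2 : ℕ) + 1 < G.M) ↔ (Top.full c).IsEdge e := by
  obtain ⟨v, d⟩ := e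
  obtain ⟨-, h2, -, h4⟩ := stp_free hG v
  cases d
  · simp only [Bool.false_eq_true, if_false]
    refine ⟨fun h => fl_edge_false hc v h, fun h => ?_⟩
    rcases Nat.lt_or_ge ((v.2 : ℕ) + 1) G.M with hh | hh
    · exact hh
    · exact absurd (h4 (by have := v.2.2; omega)) h.1
  · simp only [if_true]
    refine ⟨fun h => fl_edge_true hc v h, fun h => ?_⟩
    rcases Nat.lt_or_ge ((v.1 : ℕ) + 1) G.M with hh | hh
    · exact hh
    · exact absurd (h2 (by have := v.1.2; omega)) h.1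

/-- the two partition sums agree, sector by sector -/
theorem rsq_Zs_square (b : ℝ) (n : ℕ) (hn : 0 < n) (c : Grid (⟨BC.free, 2 * n, by omega⟩ : Geom)) (hc : Whole c)
    (v0 : (Top.full c).graph.V) (p : (square (2 * n)).V) (τ : (Fin (2 * n) × Fin (2 * n)) × Bool → ℤ) :
    (square (2 * n)).Zs b {p} (fun e => τ e.1) 0 (fun _ => 1)
      = (Top.full c).graph.Zs b {v0} (fun e => τ e.1) 0 (fun _ => 1) := by
  have hmem : ∀ v : Fin (2 * n) × Fin (2 * n), c.blk v ∈ (Top.full c).cells := fun v => by simp [Top.full]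
  let eV : (square (2 * n)).V ≃ (Top.full c).graph.V :=
    { toFun := fun v => ⟨v, hmem v⟩
      invFun := fun v => v.1
      left_inv := fun _ => rfl
      right_inv := fun _ => rfl }
  let eE : (square (2 * n)).E ≃ (Top.full c).graph.E :=
    Equiv.subtypeEquivRight fun e => rsq_edge_iff (G := ⟨BC.free, 2 * n, by omega⟩) rfl hc e
  refine rsq_Zs_iso eV eE (fun e => rfl) (fun e => ?_) b p v0 _ _ (fun e => rfl)
  obtain ⟨⟨v, d⟩, he⟩ := e
  apply Subtype.ext
  show stp (G := ⟨BC.free, 2 * n, by omega⟩) v d = (square (2 * n)).tgt ⟨(v, d), he⟩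
  obtain ⟨h1, -, h3, -⟩ := stp_free (G := ⟨BC.free, 2 * n, by omega⟩) rfl v
  cases d
  · have hlt : (v.2 : ℕ) + 1 < 2 * n := by simpa using he
    obtain ⟨e1, e2⟩ := h3 hlt
    refine Prod.ext ?_ (Fin.ext ?_)
    · simpa [square] using e2
    · simpa [square] using e1
  · have hlt : (v.1 : ℕ) + 1 < 2 * n := by simpa using he
    obtain ⟨e1, e2⟩ := h1 hlt
    refine Prod.ext (Fin.ext ?_) ?_
    · simpa [square] using e1
    · simpa [square] using e2

/-- bridge to `Top.centerMag`: the free square of side `2 n`, aligned cells -/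
theorem rsq_centerMag_eq (b : ℝ) (n : ℕ) (hn : 0 < n) (hG : G.bc = BC.free) (hM : G.M = 2 * n) {c : Grid G} (hc : Whole c)
    (hal : c.m ∣ n) (v0 : (Top.full c).graph.V) :
    centerMag b n = (Top.full c).graph.ratio b {v0} ((Top.full c).econn (tauU c)) := by
  have hτ : (Top.full c).econn (tauU c) = fun e => tauE n e.1 := funext fun e => econn_tauU n hG hM hc hal e
  rw [hτ]
  obtain ⟨bc, M, hM0⟩ := G
  simp only at hG hM
  subst hG
  subst hM
  have h1 := rsq_Zs_square b n hn c hc v0 (⟨0, by omega⟩, ⟨0, by omega⟩) (tauE (G := ⟨BC.free, 2 * n, hM0⟩) n)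
  have h0 := rsq_Zs_square b n hn c hc v0 (⟨0, by omega⟩, ⟨0, by omega⟩) (fun _ => 0)
  unfold centerMag HGraph.ratio
  rw [dif_neg hn.ne']
  have e0 : (0 : (Top.full c).graph.E → ℤ) = fun e => (fun _ : (Fin (2 * n) × Fin (2 * n)) × Bool => (0 : ℤ)) e.1 := rfl
  have e0' : (0 : (square (2 * n)).E → ℤ) = fun e => (fun _ : (Fin (2 * n) × Fin (2 * n)) × Bool => (0 : ℤ)) e.1 := rfl
  rw [e0, ← h0, ← h1, e0']
  rfl

end

end Claimed.Agent.R285.F4a
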