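import Claimed.Agent.R285.F4a.Unfold
import Claimed.Agent.R285.F4a.EnB
import Claimed.Agent.R285.F4a.RefA
import Claimed.Agent.R285.F4a.RefSq

/-!
# ROW 285, [F] s4.1: the reference representation (eq:noisy-reference)   (owner helper251; architect of the proofs helper226)
Contracts (statements fixed; verdicts and consumers in `R285/Read/F4a.lean`).  `noisy_reference` is PROVED here from the leaves `L-REF-*` of `F4a/RefA.lean`.
`noisy_reference_test` was superseded by `Rdo.rdo_ref` (helper16) and is deleted.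
-/

set_option autoImplicit false

namespace Claimed.Agent.R285.F4a

open scoped BigOperators ENNReal NNReal
open MeasureTheory ProbabilityTheory Polynomial
open Claimed.Agent.R285 Claimed.Agent.R285.RG

noncomputable section

variable {G : Geom}

/-- `L-REF-10a` a graph isomorphism carries the partition sums (`Equiv` of `Conf` by `h ↦ h ∘ eV.symm`, `Equiv.tsum_eq`, `Fintype.prod_equiv eE`) -/
theorem nrf_Zs_iso (H H' : HGraph) (eV : H.V ≃ H'.V) (eE : H.E ≃ H'.E) (hs : ∀ e, H'.src (eE e) = eV (H.src e))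
    (ht : ∀ e, H'.tgt (eE e) = eV (H.tgt e)) (b : ℝ) (v0 : H.V) (τ : H.E → ℤ) (τ' : H'.E → ℤ) (hτ : ∀ e, τ' (eE e) = τ e) :
    H.Zs b {v0} τ 0 (fun _ => 1) = H'.Zs b {eV v0} τ' 0 (fun _ => 1) :=
  rsq_Zs_iso eV eE hs ht b v0 (eV v0) τ τ' hτ

/-- `L-REF-10b` the pinned vertex is irrelevant (`Equiv` of `Conf` by `h ↦ h - h v1`, inverse `h ↦ h - h v0`; `unf_wt_add`) -/
theorem nrf_Zs_pin (H : HGraph) (b : ℝ) (v0 v1 : H.V) (τ : H.E → ℤ) :
    H.Zs b {v0} τ 0 (fun _ => 1) = H.Zs b {v1} τ 0 (fun _ => 1) :=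
  rsq_Zs_iso (Equiv.refl _) (Equiv.refl _) (fun _ => rfl) (fun _ => rfl) b v0 v1 τ τ (fun _ => rfl)

/-- `L-REF-10c` bridge to `Top.centerMag`: the free square of side `2 n`, aligned cells.
`obtain ⟨bc, M, hM'⟩ := G; simp only at hG hM; subst hG hM`: then `G.V = Fin (2 n) × Fin (2 n)` by `rfl`.  `eV x = ⟨x, by simp [Top.full]⟩`; `eE = Equiv.subtypeEquivRight`: `(Top.full c).IsEdge e ↔ (if e.2 then e.1.1 + 1 < 2 n else e.1.2 + 1 < 2 n)`
(`fl_edge_true`, `fl_edge_false`; conversely `IsEdge.1 : stp ≠ self` and `stp_free`); targets by `stp_free`; the connections agree by `econn_tauU` (`tauE` is the connection of `centerMag` verbatim).  Then `nrf_Zs_iso` for `τ` and for `0`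
(`fl_econn_zero` is not needed: `ratio` has `0` in the denominator), `nrf_Zs_pin` to move the pin to `v0`; `centerMag`: `dif_neg hn.ne'`. -/
theorem centerMag_eq (b : ℝ) (n : ℕ) (hn : 0 < n) (hG : G.bc = BC.free) (hM : G.M = 2 * n) {c : Grid G} (hc : Whole c)
    (hal : c.m ∣ n) (v0 : (Top.full c).graph.V) :
    centerMag b n = (Top.full c).graph.ratio b {v0} ((Top.full c).econn (tauU c)) :=
  rsq_centerMag_eq b n hn hG hM hc hal v0

/-- the common normalisation of all sectors -/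
def nrfKap (a : ℝ) (c : Grid G) (m : ℕ) (Γ : Matrix G.V G.V ℝ) : ℝ :=
  (ENNReal.ofReal (((2 * Real.pi) ^ ((Fintype.card c.I : ℝ) / 2))⁻¹ * (Real.sqrt a)⁻¹) * nrfD (nrfM G m Γ) (nrfU a c) 0).toReal

theorem nrfKap_pos (a : ℝ) (ha : 0 < a) (c : Grid G) (i0 : c.I) (m : ℕ) (Γ : Matrix G.V G.V ℝ) : 0 < nrfKap a c m Γ := by
  have : Nonempty c.I := ⟨i0⟩
  obtain ⟨h0, h1⟩ := nrf_D0 (nrfM G m Γ) (nrfU a c) (nrf_U_measurable a c)
  have hK : 0 < ((2 * Real.pi) ^ ((Fintype.card c.I : ℝ) / 2))⁻¹ * (Real.sqrt a)⁻¹ := by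
    have := Real.sqrt_pos.2 ha
    positivity
  unfold nrfKap
  refine ENNReal.toReal_pos (mul_ne_zero ?_ h0) (ENNReal.mul_ne_top ENNReal.ofReal_ne_top h1)
  exact (ENNReal.ofReal_pos.2 hK).ne'

/-- **one sector**: the outer integral of `𝓗^τ` is the cutoff mass of the sector, up to the common normalisation and the energy of the background -/
theorem nrf_sector (b a : ℝ) (hb : 0 < b) (ha : 0 < a) {c : Grid G} (hc : Whole c) (i0 : c.I) (m : ℕ) (hm : 1 ≤ m)
    (Γ : Matrix G.V G.V ℝ) (hΓ : IsGe G m Γ) (τ : Face c → ℤ) (v : G.V → ℝ)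
    (hv : (Top.full c).CoClosed ((Top.full c).eta τ v)) :
    outer a Γ (Hav b a c m τ v) = nrfKap a c m Γ *
      (Real.exp ((∑ e, (Top.full c).eta τ v e ^ 2) / (2 * a)) / (Top.full c).Zobs b 0 0 * Phat b c i0 τ (fun _ => 1)) := by
  set S : ℝ := ∑ e, (Top.full c).eta τ v e ^ 2 with hS
  set Z0 : ℝ := (Top.full c).Zobs b 0 0 with hZ0
  have hZ0pos : 0 < Z0 := Zobs_pos hc _ b hb 0 0
  obtain ⟨hZh0, hZfin⟩ := nrf_fund_fin b hb hc i0 τ
  have hα : 0 < Real.sqrt a := Real.sqrt_pos.2 ha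
  set g : (c.I → ℝ) → ℝ := fun y => Real.exp ((Top.full c).Eobs a τ y / 2) * (Top.full c).Zhat b τ y / Z0 with hg
  have hgm : Measurable g :=
    ((Real.measurable_exp.comp ((nrf_Eobs_measurable _ a ha τ).div_const 2)).mul (Zhat_measurable _ b hb τ)).div_const _
  have hg0 : ∀ y, 0 ≤ g y := fun y => div_nonneg (mul_nonneg (Real.exp_pos _).le (hZh0 y)) hZ0pos.le
  have hgper : ∀ y, g (fun i => y i + 2 * Real.pi) = g y := fun y => by
    simp only [hg]
    rw [nrf_Eobs_const hc, Zhat_per b hc _ τ y]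
  have hpt : ∀ y, ENNReal.ofReal (g y) * nrfD (nrfM G m Γ) (nrfU a c) (fun i => y i - avg c v i)
      = ENNReal.ofReal (Real.exp (S / (2 * a)) / Z0) * nrfD (nrfM G m Γ) (nrfU a c) 0 * ENNReal.ofReal ((Top.full c).Zhat b τ y) := by
    intro y
    rw [nrf_cm a ha hc m hm Γ hΓ, ← mul_assoc, ← ENNReal.ofReal_mul (hg0 y), mul_right_comm,
      ← ENNReal.ofReal_mul (div_nonneg (Real.exp_pos _).le hZ0pos.le)]
    congr 2
    simp only [hg]
    rw [sector_completion _ a ha τ v hv y, ← hS]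
    have e1 : Real.exp ((a⁻¹ * S + (Top.full c).Eobs a 0 (fun i => y i - avg c v i)) / 2)
        = Real.exp (S / (2 * a)) * Real.exp ((Top.full c).Eobs a 0 (fun i => y i - avg c v i) / 2) := by
      rw [← Real.exp_add]
      congr 1
      field_simp
    have e2 : Real.exp ((Top.full c).Eobs a 0 (fun i => y i - avg c v i) / 2)
        * Real.exp (-(Top.full c).Eobs a 0 (fun i => y i - avg c v i) / 2) = 1 := by
      rw [← Real.exp_add]
      simp [neg_div]
    rw [e1]
    calc Real.exp (S / (2 * a)) * Real.exp ((Top.full c).Eobs a 0 (fun i => y i - avg c v i) / 2) * (Top.full c).Zhat b τ y / Z0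
          * Real.exp (-(Top.full c).Eobs a 0 (fun i => y i - avg c v i) / 2)
        = Real.exp (S / (2 * a)) / Z0 * (Top.full c).Zhat b τ y * (Real.exp ((Top.full c).Eobs a 0 (fun i => y i - avg c v i) / 2)
          * Real.exp (-(Top.full c).Eobs a 0 (fun i => y i - avg c v i) / 2)) := by ring
      _ = _ := by rw [e2, mul_one]
  have hL := nrf_unfold (nrfM G m Γ) c i0 (nrfU a c) (nrf_U_measurable a c) (Real.sqrt a) hα (fun y => ENNReal.ofReal (g y))
    (ENNReal.measurable_ofReal.comp hgm) (fun y => by rw [hgper]) (avg c v)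
  simp only [hpt] at hL
  have hZm : Measurable fun y => ENNReal.ofReal ((Top.full c).Zhat b τ y) :=
    ENNReal.measurable_ofReal.comp (Zhat_measurable _ b hb τ)
  rw [lintegral_const_mul _ hZm] at hL
  have : Nonempty c.I := ⟨i0⟩
  obtain ⟨-, hD1⟩ := nrf_D0 (nrfM G m Γ) (nrfU a c) (nrf_U_measurable a c)
  have hfin : ∫⁻ θ in Set.Ioc 0 (2 * Real.pi / Real.sqrt a), ∫⁻ p, ∫⁻ e,
      ENNReal.ofReal (g fun i => avg c v i + nrfU a c p i + Real.sqrt a * θ + e i) ∂(noise c) ∂(nrfM G m Γ) ≠ ⊤ := by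
    rw [hL]
    exact ENNReal.mul_ne_top ENNReal.ofReal_ne_top
      (ENNReal.mul_ne_top (ENNReal.mul_ne_top ENNReal.ofReal_ne_top hD1) hZfin)
  have hout := nrf_outer a ha hc m Γ g hgm hg0 v hfin
  have hHav : Hav b a c m τ v = fun ψ => ∫ ζ, ∫ e, g (fun i => avg c (fun x => v x + Real.sqrt a * (ψ x + ζ x)) i + e i)
      ∂(noise c) ∂(gauss G (Cless G m)) := rfl
  rw [hHav, hout, hL]
  have hP : Phat b c i0 τ (fun _ => 1) = (∫⁻ y in fund c i0, ENNReal.ofReal ((Top.full c).Zhat b τ y)).toReal := by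
    unfold Phat
    simp only [one_mul]
    exact integral_eq_lintegral_of_nonneg_ae (Filter.Eventually.of_forall hZh0)
      (Zhat_measurable _ b hb τ).aestronglyMeasurable
  rw [hP]
  unfold nrfKap
  simp only [ENNReal.toReal_mul]
  rw [ENNReal.toReal_ofReal (div_nonneg (Real.exp_pos _).le hZ0pos.le)]
  ring

theorem nrf_coclosed_zero (c : Grid G) : (Top.full c).CoClosed ((Top.full c).eta 0 0) := by
  intro f
  refine Finset.sum_eq_zero fun e _ => ?_
  have : (Top.full c).eta 0 0 e = 0 := by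
    unfold Top.eta
    rw [fl_econn_zero]
    simp
  rw [this, zero_mul]

/-- **the cutoff version of (eq:noisy-reference) after entry averaging**: the ratio of the two outer integrals of `𝓗` represents the cutoff
physical sector ratio.  Full connected graph, `η = ∇ v + 2π τ` co-closed, any entry side `m`. -/
theorem noisy_reference (b a : ℝ) (hb : 0 < b) (ha : 0 < a) {c : Grid G} (hc : Whole c) (i0 : c.I) (m : ℕ) (hm : 1 ≤ m)
    (Γ : Matrix G.V G.V ℝ) (hΓ : IsGe G m Γ) (τ : Face c → ℤ) (v : G.V → ℝ)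
    (hv : (Top.full c).CoClosed ((Top.full c).eta τ v)) :
    Phat b c i0 τ (fun _ => 1) / Phat b c i0 0 (fun _ => 1)
      = Real.exp (-(∑ e, (Top.full c).eta τ v e ^ 2) / (2 * a))
        * (outer a Γ (Hav b a c m τ v) / outer a Γ (Hav b a c m 0 0)) := by
  rw [nrf_sector b a hb ha hc i0 m hm Γ hΓ τ v hv, nrf_sector b a hb ha hc i0 m hm Γ hΓ 0 0 (nrf_coclosed_zero c)]
  have hκ := nrfKap_pos a ha c i0 m Γ
  have hZ0pos : 0 < (Top.full c).Zobs b 0 0 := Zobs_pos hc _ b hb 0 0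
  have h0 : ∑ e, (Top.full c).eta 0 0 e ^ 2 = 0 := by
    refine Finset.sum_eq_zero fun e _ => ?_
    unfold Top.eta
    rw [fl_econn_zero]
    simp
  rw [h0, zero_div, Real.exp_zero, mul_div_mul_left _ _ hκ.ne']
  set S : ℝ := ∑ e, (Top.full c).eta τ v e ^ 2
  have e2 : Real.exp (-S / (2 * a)) * Real.exp (S / (2 * a)) = 1 := by
    rw [← Real.exp_add]
    simp [neg_div]
  calc Phat b c i0 τ (fun _ => 1) / Phat b c i0 0 (fun _ => 1)
      = (Real.exp (-S / (2 * a)) * Real.exp (S / (2 * a))) * ((Top.full c).Zobs b 0 0 / (Top.full c).Zobs b 0 0)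
          * (Phat b c i0 τ (fun _ => 1) / Phat b c i0 0 (fun _ => 1)) := by
        rw [e2, div_self hZ0pos.ne']; ring
    _ = _ := by
        rw [div_mul_eq_mul_div, div_mul_eq_mul_div, one_mul, div_div_div_cancel_right₀ hZ0pos.ne']
        rw [div_self hZ0pos.ne']
        ring

end

end Claimed.Agent.R285.F4a
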