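import Claimed.Agent.R285.F4a.UnitB
import Claimed.Agent.R285.Hol.Tn

/-!
# ROW 285, [F] Lemma 4.2, package file 1/2: the ABSTRACT layer   (architect helper226)

Paper-free.  Everything is about functions on `ℤ × ℤ`; no Green function here.
* s1 `f42_dl_*`: calculus of iterated differences along lists (`Hol.dl`).
* s2 `isum`: the discrete antiderivative on `ℤ`.
* s3 `rot d F`: `2π ×` the rotated gradient of a primal potential `F`; dual vertex `x` = face with lower left primal corner `x`.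
* s4 `pot a b`: the branch of a bond field `(a, b)` with one unit of circulation at the plaquette `(-1,-1)` and the cut `tauP`.
* s5 `f42_coclosed`: summation by parts on the free square.
* s6 `f42_elift_rot`: the reflected stencil of the rotated gradient of an odd lift is the rotated gradient.
-/

set_option autoImplicit false

namespace Claimed.Agent.R285.F4a

open scoped BigOperators
open Filter Topology
open Claimed.Agent.R285 Claimed.Agent.R285.RG Claimed.Agent.R285.Hol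

noncomputable section

variable {G : Geom}

/-! ## 1. iterated differences along lists -/

theorem f42_dl_shift (l : List (Fin 4)) (f : ℤ × ℤ → ℝ) (p x : ℤ × ℤ) :
    dl l (fun y => f (y + p)) x = dl l f (x + p) := by
  induction l generalizing x with
  | nil => rfl
  | cons i l ih =>
    simp only [dl_cons, dif, ih]
    rw [add_right_comm]

theorem f42_dl_mul (l : List (Fin 4)) (c : ℝ) (f : ℤ × ℤ → ℝ) (x : ℤ × ℤ) :
    dl l (fun y => c * f y) x = c * dl l f x :=
  dl_map (AddMonoidHom.mulLeft c) l f x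

theorem f42_dl_sub (l : List (Fin 4)) (f f' : ℤ × ℤ → ℝ) (x : ℤ × ℤ) :
    dl l (fun y => f y - f' y) x = dl l f x - dl l f' x := by
  induction l generalizing x with
  | nil => rfl
  | cons i l ih => simp only [dl_cons, dif, ih]; ring

theorem f42_dl_append (l l' : List (Fin 4)) (f : ℤ × ℤ → ℝ) : dl (l ++ l') f = dl l (dl l' f) := by
  simp [dl, List.foldr_append]

theorem f42_dl_tendsto (l : List (Fin 4)) (F : ℕ → ℤ × ℤ → ℝ) (f : ℤ × ℤ → ℝ)
    (h : ∀ x, Tendsto (fun k => F k x) atTop (𝓝 (f x))) (x : ℤ × ℤ) :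
    Tendsto (fun k => dl l (F k) x) atTop (𝓝 (dl l f x)) := by
  induction l generalizing x with
  | nil => exact h x
  | cons i l ih =>
    simp only [dl_cons, dif]
    exact (ih _).sub (ih _)

/-- a list is a word -/
theorem f42_dl_eq_difs (l : List (Fin 4)) (f : ℤ × ℤ → ℝ) : dl l f = difs (fun i : Fin l.length => l.get i) f := by
  rw [difs_eq_dl, List.ofFn_get]

/-- moving the base point costs one more difference -/
theorem f42_dl_step (l : List (Fin 4)) (i : Fin 4) (f : ℤ × ℤ → ℝ) (x : ℤ × ℤ) :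
    dl l f (x + dir i) = dl l f x + dl (i :: l) f x := by
  simp [dl_cons, dif]

/-! ## 2. the discrete antiderivative -/

/-- `isum f 0 = 0`, `isum f (k + 1) = isum f k + f k` for all `k : ℤ` -/
def isum (f : ℤ → ℝ) (k : ℤ) : ℝ :=
  if 0 ≤ k then ∑ i ∈ Finset.range k.toNat, f i else -∑ i ∈ Finset.range (-k).toNat, f (-1 - i)

theorem isum_nat (f : ℤ → ℝ) (m : ℕ) : isum f m = ∑ i ∈ Finset.range m, f i := by
  simp [isum]

theorem isum_neg_nat (f : ℤ → ℝ) (m : ℕ) : isum f (-(m : ℤ)) = -∑ i ∈ Finset.range m, f (-1 - i) := by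
  rcases Nat.eq_zero_or_pos m with rfl | hm
  · simp [isum]
  · have : ¬ (0 : ℤ) ≤ -(m : ℤ) := by omega
    rw [isum, if_neg this]
    simp

theorem isum_zero (f : ℤ → ℝ) : isum f 0 = 0 := by simp [isum]

theorem isum_succ (f : ℤ → ℝ) (k : ℤ) : isum f (k + 1) = isum f k + f k := by
  rcases le_or_gt 0 k with hk | hk
  · obtain ⟨m, rfl⟩ := Int.eq_ofNat_of_zero_le hk
    have : ((m : ℤ) + 1) = ((m + 1 : ℕ) : ℤ) := by push_cast; ring
    rw [this, isum_nat, isum_nat, Finset.sum_range_succ]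
  · obtain ⟨m, rfl⟩ : ∃ m : ℕ, k = -((m + 1 : ℕ) : ℤ) := ⟨(-k - 1).toNat, by omega⟩
    have : (-((m + 1 : ℕ) : ℤ) + 1) = -(m : ℤ) := by push_cast; ring
    rw [this, isum_neg_nat, isum_neg_nat, Finset.sum_range_succ]
    have h2 : (-1 - (m : ℤ)) = -((m + 1 : ℕ) : ℤ) := by push_cast; ring
    rw [h2]; ring

/-- telescoping -/
theorem isum_tel (A : ℤ → ℝ) (k : ℤ) : isum (fun j => A (j + 1) - A j) k = A k - A 0 := by
  induction k using Int.induction_on with
  | zero => simp [isum_zero]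
  | succ i ih => rw [isum_succ, ih]; ring
  | pred i ih =>
    have := isum_succ (fun j => A (j + 1) - A j) (-(i : ℤ) - 1)
    rw [sub_add_cancel, ih] at this
    linarith

theorem isum_add (f g : ℤ → ℝ) (k : ℤ) : isum (fun j => f j + g j) k = isum f k + isum g k := by
  induction k using Int.induction_on with
  | zero => simp [isum_zero]
  | succ i ih => rw [isum_succ, isum_succ, isum_succ, ih]; ring
  | pred i ih =>
    have h1 := isum_succ (fun j => f j + g j) (-(i : ℤ) - 1)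
    have h2 := isum_succ f (-(i : ℤ) - 1)
    have h3 := isum_succ g (-(i : ℤ) - 1)
    rw [sub_add_cancel] at h1 h2 h3
    linarith

theorem isum_sub (f g : ℤ → ℝ) (k : ℤ) : isum (fun j => f j - g j) k = isum f k - isum g k := by
  induction k using Int.induction_on with
  | zero => simp [isum_zero]
  | succ i ih => rw [isum_succ, isum_succ, isum_succ, ih]; ring
  | pred i ih =>
    have h1 := isum_succ (fun j => f j - g j) (-(i : ℤ) - 1)
    have h2 := isum_succ f (-(i : ℤ) - 1)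
    have h3 := isum_succ g (-(i : ℤ) - 1)
    rw [sub_add_cancel] at h1 h2 h3
    linarith

/-- `j` lies between `0` and `k` (half-open, the indices summed by `isum f k`) -/
def Btw (k j : ℤ) : Prop := (0 ≤ j ∧ j < k) ∨ (k ≤ j ∧ j < 0)

theorem isum_congr (f g : ℤ → ℝ) (k : ℤ) (h : ∀ j, Btw k j → f j = g j) : isum f k = isum g k := by
  rcases le_or_gt 0 k with hk | hk
  · obtain ⟨m, rfl⟩ := Int.eq_ofNat_of_zero_le hk
    rw [isum_nat, isum_nat]
    refine Finset.sum_congr rfl fun i hi => h _ (Or.inl ⟨by positivity, ?_⟩)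
    exact_mod_cast Finset.mem_range.1 hi
  · obtain ⟨m, rfl⟩ : ∃ m : ℕ, k = -(m : ℤ) := ⟨(-k).toNat, by omega⟩
    rw [isum_neg_nat, isum_neg_nat]
    congr 1
    refine Finset.sum_congr rfl fun i hi => h _ (Or.inr ⟨?_, ?_⟩)
    · have := Finset.mem_range.1 hi; omega
    · omega

/-- majorant -/
theorem isum_abs_le (f : ℤ → ℝ) (k : ℤ) (ε : ℝ) (h : ∀ j, Btw k j → |f j| ≤ ε) : |isum f k| ≤ |(k : ℝ)| * ε := by
  rcases le_or_gt 0 k with hk | hk
  · obtain ⟨m, rfl⟩ := Int.eq_ofNat_of_zero_le hk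
    rw [isum_nat]
    calc |∑ i ∈ Finset.range m, f i| ≤ ∑ i ∈ Finset.range m, |f i| := Finset.abs_sum_le_sum_abs _ _
      _ ≤ ∑ _i ∈ Finset.range m, ε := Finset.sum_le_sum fun i hi => h _ (Or.inl ⟨by positivity, by
          exact_mod_cast Finset.mem_range.1 hi⟩)
      _ = |((m : ℤ) : ℝ)| * ε := by simp
  · obtain ⟨m, rfl⟩ : ∃ m : ℕ, k = -(m : ℤ) := ⟨(-k).toNat, by omega⟩
    rw [isum_neg_nat, abs_neg]
    calc |∑ i ∈ Finset.range m, f (-1 - i)| ≤ ∑ i ∈ Finset.range m, |f (-1 - i)| := Finset.abs_sum_le_sum_abs _ _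
      _ ≤ ∑ _i ∈ Finset.range m, ε := Finset.sum_le_sum fun i hi => h _ (Or.inr ⟨by
          have := Finset.mem_range.1 hi; omega, by omega⟩)
      _ = |((-(m : ℤ) : ℤ) : ℝ)| * ε := by simp

theorem f42_sum_inv_sq (m : ℕ) : ∑ i ∈ Finset.range m, ((1 + (i : ℝ)) ^ 2)⁻¹ ≤ 2 := by
  have h : ∀ m : ℕ, ∑ i ∈ Finset.range m, ((1 + (i : ℝ)) ^ 2)⁻¹ ≤ 2 * (m : ℝ) / ((m : ℝ) + 1) := by
    intro m
    induction m with
    | zero => simp
    | succ m ih =>
      rw [Finset.sum_range_succ]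
      have h1 : (0 : ℝ) ≤ m := Nat.cast_nonneg m
      have : 2 * (m : ℝ) / (m + 1) + ((1 + (m : ℝ)) ^ 2)⁻¹ ≤ 2 * ((m + 1 : ℕ) : ℝ) / (((m + 1 : ℕ) : ℝ) + 1) := by
        push_cast
        rw [← sub_nonneg]
        have : 2 * ((m : ℝ) + 1) / ((m : ℝ) + 1 + 1) - (2 * (m : ℝ) / (m + 1) + ((1 + (m : ℝ)) ^ 2)⁻¹)
            = m / (((m : ℝ) + 1 + 1) * (m + 1) ^ 2) := by
          field_simp
          ring
        rw [this]
        positivity
      linarith
  refine (h m).trans ?_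
  have h1 : (0 : ℝ) ≤ m := Nat.cast_nonneg m
  rw [div_le_iff₀ (by positivity)]
  linarith

/-- summable majorant -/
theorem isum_abs_le_sq (f : ℤ → ℝ) (k : ℤ) (K : ℝ) (hK : 0 ≤ K) (h : ∀ j, Btw k j → |f j| ≤ K * ((1 + |(j : ℝ)|) ^ 2)⁻¹) :
    |isum f k| ≤ 2 * K := by
  rcases le_or_gt 0 k with hk | hk
  · obtain ⟨m, rfl⟩ := Int.eq_ofNat_of_zero_le hk
    rw [isum_nat]
    calc |∑ i ∈ Finset.range m, f i| ≤ ∑ i ∈ Finset.range m, |f i| := Finset.abs_sum_le_sum_abs _ _
      _ ≤ ∑ i ∈ Finset.range m, K * ((1 + (i : ℝ)) ^ 2)⁻¹ := Finset.sum_le_sum fun i hi => by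
          have := h (i : ℤ) (Or.inl ⟨by positivity, by exact_mod_cast Finset.mem_range.1 hi⟩)
          simpa using this
      _ = K * ∑ i ∈ Finset.range m, ((1 + (i : ℝ)) ^ 2)⁻¹ := by rw [Finset.mul_sum]
      _ ≤ K * 2 := mul_le_mul_of_nonneg_left (f42_sum_inv_sq m) hK
      _ = 2 * K := by ring
  · obtain ⟨m, rfl⟩ : ∃ m : ℕ, k = -(m : ℤ) := ⟨(-k).toNat, by omega⟩
    rw [isum_neg_nat, abs_neg]
    calc |∑ i ∈ Finset.range m, f (-1 - i)| ≤ ∑ i ∈ Finset.range m, |f (-1 - i)| := Finset.abs_sum_le_sum_abs _ _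
      _ ≤ ∑ i ∈ Finset.range m, K * ((1 + (i : ℝ)) ^ 2)⁻¹ := Finset.sum_le_sum fun i hi => by
          have := h (-1 - (i : ℤ)) (Or.inr ⟨by have := Finset.mem_range.1 hi; omega, by omega⟩)
          refine this.trans (mul_le_mul_of_nonneg_left ?_ hK)
          have h0 : (0 : ℝ) ≤ i := Nat.cast_nonneg i
          have h1 : |((-1 - (i : ℤ) : ℤ) : ℝ)| = 1 + i := by
            push_cast
            rw [abs_of_nonpos (by linarith)]; ring
          rw [h1]
          apply inv_anti₀ (by positivity)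
          apply pow_le_pow_left₀ (by positivity)
          linarith
      _ = K * ∑ i ∈ Finset.range m, ((1 + (i : ℝ)) ^ 2)⁻¹ := by rw [Finset.mul_sum]
      _ ≤ K * 2 := mul_le_mul_of_nonneg_left (f42_sum_inv_sq m) hK
      _ = 2 * K := by ring

/-- a function on a segment with small increments -/
theorem f42_segment (φ : ℤ → ℝ) (p q : ℤ) (hpq : p ≤ q) (ε : ℝ) (h : ∀ i, p ≤ i → i < q → |φ (i + 1) - φ i| ≤ ε) :
    |φ q - φ p| ≤ ((q : ℝ) - p) * ε := by
  induction q, hpq using Int.leInduction with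
  | base => simp
  | succ q hq ih =>
    have h1 := ih fun i hi hi' => h i hi (by omega)
    have h2 := h q hq (by omega)
    calc |φ (q + 1) - φ p| = |(φ (q + 1) - φ q) + (φ q - φ p)| := by ring_nf
      _ ≤ |φ (q + 1) - φ q| + |φ q - φ p| := abs_add_le _ _
      _ ≤ ε + ((q : ℝ) - p) * ε := add_le_add h2 h1
      _ = (((q + 1 : ℤ) : ℝ) - p) * ε := by push_cast; ring

/-! ## 3. the rotated gradient -/

/-- `2π ×` the rotated gradient of the primal potential `F`, on the dual bond `(x, x + e_d)`; the dual vertex `x` is the face `[x, x + (1,1)]` -/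
def rot (d : Bool) (F : ℤ × ℤ → ℝ) (x : ℤ × ℤ) : ℝ :=
  if d then 2 * Real.pi * (F (x + (1, 1)) - F (x + (1, 0))) else -(2 * Real.pi * (F (x + (1, 1)) - F (x + (0, 1))))

/-- the primal Laplacian -/
def lapZ (F : ℤ × ℤ → ℝ) (p : ℤ × ℤ) : ℝ := 4 * F p - F (p + (1, 0)) - F (p - (1, 0)) - F (p + (0, 1)) - F (p - (0, 1))

theorem rot_shift (d : Bool) (F : ℤ × ℤ → ℝ) (p x : ℤ × ℤ) : rot d (fun y => F (y + p)) x = rot d F (x + p) := by
  cases d <;> simp only [rot, add_right_comm]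

/-- co-closed, identically -/
theorem rot_div (F : ℤ × ℤ → ℝ) (x : ℤ × ℤ) :
    rot true F x + rot false F x - rot true F (x - bdir true) - rot false F (x - bdir false) = 0 := by
  obtain ⟨x1, x2⟩ := x
  simp only [rot, bdir, if_true, Bool.false_eq_true, if_false, Prod.mk_add_mk, Prod.mk_sub_mk, sub_add_cancel, sub_zero, add_zero]
  ring

/-- the circulation around the dual plaquette with lower left vertex `x` is `2π ΔF` at the primal vertex `x + (1,1)` -/
theorem rot_curl (F : ℤ × ℤ → ℝ) (x : ℤ × ℤ) :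
    rot true F x + rot false F (x + (1, 0)) - rot true F (x + (0, 1)) - rot false F x = 2 * Real.pi * lapZ F (x + (1, 1)) := by
  obtain ⟨x1, x2⟩ := x
  simp only [rot, lapZ, if_true, Bool.false_eq_true, if_false, Prod.mk_add_mk, Prod.mk_sub_mk, add_zero, add_sub_cancel_right,
    sub_zero]
  ring_nf

/-- differences of the rotated gradient, base point at the upper right corner -/
theorem dl_rot_ur (l : List (Fin 4)) (d : Bool) (F : ℤ × ℤ → ℝ) (x : ℤ × ℤ) :
    dl l (rot d F) x = (if d then -(2 * Real.pi) else 2 * Real.pi) * dl (l ++ [if d then 3 else 1]) F (x + (1, 1)) := by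
  rw [f42_dl_append, ← f42_dl_shift, ← f42_dl_mul]
  congr 1
  funext y
  obtain ⟨y1, y2⟩ := y
  cases d
  · simp only [rot, Bool.false_eq_true, if_false, dl_cons, dl_nil, dif, dir, Prod.mk_add_mk]
    simp
    ring
  · simp only [rot, if_true, dl_cons, dl_nil, dif, dir, Prod.mk_add_mk]
    simp
    ring

/-- differences of the rotated gradient, base point at the other end of the primal edge -/
theorem dl_rot_lo (l : List (Fin 4)) (d : Bool) (F : ℤ × ℤ → ℝ) (x : ℤ × ℤ) :
    dl l (rot d F) x = (if d then 2 * Real.pi else -(2 * Real.pi)) * dl (l ++ [if d then 2 else 0]) F (x + bdir d) := by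
  rw [f42_dl_append, ← f42_dl_shift, ← f42_dl_mul]
  congr 1
  funext y
  obtain ⟨y1, y2⟩ := y
  cases d
  · simp only [rot, bdir, Bool.false_eq_true, if_false, dl_cons, dl_nil, dif, dir, Prod.mk_add_mk]
    simp
  · simp only [rot, bdir, if_true, dl_cons, dl_nil, dif, dir, Prod.mk_add_mk]
    simp

/-! ## 4. the branch of a bond field with one unit of circulation -/

/-- sup norm on `ℤ × ℤ`, real valued -/
def sn (x : ℤ × ℤ) : ℝ := max |(x.1 : ℝ)| |(x.2 : ℝ)|

/-- the centred dual box of side `2 n` -/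
def InBox (n : ℕ) (x : ℤ × ℤ) : Prop := -(n : ℤ) ≤ x.1 ∧ x.1 < n ∧ -(n : ℤ) ≤ x.2 ∧ x.2 < n

/-- the cut, in centred coordinates, on the vertical bonds `(x, x + e₂)` -/
def tauP (x : ℤ × ℤ) : ℝ := if x.2 + 1 = 0 ∧ 0 ≤ x.1 then 1 else 0

/-- the branch: along the row `0`, then along the column; the last term is the sum of the cut -/
def pot (a b : ℤ × ℤ → ℝ) (x : ℤ × ℤ) : ℝ :=
  isum (fun i => a (i, 0)) x.1 + isum (fun j => b (x.1, j)) x.2 + if x.2 < 0 ∧ 0 ≤ x.1 then 2 * Real.pi else 0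

/-- the circulation of `(a, b)` in the box: one unit at the plaquette `(-1,-1)` -/
def UnitCurl (n : ℕ) (a b : ℤ × ℤ → ℝ) : Prop :=
  ∀ y, InBox n y → InBox n (y + (1, 1)) → a y + b (y + (1, 0)) - a (y + (0, 1)) - b y = if y = (-1, -1) then 2 * Real.pi else 0

theorem pot_zero (a b : ℤ × ℤ → ℝ) : pot a b 0 = 0 := by simp [pot, isum_zero]

/-- vertical increments (no hypothesis) -/
theorem pot_vert (a b : ℤ × ℤ → ℝ) (x : ℤ × ℤ) : pot a b (x + (0, 1)) - pot a b x + 2 * Real.pi * tauP x = b x := by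
  obtain ⟨x1, x2⟩ := x
  simp only [pot, tauP, Prod.mk_add_mk, add_zero, isum_succ]
  by_cases h1 : 0 ≤ x1
  · rcases lt_trichotomy (x2 + 1) 0 with h2 | h2 | h2
    · have h3 : x2 < 0 := by omega
      simp [h1, h2, h3, h2.ne]
    · have h3 : x2 < 0 := by omega
      simp [h1, h2, h3]
      ring
    · have h3 : ¬ x2 < 0 := by omega
      have h4 : ¬ x2 + 1 < 0 := by omega
      simp [h1, h3, h4, h2.ne']
  · simp [h1]

/-- horizontal increments -/
theorem pot_horiz (n : ℕ) (a b : ℤ × ℤ → ℝ) (h : UnitCurl n a b) (x : ℤ × ℤ) (hx : InBox n x) (hx' : InBox n (x + (1, 0))) :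
    pot a b (x + (1, 0)) - pot a b x = a x := by
  obtain ⟨x1, x2⟩ := x
  obtain ⟨hx1, hx2, hx3, hx4⟩ := hx
  obtain ⟨hy1, hy2, -, -⟩ := hx'
  simp only [Prod.mk_add_mk, add_zero] at hx1 hx2 hx3 hx4 hy1 hy2
  simp only [pot, Prod.mk_add_mk, add_zero, isum_succ]
  -- the column sums
  have key : isum (fun j => b (x1 + 1, j)) x2 - isum (fun j => b (x1, j)) x2
      = (a (x1, x2) - a (x1, 0)) - if x2 < 0 ∧ x1 = -1 then 2 * Real.pi else 0 := by
    rw [← isum_sub]
    have e1 : isum (fun j => b (x1 + 1, j) - b (x1, j)) x2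
        = isum (fun j => (a (x1, j + 1) - a (x1, j))
            + ((if j + 1 < 0 ∧ x1 = -1 then -(2 * Real.pi) else 0) - (if j < 0 ∧ x1 = -1 then -(2 * Real.pi) else 0))) x2 := by
      refine isum_congr _ _ _ fun j hj => ?_
      have hc := h (x1, j) ⟨hx1, hx2, by rcases hj with hj | hj <;> omega, by rcases hj with hj | hj <;> omega⟩
        ⟨by simp only [Prod.mk_add_mk]; omega, by simp only [Prod.mk_add_mk]; omega,
          by simp only [Prod.mk_add_mk]; rcases hj with hj | hj <;> omega,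
          by simp only [Prod.mk_add_mk]; rcases hj with hj | hj <;> omega⟩
      simp only [Prod.mk_add_mk, add_zero, Prod.mk.injEq] at hc
      by_cases h1 : x1 = -1
      · rcases lt_trichotomy (j + 1) 0 with h2 | h2 | h2
        · have h3 : j < 0 := by omega
          have h4 : j ≠ -1 := by omega
          simp only [h1, h4, and_false, if_false, h2, h3, and_self, if_true] at hc ⊢
          linarith
        · have h3 : j < 0 := by omega
          have h4 : j = -1 := by omega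
          have h5 : ¬ j + 1 < 0 := by omega
          simp only [h1, h4, and_self, if_true] at hc ⊢
          norm_num at hc ⊢
          linarith
        · have h3 : ¬ j < 0 := by omega
          have h4 : j ≠ -1 := by omega
          have h5 : ¬ j + 1 < 0 := by omega
          simp only [h1, h4, and_false, if_false, h5, h3, false_and] at hc ⊢
          linarith
      · simp only [h1, false_and, and_false, if_false] at hc ⊢
        linarith
    rw [e1, isum_add, isum_tel (fun j => a (x1, j)), isum_tel (fun j => if j < 0 ∧ x1 = -1 then -(2 * Real.pi) else 0)]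
    by_cases h1 : x2 < 0 ∧ x1 = -1
    · simp [h1]
      ring
    · simp [h1]
  have e2 : (if x2 < 0 ∧ 0 ≤ x1 + 1 then 2 * Real.pi else 0) - (if x2 < 0 ∧ 0 ≤ x1 then 2 * Real.pi else 0)
      = if x2 < 0 ∧ x1 = -1 then 2 * Real.pi else 0 := by
    by_cases h2 : x2 < 0
    · rcases lt_trichotomy x1 (-1) with h1 | h1 | h1
      · have h3 : ¬ 0 ≤ x1 + 1 := by omega
        have h4 : ¬ 0 ≤ x1 := by omega
        simp [h3, h4, h1.ne]
      · simp [h1, h2]
      · have h3 : 0 ≤ x1 + 1 := by omega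
        have h4 : 0 ≤ x1 := by omega
        simp [h2, h3, h4, h1.ne']
    · simp [h2]
  linarith

theorem Btw.abs_le {k j : ℤ} (h : Btw k j) : |(j : ℝ)| ≤ |(k : ℝ)| := by
  have : |j| ≤ |k| := by
    rcases h with h | h
    · rw [abs_of_nonneg h.1, abs_of_nonneg (by omega)]; omega
    · rw [abs_of_neg h.2, abs_of_neg (by omega)]; omega
  exact_mod_cast this

theorem sn_nonneg (x : ℤ × ℤ) : 0 ≤ sn x := le_max_of_le_left (abs_nonneg _)

/-- first case of `pot_bound`: the left and right sectors -/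
theorem pot_bound_lr (n : ℕ) (a b : ℤ × ℤ → ℝ) (K : ℝ) (hK : 0 ≤ K)
    (hb : ∀ y, InBox n y → |b y| ≤ K * (1 + sn y)⁻¹)
    (hrow : ∀ i : ℤ, InBox n (i, 0) → |a (i, 0)| ≤ K * ((1 + |(i : ℝ)|) ^ 2)⁻¹) (x : ℤ × ℤ) (hx : InBox n x)
    (hs : |(x.2 : ℝ)| ≤ |(x.1 : ℝ)|) : |pot a b x| ≤ 3 * K + 2 * Real.pi := by
  obtain ⟨x1, x2⟩ := x
  obtain ⟨hx1, hx2, hx3, hx4⟩ := hx
  simp only at hx1 hx2 hx3 hx4 hs
  have h1 : |isum (fun i => a (i, 0)) x1| ≤ 2 * K := by
    refine isum_abs_le_sq _ _ K hK fun j hj => hrow j ⟨?_, ?_, ?_, ?_⟩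
    · simp only; rcases hj with hj | hj <;> omega
    · simp only; rcases hj with hj | hj <;> omega
    · simp only; omega
    · simp only; omega
  have h2 : |isum (fun j => b (x1, j)) x2| ≤ |(x2 : ℝ)| * (K * (1 + |(x1 : ℝ)|)⁻¹) := by
    refine isum_abs_le _ _ _ fun j hj => ?_
    refine (hb (x1, j) ⟨hx1, hx2, ?_, ?_⟩).trans ?_
    · simp only; rcases hj with hj | hj <;> omega
    · simp only; rcases hj with hj | hj <;> omega
    · refine mul_le_mul_of_nonneg_left ?_ hK
      apply inv_anti₀ (by positivity)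
      have : |(x1 : ℝ)| ≤ sn (x1, j) := le_max_left _ _
      linarith
  have h3 : |(x2 : ℝ)| * (K * (1 + |(x1 : ℝ)|)⁻¹) ≤ K := by
    have h0 : 0 ≤ |(x1 : ℝ)| := abs_nonneg _
    rw [mul_comm, mul_assoc, ← div_eq_inv_mul]
    refine mul_le_of_le_one_right hK ?_
    rw [div_le_one (by positivity)]
    linarith
  have h4 : |(if x2 < 0 ∧ 0 ≤ x1 then 2 * Real.pi else 0 : ℝ)| ≤ 2 * Real.pi := by
    split_ifs
    · rw [abs_of_pos (by positivity)]
    · simp; positivity
  simp only [pot]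
  calc _ ≤ |isum (fun i => a (i, 0)) x1 + isum (fun j => b (x1, j)) x2| + |(if x2 < 0 ∧ 0 ≤ x1 then 2 * Real.pi else 0 : ℝ)| :=
        abs_add_le _ _
    _ ≤ |isum (fun i => a (i, 0)) x1| + |isum (fun j => b (x1, j)) x2| + |(if x2 < 0 ∧ 0 ≤ x1 then 2 * Real.pi else 0 : ℝ)| := by
        gcongr; exact abs_add_le _ _
    _ ≤ 3 * K + 2 * Real.pi := by linarith

/-- **bounded branch** (ring integration of the paper: row `0`, columns in the left and right sectors, rows in the upper and lower sectors) -/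
theorem pot_bound (n : ℕ) (a b : ℤ × ℤ → ℝ) (h : UnitCurl n a b) (K : ℝ) (hK : 0 ≤ K)
    (ha : ∀ y, InBox n y → |a y| ≤ K * (1 + sn y)⁻¹) (hb : ∀ y, InBox n y → |b y| ≤ K * (1 + sn y)⁻¹)
    (hrow : ∀ i : ℤ, InBox n (i, 0) → |a (i, 0)| ≤ K * ((1 + |(i : ℝ)|) ^ 2)⁻¹) (x : ℤ × ℤ) (hx : InBox n x) :
    |pot a b x| ≤ 5 * K + 2 * Real.pi := by
  by_cases hs : |(x.2 : ℝ)| ≤ |(x.1 : ℝ)|
  · have := pot_bound_lr n a b K hK hb hrow x hx hs
    linarith
  · obtain ⟨x1, x2⟩ := x
    obtain ⟨hx1, hx2, hx3, hx4⟩ := hx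
    simp only at hx1 hx2 hx3 hx4 hs
    have hs' : |x1| < |x2| := by
      have : |(x1 : ℝ)| < |(x2 : ℝ)| := not_le.1 hs
      exact_mod_cast this
    have hb2 : |x2| ≤ n := by rw [abs_le]; omega
    have hx1' : -|x2| ≤ x1 := by have := neg_abs_le x1; omega
    have h1 := pot_bound_lr n a b K hK hb hrow (-|x2|, x2) ⟨by simp only; omega, by
      simp only; have := abs_nonneg x2; omega, hx3, hx4⟩ (by simp)
    have h2 := f42_segment (fun i => pot a b (i, x2)) (-|x2|) x1 hx1' (K * (1 + |(x2 : ℝ)|)⁻¹) (by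
      intro i hi hi'
      have e := pot_horiz n a b h (i, x2) ⟨by simp only; omega, by simp only; omega, hx3, hx4⟩
        ⟨by simp only [Prod.mk_add_mk]; omega, by simp only [Prod.mk_add_mk]; omega, by simpa using hx3, by simpa using hx4⟩
      simp only [Prod.mk_add_mk, add_zero] at e
      simp only [e]
      refine (ha (i, x2) ⟨by simp only; omega, by simp only; omega, hx3, hx4⟩).trans ?_
      refine mul_le_mul_of_nonneg_left ?_ hK
      apply inv_anti₀ (by positivity)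
      have : |(x2 : ℝ)| ≤ sn (i, x2) := le_max_right _ _
      linarith)
    have h3 : ((x1 : ℝ) - ((-|x2| : ℤ) : ℝ)) * (K * (1 + |(x2 : ℝ)|)⁻¹) ≤ 2 * K := by
      have h0 : 0 ≤ |(x2 : ℝ)| := abs_nonneg _
      have h5 : (x1 : ℝ) ≤ |(x2 : ℝ)| := by
        have : x1 ≤ |x2| := by have := le_abs_self x1; omega
        exact_mod_cast this
      have h6 : ((x1 : ℝ) - ((-|x2| : ℤ) : ℝ)) ≤ 2 * (1 + |(x2 : ℝ)|) := by
        push_cast; linarith
      calc _ ≤ 2 * (1 + |(x2 : ℝ)|) * (K * (1 + |(x2 : ℝ)|)⁻¹) := by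
            apply mul_le_mul_of_nonneg_right h6; positivity
        _ = 2 * K := by field_simp
    have h4 : |pot a b (x1, x2)| ≤ |pot a b (x1, x2) - pot a b (-|x2|, x2)| + |pot a b (-|x2|, x2)| := by
      have := abs_add_le (pot a b (x1, x2) - pot a b (-|x2|, x2)) (pot a b (-|x2|, x2))
      simpa using this
    linarith

/-- comparison of two branches with the same cut and the same additive convention -/
theorem pot_compare (a b a' b' : ℤ × ℤ → ℝ) (ε : ℝ) (x : ℤ × ℤ) (ha : ∀ y, sn y ≤ sn x → |a y - a' y| ≤ ε)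
    (hb : ∀ y, sn y ≤ sn x → |b y - b' y| ≤ ε) : |pot a b x - pot a' b' x| ≤ 2 * sn x * ε := by
  have hε : 0 ≤ ε := (abs_nonneg _).trans (ha x le_rfl)
  obtain ⟨x1, x2⟩ := x
  have e : pot a b (x1, x2) - pot a' b' (x1, x2)
      = isum (fun i => a (i, 0) - a' (i, 0)) x1 + isum (fun j => b (x1, j) - b' (x1, j)) x2 := by
    simp only [pot, isum_sub]; ring
  have h1 : |isum (fun i => a (i, 0) - a' (i, 0)) x1| ≤ |(x1 : ℝ)| * ε := by
    refine isum_abs_le _ _ _ fun j hj => ha _ ?_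
    simp only [sn, Int.cast_zero, abs_zero]
    exact max_le (le_max_of_le_left hj.abs_le) (le_max_of_le_left (abs_nonneg _))
  have h2 : |isum (fun j => b (x1, j) - b' (x1, j)) x2| ≤ |(x2 : ℝ)| * ε := by
    refine isum_abs_le _ _ _ fun j hj => hb _ ?_
    simp only [sn]
    exact max_le (le_max_left _ _) (le_max_of_le_right hj.abs_le)
  have h3 : |(x1 : ℝ)| * ε ≤ sn (x1, x2) * ε := mul_le_mul_of_nonneg_right (le_max_left _ _) hε
  have h4 : |(x2 : ℝ)| * ε ≤ sn (x1, x2) * ε := mul_le_mul_of_nonneg_right (le_max_right _ _) hε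
  rw [e]
  have := abs_add_le (isum (fun i => a (i, 0) - a' (i, 0)) x1) (isum (fun j => b (x1, j) - b' (x1, j)) x2)
  linarith

/-! ## 5. summation by parts on the free square -/

theorem f42_abel (M : ℕ) (A ψ : ℕ → ℝ) (h0 : A 0 = 0) (hM : A M = 0) :
    ∑ j ∈ Finset.range M, (A (j + 1) - A j) * ψ j = -∑ j ∈ Finset.range M, A (j + 1) * (ψ (j + 1) - ψ j) := by
  have h := Finset.sum_range_sub (fun j => A j * ψ j) M
  simp only [h0, hM, zero_mul, sub_zero] at h
  rw [eq_neg_iff_add_eq_zero, ← Finset.sum_add_distrib, ← h]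
  exact Finset.sum_congr rfl fun j _ => by ring

/-- **co-closed at the free boundary**: the rotated gradient of a potential vanishing on the walls is orthogonal to all gradients -/
theorem f42_coclosed (F : ℤ × ℤ → ℝ) (hw : ∀ p : ℤ × ℤ, (p.1 = 0 ∨ p.1 = G.M ∨ p.2 = 0 ∨ p.2 = G.M) → F p = 0)
    (η : G.V × Bool → ℝ) (hη : ∀ e : G.V × Bool, stp e.1 e.2 ≠ e.1 → η e = rot e.2 F (G.ι e.1)) (f : G.V → ℝ) :
    ∑ e : G.V × Bool, η e * (f (stp e.1 e.2) - f e.1) = 0 := by
  have s1 : ∀ e : G.V × Bool, η e * (f (stp e.1 e.2) - f e.1) = rot e.2 F (G.ι e.1) * (f (stp e.1 e.2) - f e.1) := by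
    intro e
    by_cases h : stp e.1 e.2 = e.1
    · rw [h]; simp
    · rw [hη e h]
  simp only [s1]
  obtain ⟨φ, hφ⟩ : ∃ φ : ℕ → ℕ → ℝ, φ = fun (i j : ℕ) => f (G.fold (i : ℤ), G.fold (j : ℤ)) := ⟨_, rfl⟩
  obtain ⟨A, hA⟩ : ∃ A : ℕ → ℕ → ℝ, A = fun (i j : ℕ) => F ((i : ℤ), (j : ℤ)) := ⟨_, rfl⟩
  have t : ∀ v : G.V, rot true F (G.ι v) * (f (stp v true) - f v) + rot false F (G.ι v) * (f (stp v false) - f v)
      = 2 * Real.pi * ((A (v.1 + 1) (v.2 + 1) - A (v.1 + 1) v.2) * (φ (v.1 + 1) v.2 - φ v.1 v.2))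
        - 2 * Real.pi * ((A (v.1 + 1) (v.2 + 1) - A v.1 (v.2 + 1)) * (φ v.1 (v.2 + 1) - φ v.1 v.2)) := by
    intro v
    have e0 : f v = f (G.fold ((v.1 : ℕ) : ℤ), G.fold ((v.2 : ℕ) : ℤ)) := by rw [fold_coe, fold_coe]
    rw [stp_true, stp_false, hφ, hA]
    simp only [rot, Geom.ι, if_true, Bool.false_eq_true, if_false, Prod.mk_add_mk, add_zero, Nat.cast_add, Nat.cast_one, fold_coe]
    ring
  rw [Fintype.sum_prod_type]
  simp only [Fintype.sum_bool, t]
  rw [Fintype.sum_prod_type]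
  simp only [Finset.sum_sub_distrib, ← Finset.mul_sum]
  rw [Fin.sum_univ_eq_sum_range (fun i => ∑ j : Fin G.M, (A (i + 1) (j + 1) - A (i + 1) j) * (φ (i + 1) j - φ i j)) G.M,
    Fin.sum_univ_eq_sum_range (fun i => ∑ j : Fin G.M, (A (i + 1) (j + 1) - A i (j + 1)) * (φ i (j + 1) - φ i j)) G.M]
  have u1 : ∀ i, ∑ j : Fin G.M, (A (i + 1) (j + 1) - A (i + 1) j) * (φ (i + 1) j - φ i j)
      = -∑ j ∈ Finset.range G.M, A (i + 1) (j + 1) * ((φ (i + 1) (j + 1) - φ i (j + 1)) - (φ (i + 1) j - φ i j)) := by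
    intro i
    rw [Fin.sum_univ_eq_sum_range (fun j => (A (i + 1) (j + 1) - A (i + 1) j) * (φ (i + 1) j - φ i j)) G.M]
    exact f42_abel G.M (fun j => A (i + 1) j) (fun j => φ (i + 1) j - φ i j) (by rw [hA]; exact hw _ (by simp))
      (by rw [hA]; exact hw _ (by simp))
  have u2 : ∑ i ∈ Finset.range G.M, ∑ j : Fin G.M, (A (i + 1) (j + 1) - A i (j + 1)) * (φ i (j + 1) - φ i j)
      = -∑ i ∈ Finset.range G.M, ∑ j ∈ Finset.range G.M,
          A (i + 1) (j + 1) * ((φ (i + 1) (j + 1) - φ i (j + 1)) - (φ (i + 1) j - φ i j)) := by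
    have : ∀ i, ∑ j : Fin G.M, (A (i + 1) (j + 1) - A i (j + 1)) * (φ i (j + 1) - φ i j)
        = ∑ j ∈ Finset.range G.M, (A (i + 1) (j + 1) - A i (j + 1)) * (φ i (j + 1) - φ i j) := fun i =>
      Fin.sum_univ_eq_sum_range (fun j => (A (i + 1) (j + 1) - A i (j + 1)) * (φ i (j + 1) - φ i j)) G.M
    simp only [this]
    rw [Finset.sum_comm]
    conv_rhs => rw [Finset.sum_comm]
    rw [← Finset.sum_neg_distrib]
    refine Finset.sum_congr rfl fun j _ => ?_
    rw [f42_abel G.M (fun i => A i (j + 1)) (fun i => φ i (j + 1) - φ i j) (by rw [hA]; exact hw _ (by simp))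
      (by rw [hA]; exact hw _ (by simp))]
    congr 1
    exact Finset.sum_congr rfl fun i _ => by ring
  simp only [u1]
  rw [u2, Finset.sum_neg_distrib]
  ring

/-! ## 6. reflected stencils -/

/-- odd and `2 M`-periodic in one variable -/
structure Odd1 (M : ℕ) (φ : ℤ → ℝ) : Prop where
  odd : ∀ x, φ (-x) = -φ x
  per : ∀ x, φ (x + 2 * M) = φ x

namespace Odd1

variable {M : ℕ} {φ : ℤ → ℝ} (h : Odd1 M φ)
include h

theorem per_mul (x k : ℤ) : φ (x + 2 * M * k) = φ x := by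
  induction k using Int.induction_on with
  | zero => simp
  | succ i ih =>
    have := h.per (x + 2 * M * i)
    rw [ih] at this
    rw [← this]; congr 1; ring
  | pred i ih =>
    have := h.per (x + 2 * M * (-(i : ℤ) - 1))
    rw [← this, ← ih]; congr 1; ring

theorem zero : φ 0 = 0 := by
  have := h.odd 0
  simp only [neg_zero] at this
  linarith

theorem wall : φ M = 0 := by
  have h1 := h.odd M
  have h2 := h.per (-(M : ℤ))
  have e : (-(M : ℤ) + 2 * M) = M := by ring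
  rw [e] at h2
  linarith

theorem sub {ψ : ℤ → ℝ} (h' : Odd1 M ψ) : Odd1 M (fun x => φ x - ψ x) :=
  ⟨fun x => by simp only [h.odd, h'.odd]; ring, fun x => by simp only [h.per, h'.per]⟩

end Odd1

/-- the difference across a dual cell is even under the folding -/
theorem fold_cell (hG : G.bc = BC.free) {φ : ℤ → ℝ} (h : Odd1 G.M φ) (x : ℤ) :
    φ (x + 1) - φ x = φ ((G.fold x : ℕ) + 1) - φ (G.fold x : ℕ) := by
  obtain ⟨i, hi⟩ : ∃ i, i = G.fold x := ⟨_, rfl⟩
  rw [← hi]
  rcases fold_free_cases hG x with ⟨k, hk⟩ | ⟨k, hk⟩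
  · rw [← hi] at hk
    have e1 : x + 1 = (((i : ℕ) : ℤ) + 1) + 2 * G.M * k := by linarith
    rw [e1, h.per_mul, hk, h.per_mul]
  · rw [← hi] at hk
    have e1 : x + 1 = -((i : ℕ) : ℤ) + 2 * G.M * k := by linarith
    have e2 : x = -(((i : ℕ) : ℤ) + 1) + 2 * G.M * k := by linarith
    rw [e1, h.per_mul, h.odd, e2, h.per_mul, h.odd]
    ring

/-- the three positions of a lifted bond -/
theorem fold_step (hG : G.bc = BC.free) (x : ℤ) :
    (G.fold (x + 1) = G.fold x ∧ ∀ ψ, Odd1 G.M ψ → ψ (x + 1) = 0) ∨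
    (G.fold (x + 1) ≠ G.fold x ∧ G.fold (x + 1) = G.fold ((G.fold x : ℕ) + 1) ∧
      ∀ ψ, Odd1 G.M ψ → ψ (x + 1) = ψ ((G.fold x : ℕ) + 1)) ∨
    (G.fold (x + 1) ≠ G.fold x ∧ G.fold (x + 1) ≠ G.fold ((G.fold x : ℕ) + 1) ∧
      G.fold ((G.fold (x + 1) : ℕ) + 1) ≠ G.fold (x + 1) ∧ ∀ ψ, Odd1 G.M ψ → ψ (x + 1) = -ψ ((G.fold (x + 1) : ℕ) + 1)) := by
  obtain ⟨i, hi⟩ : ∃ i, i = G.fold x := ⟨_, rfl⟩
  rw [← hi]
  have hiM := i.2
  rcases fold_free_cases hG x with ⟨k, hk⟩ | ⟨k, hk⟩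
  · rw [← hi] at hk
    rcases Nat.lt_or_ge ((i : ℕ) + 1) G.M with h1 | h1
    · -- forwards
      right; left
      have e1 : x + 1 = (((i : ℕ) + 1 : ℕ) : ℤ) + 2 * G.M * k := by push_cast; linarith
      have f1 : G.fold (x + 1) = ⟨i + 1, h1⟩ := by rw [e1]; exact fold_free_pos hG _ h1 k
      have f2 : G.fold (((i : ℕ) : ℤ) + 1) = ⟨i + 1, h1⟩ := by
        have := fold_free_pos hG _ h1 0
        simpa using this
      refine ⟨?_, by rw [f1, f2], fun ψ hψ => ?_⟩
      · rw [f1]; intro h; have := congrArg Fin.val h; simp at this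
      · rw [e1, hψ.per_mul]; push_cast; rfl
    · -- the right mirror
      left
      have hM : (G.M : ℤ) = (i : ℕ) + 1 := by have : G.M = (i : ℕ) + 1 := by omega
                                              exact_mod_cast this
      have e1 : x + 1 = -1 - ((i : ℕ) : ℤ) + 2 * G.M * (k + 1) := by rw [hk]; linear_combination (-2 : ℤ) * hM
      refine ⟨by rw [e1]; exact fold_free_neg hG _ i.2 _, fun ψ hψ => ?_⟩
      have e2 : x + 1 = (G.M : ℤ) + 2 * G.M * k := by rw [hk, hM]; ring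
      rw [e2, hψ.per_mul, hψ.wall]
  · rw [← hi] at hk
    rcases Nat.eq_zero_or_pos (i : ℕ) with h0 | h0
    · -- the left mirror
      left
      have e1 : x + 1 = ((0 : ℕ) : ℤ) + 2 * G.M * k := by rw [hk, h0]; push_cast; ring
      refine ⟨?_, fun ψ hψ => ?_⟩
      · rw [e1, fold_free_pos hG 0 G.hM k]; exact Fin.ext h0.symm
      · rw [e1, hψ.per_mul]; simpa using hψ.zero
    · -- backwards
      right; right
      have h1 : (i : ℕ) - 1 < G.M := by omega
      have c1 : (((i : ℕ) - 1 : ℕ) : ℤ) = (i : ℕ) - 1 := by omega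
      have e1 : x + 1 = -1 - (((i : ℕ) - 1 : ℕ) : ℤ) + 2 * G.M * k := by rw [c1, hk]; ring
      have f1 : G.fold (x + 1) = ⟨i - 1, h1⟩ := by rw [e1]; exact fold_free_neg hG _ h1 k
      have f3 : G.fold ((((⟨i - 1, h1⟩ : Fin G.M) : ℕ) : ℤ) + 1) = i := by
        have : ((((⟨i - 1, h1⟩ : Fin G.M) : ℕ) : ℤ) + 1) = ((i : ℕ) : ℤ) := by simp only [c1]; ring
        rw [this, fold_coe]
      refine ⟨?_, ?_, ?_, fun ψ hψ => ?_⟩
      · rw [f1]; intro h; have := congrArg Fin.val h; simp only at this; omega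
      · rw [f1]
        rcases Nat.lt_or_ge ((i : ℕ) + 1) G.M with h2 | h2
        · have f2 : G.fold (((i : ℕ) : ℤ) + 1) = ⟨i + 1, h2⟩ := by
            have := fold_free_pos hG _ h2 0
            simpa using this
          rw [f2]; intro h; have := congrArg Fin.val h; simp only at this; omega
        · have hM : (G.M : ℤ) = (i : ℕ) + 1 := by have : G.M = (i : ℕ) + 1 := by omega
                                                  exact_mod_cast this
          have f2 : G.fold (((i : ℕ) : ℤ) + 1) = i := by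
            have := fold_free_neg hG _ i.2 1
            have e : (-1 - ((i : ℕ) : ℤ) + 2 * G.M * 1) = ((i : ℕ) : ℤ) + 1 := by rw [hM]; ring
            rwa [e] at this
          rw [f2]; intro h; have := congrArg Fin.val h; simp only at this; omega
      · rw [f1, f3]; intro h; have := congrArg Fin.val h; simp only at this; omega
      · rw [f1]
        have e2 : x + 1 = -((i : ℕ) : ℤ) + 2 * G.M * k := by rw [hk]; ring
        rw [e2, hψ.per_mul, hψ.odd]
        simp only [c1]; congr 2; ring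

/-- reflection symmetries of an odd lift; UNCENTRED primal coordinates, walls at `0` and `M` -/
structure OddLift (M : ℕ) (F : ℤ × ℤ → ℝ) : Prop where
  o1 : ∀ y, Odd1 M fun x => F (x, y)
  o2 : ∀ x, Odd1 M fun y => F (x, y)

/-- **reflected stencils**: the folded bond field of the rotated gradient of an odd lift is the rotated gradient of the lift -/
theorem f42_elift_rot (hG : G.bc = BC.free) (F : ℤ × ℤ → ℝ) (hF : OddLift G.M F) (η : G.V × Bool → ℝ)
    (hη : ∀ e : G.V × Bool, stp e.1 e.2 ≠ e.1 → η e = rot e.2 F (G.ι e.1)) (x : ℤ × ℤ) (d : Bool) :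
    elift η x d = rot d F x := by
  obtain ⟨x1, x2⟩ := x
  cases d
  · -- vertical bonds
    have hψ : Odd1 G.M fun q => F (((G.fold x1 : ℕ) : ℤ) + 1, q) - F (((G.fold x1 : ℕ) : ℤ), q) := (hF.o2 _).sub (hF.o2 _)
    have r0 : ∀ q, F (x1 + 1, q) - F (x1, q) = F (((G.fold x1 : ℕ) : ℤ) + 1, q) - F (((G.fold x1 : ℕ) : ℤ), q) :=
      fun q => fold_cell hG (hF.o1 q) x1
    have r1 : rot false F (x1, x2) = -(2 * Real.pi * (F (((G.fold x1 : ℕ) : ℤ) + 1, x2 + 1) - F (((G.fold x1 : ℕ) : ℤ), x2 + 1))) := by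
      simp only [rot, Bool.false_eq_true, if_false, Prod.mk_add_mk, add_zero, r0]
    have r2 : ∀ j : Fin G.M, rot false F (G.ι (G.fold x1, j))
        = -(2 * Real.pi * (F (((G.fold x1 : ℕ) : ℤ) + 1, ((j : ℕ) : ℤ) + 1) - F (((G.fold x1 : ℕ) : ℤ), ((j : ℕ) : ℤ) + 1))) := by
      intro j
      simp only [rot, Geom.ι, Bool.false_eq_true, if_false, Prod.mk_add_mk, add_zero]
    have c1 : G.π ((x1, x2) + bdir false) = (G.fold x1, G.fold (x2 + 1)) := by simp [Geom.π, bdir]
    have c2 : G.π (x1, x2) = (G.fold x1, G.fold x2) := rfl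
    simp only [elift, c1, c2, stp_false, Prod.mk.injEq, true_and]
    rw [r1]
    rcases fold_step hG x2 with ⟨h1, h2⟩ | ⟨h1, h2, h3⟩ | ⟨h1, h2, h3, h4⟩
    · rw [if_pos h1, h2 _ hψ]; simp
    · rw [if_neg h1, if_pos h2, hη _ (by
        simp only [stp_false]; intro h; exact h1 (h2.trans (congrArg Prod.snd h))), r2, h3 _ hψ]
    · rw [if_neg h1, if_neg h2, hη _ (by
        simp only [stp_false]; intro h; exact h3 (congrArg Prod.snd h)), r2, h4 _ hψ]
      ring
  · -- horizontal bonds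
    have hψ : Odd1 G.M fun p => F (p, ((G.fold x2 : ℕ) : ℤ) + 1) - F (p, ((G.fold x2 : ℕ) : ℤ)) := (hF.o1 _).sub (hF.o1 _)
    have r0 : ∀ p, F (p, x2 + 1) - F (p, x2) = F (p, ((G.fold x2 : ℕ) : ℤ) + 1) - F (p, ((G.fold x2 : ℕ) : ℤ)) :=
      fun p => fold_cell hG (hF.o2 p) x2
    have r1 : rot true F (x1, x2) = 2 * Real.pi * (F (x1 + 1, ((G.fold x2 : ℕ) : ℤ) + 1) - F (x1 + 1, ((G.fold x2 : ℕ) : ℤ))) := by
      simp only [rot, if_true, Prod.mk_add_mk, add_zero, r0]
    have r2 : ∀ i : Fin G.M, rot true F (G.ι (i, G.fold x2))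
        = 2 * Real.pi * (F (((i : ℕ) : ℤ) + 1, ((G.fold x2 : ℕ) : ℤ) + 1) - F (((i : ℕ) : ℤ) + 1, ((G.fold x2 : ℕ) : ℤ))) := by
      intro i
      simp only [rot, Geom.ι, if_true, Prod.mk_add_mk, add_zero]
    have c1 : G.π ((x1, x2) + bdir true) = (G.fold (x1 + 1), G.fold x2) := by simp [Geom.π, bdir]
    have c2 : G.π (x1, x2) = (G.fold x1, G.fold x2) := rfl
    simp only [elift, c1, c2, stp_true, Prod.mk.injEq, and_true]
    rw [r1]
    rcases fold_step hG x1 with ⟨h1, h2⟩ | ⟨h1, h2, h3⟩ | ⟨h1, h2, h3, h4⟩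
    · rw [if_pos h1, h2 _ hψ]; simp
    · rw [if_neg h1, if_pos h2, hη _ (by
        simp only [stp_true]; intro h; exact h1 (h2.trans (congrArg Prod.fst h))), r2, h3 _ hψ]
    · rw [if_neg h1, if_neg h2, hη _ (by
        simp only [stp_true]; intro h; exact h3 (congrArg Prod.fst h)), r2, h4 _ hψ]
      ring

end

end Claimed.Agent.R285.F4a
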